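import Vale.Agent.P216.H285.Rev3

/-!
# P216-C, C13-SIGN (S5): the two exact cochains, direct evaluation on the based loops
-/

open Finsupp Set BoundedContinuousFunction

namespace Vale.Agent.P216.H285

open Vale.Agent.P216.Sl Vale.Agent.P216.PS Vale.Agent.P216.N929 Vale.Agent.P216.H977C
open Vale.Agent.P216.AS Vale.Agent.P216.H754B

variable {k : Type} [Field k] {M : Type} [MetricSpace M] [CompactSpace M]
variable {n e D : ℕ} (G : Geo M n) (τ : Tau k M n G.ρ₁) (E : Eta k M e) (hD : D + 1 = n + e)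

/-- `eta o theta + eta` is exact on the loops of duration `s`. -/
theorem exL_E (E : Eta k M e) (x₀ : M) (hE : AddE E.f) (he : 1 ≤ e) (s : ℕ) :
    ExL (P x₀ x₀ s) e fun l => E.f (l.map (rv s)) + E.f l := by
  obtain ⟨e', rfl⟩ : ∃ e', e = e' + 1 := ⟨e - 1, by omega⟩
  refine exL_congr one_pos (exL_eta (x₀ := x₀) hE E.nrm (fun T => ⟨E.ε, E.hε, E.coc _ _ T⟩) s)
    fun l _ _ => add_comm _ _

/-- `W 1 o theta + W 1` is exact on the loops of duration `s`. -/
theorem exL_W1 (hE : AddE E.f) (b : Bool) (hT : ExT G τ E hD b) (s : ℕ) :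
    ExL (P G.x₀ G.x₀ s) D fun l => W G τ E hD b 1 (l.map (rv s)) + W G τ E hD b 1 l := by
  obtain ⟨N, hN, hW⟩ := W_one G τ E hD b
  have hn := G.hn
  have hs := W_scl G τ E hD b 0
  have hcoc : ∀ a a' T, Coc (P a a' T) (Aε G τ E hD (!b) 0) e E.f := fun a a' T =>
    (E.coc a a' T).mono subset_rfl (min_le_left _ _)
  obtain ⟨n', rfl⟩ : ∃ n', n = n' + 1 := ⟨n - 1, by omega⟩
  obtain rfl : D = n' + e := by omega
  refine exL_congr one_pos (exL_V τ G.seg G.hr G.hrρ hs hE E.nrm (fun T => hcoc _ _ T) (G.hx _) hN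
    (by omega) s ⟨E.ε, E.hε, E.coc _ _ _⟩ (hT N s hN)) fun l hl _ => ?_
  rw [hW l hl, hW _ (by rw [List.length_map]; exact hl), add_comm]

end Vale.Agent.P216.H285
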