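import Vale.Agent.P216.H894.CellAt
import Vale.Agent.P216.H456C.CellSp
import Vale.Agent.P216.H754B.Fl
import Vale.Agent.P216.H550.LinSp

/-!
# P216-C, C07: the free loops over the handles, with the reversal

For a handle decomposition `C : CellDec M d h` the free loops over `C.L (j + 1)` are obtained from
the free loops over `C.L j` by attaching one cell of dimension `d * j` (`CellAt` of H894), and the
reversal is compatible with everything (`CellAt.Op`).
-/

set_option linter.all false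

open Set BoundedContinuousFunction

namespace Vale.Agent.P216.H285

open Vale.Agent.P216.AS Vale.Agent.P216.H901 Vale.Agent.P216.PS Vale.Agent.P216.MV337
open Vale.Agent.P216.H754B Vale.Agent.P216.H894 Vale.Agent.P216.H83 Vale.Agent.P216.H550
open Vale.Agent.P216.H133C Vale.Agent.P216.H456C

/-! ### Generic part: an evaluation map, closed sets -/

section Gen

variable {E E' M : Type} [MetricSpace E] [MetricSpace E'] [MetricSpace M] {ev : E → M}
  {X : ℝ → Set E} {Om : ℝ → Set E'} {k : Type} [Field k]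

/-- The space over `D`. -/
noncomputable abbrev XD (k : Type) [Field k] (hX : Mono X) (ev : E → M) (D : Set M) (q : ℕ) :
    PM k := pmX k (mono_ovr (ev := ev) hX D) q

/-- The pair `(D, D')`. -/
noncomputable abbrev RD (k : Type) [Field k] (hX : Mono X) (ev : E → M) (D D' : Set M) (q : ℕ) :
    PM k := pmP k (mono_ovr (ev := ev) hX D) (mono_ovr (ev := ev) hX D') q

/-- The operator on the space over `D`. -/
noncomputable def opXD (R : EvOp ev X) (k : Type) [Field k] (hX : Mono X) (D : Set M) (q : ℕ) :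
    PMOp (XD k hX ev D q) :=
  (R.sp (sb_ovr D) (sb_empty (ev := ev)) fun _ => empty_subset _).op k (mono_ovr hX D) mono_empty
    (fun _ => empty_subset _) q

theorem ovr_sub' {D D' : Set M} (h : D' ⊆ D) (t : ℝ) : ovr ev X D' t ⊆ ovr ev X D t :=
  ovr_mono subset_rfl h

/-- The operator on the pair. -/
noncomputable def opRD (R : EvOp ev X) (k : Type) [Field k] (hX : Mono X) {D D' : Set M}
    (h : D' ⊆ D) (q : ℕ) : PMOp (RD k hX ev D D' q) :=
  (R.sp (sb_ovr D) (sb_ovr D') (ovr_sub' h)).op k (mono_ovr hX D) (mono_ovr hX D') (ovr_sub' h) q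

/-- The operator on the fibre. -/
noncomputable def opOm (R : SpOp Om (fun _ => ∅)) (k : Type) [Field k] (hO : Mono Om) (q : ℕ) :
    PMOp (pmX k hO q) :=
  R.op k hO mono_empty (fun _ => empty_subset _) q

section les

variable (R : EvOp ev X) (hX : Mono X) {D D' : Set M} (h : D' ⊆ D)

theorem les_α (q : ℕ) (t : ℝ) (ht : 0 < t) (x : Hr (tr E) (on k) (ovr ev X D t) (ovr ev X D' t) q) :
    lesA k (ovr ev X D t) (ovr ev X D' t) q ((opRD R k hX h q).r t ht x) =
      (opXD R k hX D q).r t ht (lesA k (ovr ev X D t) (ovr ev X D' t) q x) := by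
  obtain ⟨y, hy, rfl⟩ := H.exists_mk x
  rfl

theorem les_β (q : ℕ) (t : ℝ) (ht : 0 < t) (x : Hr (tr E) (on k) (ovr ev X D t) ∅ q) :
    lesB k (ovr_sub' (ev := ev) (X := X) h t) q ((opXD R k hX D q).r t ht x) =
      (opXD R k hX D' q).r t ht (lesB k (ovr_sub' (ev := ev) (X := X) h t) q x) := by
  obtain ⟨y, hy, rfl⟩ := H.exists_mk x
  rfl

theorem les_δ (q : ℕ) (t : ℝ) (ht : 0 < t) (x : Hr (tr E) (on k) (ovr ev X D' t) ∅ q) :
    lesD k (ovr ev X D t) (ovr ev X D' t) q ((opXD R k hX D' q).r t ht x) =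
      (opRD R k hX h (q + 1)).r t ht (lesD k (ovr ev X D t) (ovr ev X D' t) q x) :=
  lesD_pullR k ((R.sp (sb_ovr D) (sb_ovr D') (ovr_sub' h)).map t ht) (ovr_sub' h t)
    ((R.sp (sb_ovr D) (sb_ovr D') (ovr_sub' h)).sub t ht)
    ((R.sp (sb_ovr D') (sb_empty (ev := ev)) fun _ => empty_subset _).map t ht) q x

end les

/-! ### Excision -/

section exc

variable (hX : Mono X) (hev : Continuous ev) (cX : ∀ t, 0 < t → IsCompact (X t))
  {A D U N : Set M} (hA : IsClosed A) (hD : IsClosed D) (hU : U = A ∪ D) (hN : N = D ∩ A)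

include hev cX hA hD hU hN in
theorem exc_bij (h2 : (2 : k) ≠ 0) (t : ℝ) (ht : 0 < t) (hDU : D ⊆ U) (hNA : N ⊆ A) (q : ℕ) :
    Function.Bijective (resR (ovr_sub' hDU t) (ovr_sub' hNA t) q :
      Hr (tr E) (on k) (ovr ev X U t) (ovr ev X A t) q →ₗ[k]
        Hr (tr E) (on k) (ovr ev X D t) (ovr ev X N t) q) := by
  refine strong_excision (tw_tr h2 _) (ovr_compact hev hA (cX t ht)) (ovr_compact hev hD (cX t ht))
    (inv_tr _) (inv_tr _) ?_ ?_ _ _ q
  · rw [hU]
    ext w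
    exact ⟨fun h => h.2.elim (fun h' => Or.inl ⟨h.1, h'⟩) fun h' => Or.inr ⟨h.1, h'⟩,
      fun h => h.elim (fun h => ⟨h.1, Or.inl h.2⟩) fun h => ⟨h.1, Or.inr h.2⟩⟩
  · rw [hN]
    ext w
    exact ⟨fun h => ⟨⟨h.1, h.2.2⟩, ⟨h.1, h.2.1⟩⟩, fun h => ⟨h.1.1, h.2.2, h.1.2⟩⟩

/-- Strong excision over closed sets. -/
noncomputable def isoEx (h2 : (2 : k) ≠ 0) (hDU : D ⊆ U) (hNA : N ⊆ A) (q : ℕ) :
    PMIso (RD k hX ev U A q) (RD k hX ev D N q) where
  e t ht := LinearEquiv.ofBijective _ (exc_bij hev cX hA hD hU hN h2 t ht hDU hNA q)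
  nat s t hs ht h x := by
    obtain ⟨y, hy, rfl⟩ := H.exists_mk x
    rfl

theorem isoEx_op (R : EvOp ev X) (h2 : (2 : k) ≠ 0) (hDU : D ⊆ U) (hNA : N ⊆ A) (hAU : A ⊆ U)
    (hND : N ⊆ D) (q : ℕ) :
    IsoOp (isoEx hX hev cX hA hD hU hN h2 hDU hNA q) (opRD R k hX hAU q) (opRD R k hX hND q) := by
  intro t ht x
  obtain ⟨y, hy, rfl⟩ := H.exists_mk x
  rfl

end exc

/-! ### The relative modules of a handle -/

section handle

variable (hX : Mono X) (hO : Mono Om) {D N : Set M} {n : ℕ} {c : ℝ}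
  (I : SpIntl (ovr ev X D) (ovr ev X N) (fun t => cub n (Om t)) (fun t => bdc n (Om t)) c)
  (hc : 0 ≤ c) (hND : N ⊆ D)

/-- The interleaving in cohomology. -/
noncomputable def hdI (k : Type) [Field k] (q : ℕ) :
    Intl (RD k hX ev D N q) (PMr k (fun t => cub n (Om t)) (fun t => bdc n (Om t)) (mono_cub n hO)
      (mono_bdc n hO) q) c :=
  I.intl k (mono_ovr hX D) (mono_ovr hX N) (mono_cub n hO) (mono_bdc n hO) (ovr_sub' hND)
    (fun t => bdc_subset _ _) hc q

/-- The interleaving with the fibre. -/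
noncomputable def hdG (h2 : (2 : k) ≠ 0) (q : ℕ) :
    Intl (RD k hX ev D N (q + n)) (pmX k hO q) c :=
  PMIso.intl (isoRefl _) (isoSus h2 hO n q).symm hc (hdI hX hO I hc hND k (q + n))

include hO I hc hND in
theorem hd_low (h2 : (2 : k) ≠ 0) {q : ℕ} (hq : q < n) : (RD k hX ev D N q).Eph (2 * c) := by
  have h := (hdI hX hO I hc hND k q).eph hc le_rfl
    (fun s t hs hst _ x => cub_low h2 (Om s) n q hq _)
  rwa [zero_add] at h

/-- The reversal commutes with the interleaving. -/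
theorem hdG_op (h2 : (2 : k) ≠ 0) (R : EvOp ev X) (RO : SpOp Om (fun _ => ∅))
    (hcomm : ∀ t, 0 < t → ∀ w ∈ ovr ev X D t, cuM (RO.r (t + c)) n (I.f t w) = I.f t (R.r t w))
    (q : ℕ) :
    CommG (hdG hX hO I hc hND h2 q) (opRD R k hX hND (q + n)) (opOm RO k hO q) := by
  refine CommG.of hc fun s hs ht x => ?_
  obtain ⟨y, rfl⟩ := (susN h2 (Om (s + c)) q n).surjective x
  have e1 := susN_cuM h2 (RO.map (s + c) ht) q n y
  have m1 := I.map_f (mono_cub n hO) hc hs (le_refl (s + c))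
  have s1 := I.sub_f (mono_bdc n hO) hc hs (le_refl (s + c))
  have m2 := isMap_cuM (RO.map (s + c) ht) n
  have s2 := mapsTo_cuM (RO.map (s + c) ht) n
  have m3 := (R.sp (sb_ovr D) (sb_ovr N) (ovr_sub' hND)).map s hs
  have s3 := (R.sp (sb_ovr D) (sb_ovr N) (ovr_sub' hND)).sub s hs
  have he : EqOn (cuM (RO.r (s + c)) n ∘ I.f s) (I.f s ∘ R.r s) (ovr ev X D s) :=
    fun w hw => hcomm s hs w hw
  have e2 := LinearMap.congr_fun (pullR_congr (χ := on k) (n := q + n) (m2.comp m1)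
    (m1.comp m3) (ovr_sub' hND s) (s2.comp s1) (s1.comp s3) he) y
  have key : ∀ z : Hr (tr (Cu E' n)) (on k) (cub n (Om (s + c)))
      (bdc n (Om (s + c))) (q + n),
      (hdG hX hO I hc hND h2 q).g s (s + c) hs le_rfl (susN h2 (Om (s + c)) q n z) =
      pullR (on k) m1 (ovr_sub' hND s) s1 (q + n) z := by
    intro z
    change pullR (on k) m1 (ovr_sub' hND s) s1 (q + n) ((susN h2 (Om (s + c)) q n).symm
            (susN h2 (Om (s + c)) q n z)) = _
    rw [LinearEquiv.symm_apply_apply]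
  change (hdG hX hO I hc hND h2 q).g s (s + c) hs le_rfl (pullR (on k) (RO.map (s + c) ht)
    (empty_subset _) (mapsTo_empty _ ∅) q (susN h2 (Om (s + c)) q n y)) = _
  rw [← e1, key, key]
  obtain ⟨z, hz, rfl⟩ := H.exists_mk y
  exact e2

end handle

/-! ### One handle -/

section one

variable (hX : Mono X) (hO : Mono Om) (hev : Continuous ev) (cX : ∀ t, 0 < t → IsCompact (X t))
  {A D U N : Set M} (hA : IsClosed A) (hD : IsClosed D) (hU : U = A ∪ D) (hN : N = D ∩ A)
  {n : ℕ} {c : ℝ}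
  (I : SpIntl (ovr ev X D) (ovr ev X N) (fun t => cub n (Om t)) (fun t => bdc n (Om t)) c)
  (hc : 0 ≤ c)

theorem zero_zeroPM (t : ℝ) (_ : 0 < t) (x : (zeroPM k).V t) : x = 0 := rfl

/-- **The cell attachment of one handle.** -/
noncomputable def cellAt (h2 : (2 : k) ≠ 0) (hDU : D ⊆ U) (hNA : N ⊆ A) (hAU : A ⊆ U)
    (hND : N ⊆ D) :
    CellAt (fun q => pmX k hO q) (fun q => XD k hX ev A q) (fun q => XD k hX ev U q) n c where
  Rel q := RD k hX ev U A q
  N := zeroPM k
  N0 := zero_zeroPM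
  e0 := ex5_abs0 k (mono_ovr hX U) (mono_ovr hX A) fun t _ => ovr_sub' hAU t
  e q := ex5_abs k (mono_ovr hX U) (mono_ovr hX A) (fun t _ => ovr_sub' hAU t) q
  i q := PMIso.intl (isoEx hX hev cX hA hD hU hN h2 hDU hNA (q + n)) (isoRefl _) hc
    (hdG hX hO I hc hND h2 q)
  low q hq := by
    have h := hd_low hX hO I hc hND h2 hq
    intro s t hs hst h1 x
    apply ((isoEx hX hev cX hA hD hU hN h2 hDU hNA q).e s hs).injective
    rw [← (isoEx hX hev cX hA hD hU hN h2 hDU hNA q).nat s t hs (hs.trans_le hst), h s t hs hst h1,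
      map_zero]

/-- **The reversal on the cell attachment.** -/
noncomputable def cellOp (h2 : (2 : k) ≠ 0) (hDU : D ⊆ U) (hNA : N ⊆ A) (hAU : A ⊆ U)
    (hND : N ⊆ D) (R : EvOp ev X) (RO : SpOp Om (fun _ => ∅))
    (hcomm : ∀ t, 0 < t → ∀ w ∈ ovr ev X D t, cuM (RO.r (t + c)) n (I.f t w) = I.f t (R.r t w)) :
    CellAt.Op (cellAt hX hO hev cX hA hD hU hN I hc h2 hDU hNA hAU hND)
      (fun q => opOm RO k hO q) (fun q => opXD R k hX A q) (fun q => opXD R k hX U q) where
  R q := opRD R k hX hAU q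
  α0 t ht x := les_α R hX hAU 0 t ht x
  β0 t ht x := les_β R hX hAU 0 t ht x
  δ0 t ht x := les_δ R hX hAU 0 t ht x
  α q t ht x := les_α R hX hAU (q + 1) t ht x
  β q t ht x := les_β R hX hAU (q + 1) t ht x
  δ q t ht x := les_δ R hX hAU (q + 1) t ht x
  i q := by
    refine Or.inr fun s t hs ht h x => ?_
    have e1 := hdG_op hX hO I hc hND h2 R RO hcomm q s t hs ht h x
    have e2 := (isoEx_op hX hev cX hA hD hU hN R h2 hDU hNA hAU hND (q + n)).symm s hs
      ((hdG hX hO I hc hND h2 q).g s t hs h x)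
    change ((isoEx hX hev cX hA hD hU hN h2 hDU hNA (q + n)).e s hs).symm
      ((hdG hX hO I hc hND h2 q).g s t hs h ((opOm RO k hO q).r t ht x)) =
      (opRD R k hX hAU (q + n)).r s hs (((isoEx hX hev cX hA hD hU hN h2 hDU hNA (q + n)).e s
        hs).symm ((hdG hX hO I hc hND h2 q).g s t hs h x))
    rw [e1]
    exact e2

end one

end Gen

/-! ### The free loops -/

section Loops

variable {M : Type} [MetricSpace M] [CompactSpace M] {x₀ : M} {d h : ℕ} {k : Type} [Field k]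

theorem isCompact_FL {t : ℝ} (ht : 0 < t) : IsCompact (FL M t) := by
  have h := MV337.isCompact_ovr (M := M) (D := univ) isClosed_univ ht.le
  have e : FL M t = ovr evz (fun t => FL M t) univ t := by
    ext w
    exact ⟨fun hw => ⟨hw, trivial⟩, fun hw => hw.1⟩
  rw [e]
  exact h

theorem evz_cont : Continuous (evz : (ℝ →ᵇ M) → M) := by
  change Continuous fun w : ℝ →ᵇ M => w 0
  fun_prop

/-- The reversal commutes with the trivialisation over a handle. -/
theorem cellFL_comm {n : ℕ} {D S : Set M} (C : Cell M n D S) (hD : IsClosed D) (hS : S ⊆ D)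
    {ℓ : ℝ} {T : M → ℝ → M} (h : MV337.Tr D x₀ ℓ T) (t : ℝ) (ht : 0 < t) (w : ℝ →ᵇ M)
    (hw : w ∈ ovr evz (fun t => FL M t) D t) :
    cuM ((opP x₀).r (t + 2 * ℓ)) n ((cellFL C hD hS h).f t w) =
      (cellFL C hD hS h).f t (evOp.r t w) := by
  change cuM (rv (t + 2 * ℓ)) n (enc n (cut T ℓ t w) (C.φ (w 0))) =
    enc n (cut T ℓ t (rv t w)) (C.φ (rv t w 0))
  rw [cuM_enc, cut_rv h ht.le hw, rv_zero hw.1 le_rfl]

variable (C : CellDec M d h)

theorem D_sub {j : ℕ} : C.D j ⊆ C.L (j + 1) := by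
  rw [C.L_succ]
  exact subset_union_right

/-- **The free loops over the handles.** -/
noncomputable def cellFLAt (h2 : (2 : k) ≠ 0) {j : ℕ} (hj : j ≤ h) {ℓ : ℝ} {T : M → ℝ → M}
    (hT : MV337.Tr (C.D j) x₀ ℓ T) :
    CellAt (fun q => pmX k (mono_P x₀) q) (fun q => XD k mono_FL evz (C.L j) q)
      (fun q => XD k mono_FL evz (C.L (j + 1)) q) (d * j) (2 * ℓ) :=
  cellAt mono_FL (mono_P x₀) evz_cont (fun t ht => isCompact_FL ht) (C.isClosed_L j)
    (C.closed j) (C.L_succ j) rfl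
    (cellFL (C.cellL hj) (C.closed j) inter_subset_left hT)
    (mul_nonneg zero_le_two hT.nonneg) h2 (D_sub C) inter_subset_right (C.L_mono (Nat.le_succ j))
    inter_subset_left

/-- **The reversal on the free loops over the handles.** -/
noncomputable def cellFLOp (h2 : (2 : k) ≠ 0) {j : ℕ} (hj : j ≤ h) {ℓ : ℝ} {T : M → ℝ → M}
    (hT : MV337.Tr (C.D j) x₀ ℓ T) :
    CellAt.Op (cellFLAt (k := k) C h2 hj hT) (fun q => opOm (opP x₀) k (mono_P x₀) q)
      (fun q => opXD evOp k mono_FL (C.L j) q) (fun q => opXD evOp k mono_FL (C.L (j + 1)) q) :=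
  cellOp mono_FL (mono_P x₀) evz_cont (fun t ht => isCompact_FL ht) (C.isClosed_L j)
    (C.closed j) (C.L_succ j) rfl
    (cellFL (C.cellL hj) (C.closed j) inter_subset_left hT)
    (mul_nonneg zero_le_two hT.nonneg) h2 (D_sub C) inter_subset_right (C.L_mono (Nat.le_succ j))
    inter_subset_left evOp (opP x₀)
    (cellFL_comm (C.cellL hj) (C.closed j) inter_subset_left hT)

/-- **The free loops over the handles, with the reversal**: one constant for all fields. -/
theorem exists_cellFL [PathConnectedSpace M] {ρ : ℝ} (hρ : 0 < ρ) (hU : LS.UniqSeg M ρ) (x₀ : M) :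
    ∃ c : ℝ, 0 ≤ c ∧ ∀ (k : Type) [Field k], (2 : k) ≠ 0 → ∀ j ≤ h,
      ∃ S : CellAt (fun q => pmX k (mono_P x₀) q) (fun q => XD k mono_FL evz (C.L j) q)
        (fun q => XD k mono_FL evz (C.L (j + 1)) q) (d * j) c,
        Nonempty (S.Op (fun q => opOm (opP x₀) k (mono_P x₀) q)
          (fun q => opXD evOp k mono_FL (C.L j) q)
          (fun q => opXD evOp k mono_FL (C.L (j + 1)) q)) := by
  obtain ⟨ℓ, h0, hT⟩ := exists_trD C x₀ hρ hU
  refine ⟨2 * ℓ, mul_nonneg zero_le_two h0, fun k _ h2 j hj => ?_⟩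
  obtain ⟨T, hT⟩ := hT j hj
  exact ⟨cellFLAt C h2 hj hT, ⟨cellFLOp C h2 hj hT⟩⟩

end Loops

end Vale.Agent.P216.H285
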