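import Vale.Agent.P216.H285.PowW
import Vale.Agent.P216.H977C.OmD
import Vale.Agent.P216.H893D.OmLC

/-!
# P216-D, [POW-OM]: the weights of the power maps, relative to a class of fields
-/

open Finsupp Set BoundedContinuousFunction

namespace Vale.Agent.P216.H285

open Vale.Agent.P216.Sl Vale.Agent.P216.PS Vale.Agent.P216.N929 Vale.Agent.P216.H977C
open Vale.Agent.P216.B64 (HU hres hpull UMap OmegaOutC OmegaSignC)

/-- The two names of the same structure. -/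
theorem OmegaPwrC.to893 {k : Type} [Field k] {M : Type} [MetricSpace M] [CompactSpace M]
    {q N : ℕ} {x₀ : M} {B : ℝ} {O : OmegaOutC M q N x₀ B k} {m : ℕ} (h : OmegaPwrC O m) :
    H893D.OmegaPwrC O m := ⟨h.W, h.A⟩

section

variable {k : Type} [Field k] {M : Type} [MetricSpace M] [CompactSpace M] {n e D : ℕ}
  (G : Geo M n) (τ : Tau k M n G.ρ₁) (E : Eta k M e) (hD : D + 1 = n + e)

/-- The weights of the power maps, for `omegaOutC`. -/
theorem omegaPwrK_out (hE : AddE E.f) (he : 1 ≤ e) (hen : e + 1 < n) (hn : Even n)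
    (hDe : Even D) {Ca s : ℝ} {ℓ : ℕ} (hs : 0 ≤ s) (hC : 1 + ℓ + s ≤ Ca)
    (hv : ∀ b, ∃ v : ℝ →ᵇ M, v ∈ P (G.y (!b)) (G.y b) ℓ) (hmid : Mid (D := D) G τ E s)
    {ρ r₀ εt Dp B0 : ℝ} (h : LS.UniqSeg M ρ) (hr : 0 < G.r) (hrρ : G.r < ρ) (hr0 : r₀ < G.r)
    (hεt : 0 < εt) (htau : IsTau n r₀ εt τ.f) (hDp : IsPi M Dp) (hCa : 0 ≤ Ca) (hn2 : 2 ≤ n)
    (hN : D + 1 = n + e) (hq : 1 ≤ e) (hB0 : 0 ≤ B0)
    (hL : ∀ i, 0 < i → i ≤ e → LowL k M B0 i) (hZ : ∀ i, 0 < i → i < e → LowZ k M B0 i)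
    {m : ℕ} (hm : 1 ≤ m) :
    OmegaPwrC ((omSysC G τ E hD hE he hen hs hC hv hmid).omegaOutC h hr hrρ hr0 hεt htau hDp hCa
      hn2 hN hq hB0 hL hZ) m := by
  set O := (omSysC G τ E hD hE he hen hs hC hv hmid).omegaOutC h hr hrρ hr0 hεt htau hDp hCa hn2
      hN hq hB0 hL hZ with hO
  have hDp0 := hDp.nonneg
  have hB : 0 ≤ OmSysC.BC G.r Ca Dp B0 := by
    unfold OmSysC.BC
    linarith
  have hz : ∀ i, EpZ k G.x₀ (OmSysC.BC G.r Ca Dp B0) (n + i * D - 1) := by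
    intro i
    have hi : n + i * D - 1 = i * D + (n - 1) := by omega
    have hmod : (n + i * D - 1) % D = n - 1 := by
      rw [hi, Nat.mul_add_mod', Nat.mod_eq_of_lt (by omega)]
    exact O.zero (n + i * D - 1) (fun j hj => by
      rw [hj, Nat.mul_mod_left] at hmod
      omega) fun j hj => by
      rw [hj, Nat.mul_add_mod', Nat.mod_eq_of_lt (by omega)] at hmod
      omega
  refine omegaPwrC_of G τ E hD hE he hn hDe (s := ⌈2 * Dp + ((1 : ℕ) : ℝ) * (1 + ℓ + s) + 1⌉₊)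
    (Nat.ceil_pos.2 (by positivity)) (fun b hex => ?_) hB hDp O hz (fun j T => ?_)
    (fun j T => ?_) hm
  · refine Sg.W_loop_ne G τ E hD hE he hen hs hDp0 hv (fun b => ?_) (fun b => ?_) hmid 1 b
      (Nat.le_ceil _) ?_
    · exact hDp.ne _ _
    · exact hDp.ne _ _
    · rw [Nat.one_mul]
      exact hex
  · exact H894.cls_eq_of (hf := tf_coc hDp G.x₀ (G.y false) (W G τ E hD false j)
      (W_cocL G τ E hD false j) T) fun l hl hs => H894.W_tf G τ E hD hDp false j T hl hs.1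
  · exact H894.cls_eq_of (hf := tf_coc hDp G.x₀ (G.y false) (A G τ E hD false j)
      (A_cocL G τ E hD false j) T) fun l hl hs => H894.A_tf G τ E hD hE he hDp false j T hl hs.1

end

/-- **OMEGA for a class of fields**, with the signs of the reversal and the weights of the power
maps: THOM, LOW and MID give the classes of the based loops, with one constant for all fields of
the class. -/
theorem omegaPwrK {Kf : Fld} {M : Type} [MetricSpace M] [CompactSpace M] [SimplyConnectedSpace M]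
    {n e D : ℕ} (he : 1 ≤ e) (hen : e + 1 < n) (hD : D + 1 = n + e) (hn : Even n) (hDe : Even D)
    {B0 : ℝ} (hT : ThomK Kf M n) (hB0 : 0 ≤ B0) (hL : LowK Kf M e B0) (hM : MidK Kf M n e D) :
    ∃ (x₀ : M) (B : ℝ), 0 < B ∧ ∀ (k : Type) [Field k], Kf k →
      ∃ O : OmegaOutC M e D x₀ B k, OmegaSignC O ∧ ∀ m, 1 ≤ m → H893D.OmegaPwrC O m := by
  obtain ⟨G, s, hs, H⟩ := hM
  obtain ⟨Dp, hDp, hne, hj⟩ := H250.pi0 (G.hr.trans G.hrρ) G.seg
  have hCa : 1 + (⌈Dp⌉₊ : ℝ) + s ≤ 1 + ⌈Dp⌉₊ + s := le_rfl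
  have hCa0 : (0 : ℝ) ≤ 1 + ⌈Dp⌉₊ + s := by positivity
  refine ⟨G.x₀, OmSysC.BC G.r (1 + ⌈Dp⌉₊ + s) Dp B0, ?_, fun k _ hk => ?_⟩
  · have := G.hr
    unfold OmSysC.BC
    linarith
  · obtain ⟨τ, hτ⟩ := hT k hk G.ρ₁ G.h1
    obtain ⟨E, hE, hmid⟩ := H k hk τ hτ
    have hv : ∀ b, ∃ v : ℝ →ᵇ M, v ∈ P (G.y (!b)) (G.y b) ⌈Dp⌉₊ := fun b => by
      obtain ⟨v, hv⟩ := hne (G.y (!b)) (G.y b)
      exact ⟨v, P_mono (Nat.le_ceil Dp) hv⟩
    exact ⟨_, omegaSignK G τ E hD hE he hen hn hDe hs hCa hv hmid (r₀ := G.ρ₁) (εt := τ.ε)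
      (Dp := Dp) G.seg G.hr G.hrρ G.h1r τ.hε ⟨τ.nrm, τ.coc, fun l _ _ h => τ.supp l h⟩
      ⟨hDp, hne, hj⟩ hCa0 (by omega) hD he hB0 (hL k hk).1 (hL k hk).2,
      fun m hm => (omegaPwrK_out G τ E hD hE he hen hn hDe hs hCa hv hmid (r₀ := G.ρ₁)
        (εt := τ.ε) (Dp := Dp) G.seg G.hr G.hrρ G.h1r τ.hε
        ⟨τ.nrm, τ.coc, fun l _ _ h => τ.supp l h⟩
        ⟨hDp, hne, hj⟩ hCa0 (by omega) hD he hB0 (hL k hk).1 (hL k hk).2 hm).to893⟩

end Vale.Agent.P216.H285
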