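import Vale.Agent.P216.H285.Rev1

/-!
# P216-D, [POW-OM] (1): Alexander-Whitney of an Eilenberg-Zilber product
-/

open Finsupp

namespace Vale.Agent.P216.H285

open Vale.Agent.P216.Sl

variable {k : Type} [Field k] {α β : Type}

theorem neg_one_pow_congr' {m n : ℕ} (h : m % 2 = n % 2) : (-1 : k) ^ m = (-1) ^ n := by
  rw [neg_one_pow_eq_pow_mod_two, h, ← neg_one_pow_eq_pow_mod_two]

/-- **The cut lemma**: the front and the back part of the lattice path product. -/
theorem ev_cut (G : List (α × β) → k) (m : ℕ) : ∀ (F : List (α × β) → k) (s : List α) (t : List β),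
    m + 2 ≤ s.length + t.length → s ≠ [] → t ≠ [] →
    ev (fun l => F (l.take (m + 1)) * G (l.drop m)) (Sh s t : Ch k (α × β)) =
      ∑ a ∈ Finset.range (m + 1), (-1) ^ ((s.length + 1 + a) * (m + a)) *
        (ev F (Sh (s.take (a + 1)) (t.take (m - a + 1))) *
          ev G (Sh (s.drop a) (t.drop (m - a)))) := by
  induction m with
  | zero =>
    intro F s t hst hs ht
    obtain ⟨a, s, rfl⟩ := List.exists_cons_of_ne_nil hs
    obtain ⟨b, t, rfl⟩ := List.exists_cons_of_ne_nil ht
    rw [Finset.sum_range_one]
    simp only [Nat.zero_add, Nat.sub_zero, List.drop_zero, List.take_succ_cons, List.take_zero,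
      Sh_one, ev_single, one_mul, add_zero, mul_zero, pow_zero]
    rw [← ev_smul_fun]
    refine ev_congr (P := fun l => l.head? = some (a, b)) (fun l hl => ?_) ?_
    · obtain ⟨l', rfl⟩ : ∃ l', l = (a, b) :: l' := by
        rcases l with _ | ⟨x, l'⟩
        · simp at hl
        · simp only [List.head?_cons, Option.some.injEq] at hl
          exact ⟨l', by rw [hl]⟩
      simp
    · rw [Sh]
      exact map_mem _ (fun l _ => by rw [cons_single]; exact single_mem (by simp) _)
        (P := fun _ => True) (by simp [Finsupp.mem_supported])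
  | succ m ih =>
    intro F s t hst hs ht
    obtain ⟨a, s, rfl⟩ := List.exists_cons_of_ne_nil hs
    obtain ⟨b, t, rfl⟩ := List.exists_cons_of_ne_nil ht
    simp only [List.length_cons] at hst
    have hne : ¬ (s = [] ∧ t = []) := by
      rintro ⟨rfl, rfl⟩
      simp at hst
    -- the two parts
    have h1 : ev (fun l : List (α × β) => F ((a, b) :: l.take (m + 1)) * G (l.drop m))
        (Sh s (b :: t)) = ∑ i ∈ Finset.range (m + 1), (-1) ^ ((s.length + 1 + i) * (m + i)) *
        (ev (fun l => F ((a, b) :: l)) (Sh (s.take (i + 1)) ((b :: t).take (m - i + 1))) *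
          ev G (Sh (s.drop i) ((b :: t).drop (m - i)))) := by
      rcases s with _ | ⟨a', s⟩
      · rw [Sh_nil_left, map_zero]
        symm
        refine Finset.sum_eq_zero fun i _ => ?_
        rw [List.drop_nil, Sh_nil_left, map_zero, mul_zero, mul_zero]
      · exact ih (fun l => F ((a, b) :: l)) (a' :: s) (b :: t)
          (by simp only [List.length_cons] at hst ⊢; omega) (by simp) (by simp)
    have h2 : ev (fun l : List (α × β) => F ((a, b) :: l.take (m + 1)) * G (l.drop m))
        (Sh (a :: s) t) = ∑ i ∈ Finset.range (m + 1), (-1) ^ (((a :: s).length + 1 + i) * (m + i)) *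
        (ev (fun l => F ((a, b) :: l)) (Sh ((a :: s).take (i + 1)) (t.take (m - i + 1))) *
          ev G (Sh ((a :: s).drop i) (t.drop (m - i)))) := by
      rcases t with _ | ⟨b', t⟩
      · rw [Sh_nil_right, map_zero]
        symm
        refine Finset.sum_eq_zero fun i _ => ?_
        rw [List.drop_nil, Sh_nil_right, map_zero, mul_zero, mul_zero]
      · exact ih (fun l => F ((a, b) :: l)) (a :: s) (b' :: t)
          (by simp only [List.length_cons] at hst ⊢; omega) (by simp) (by simp)
    -- the terms of the sum
    have key : ∀ i, i ≤ m + 1 → (-1 : k) ^ (((a :: s).length + 1 + i) * (m + 1 + i)) *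
        (ev F (Sh ((a :: s).take (i + 1)) ((b :: t).take (m + 1 - i + 1))) *
          ev G (Sh ((a :: s).drop i) ((b :: t).drop (m + 1 - i)))) =
        (-1 : k) ^ (((a :: s).length + 1 + i) * (m + 1 + i)) *
        (ev (fun l => F ((a, b) :: l)) (Sh (s.take i) (b :: t.take (m + 1 - i))) *
          ev G (Sh ((a :: s).drop i) ((b :: t).drop (m + 1 - i)))) +
        (-1 : k) ^ s.length * ((-1 : k) ^ (((a :: s).length + 1 + i) * (m + i)) *
        (ev (fun l => F ((a, b) :: l)) (Sh (a :: s.take i) (t.take (m + 1 - i))) *
          ev G (Sh ((a :: s).drop i) ((b :: t).drop (m + 1 - i))))) := by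
      intro i hi
      by_cases hz : ev G (Sh ((a :: s).drop i) ((b :: t).drop (m + 1 - i))) = 0
      · rw [hz]; ring
      have hi1 : i ≤ s.length := by
        by_contra hc
        apply hz
        rw [List.drop_eq_nil_of_le (by rw [List.length_cons]; omega), Sh_nil_left, map_zero]
      have hi2 : m + 1 - i ≤ t.length := by
        by_contra hc
        apply hz
        have e0 : (b :: t).drop (m + 1 - i) = [] :=
          List.drop_eq_nil_of_le (by rw [List.length_cons]; omega)
        rw [e0, Sh_nil_right, map_zero]
      have hne' : ¬ (s.take i = [] ∧ t.take (m + 1 - i) = []) := by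
        rintro ⟨e1, e2⟩
        have e1 := congrArg List.length e1
        have e2 := congrArg List.length e2
        rw [List.length_take, List.length_nil] at e1 e2
        omega
      rw [List.take_succ_cons, List.take_succ_cons, Sh_cons hne', ev_cons, map_add, map_smul,
        List.length_take, min_eq_left hi1, smul_eq_mul]
      have hsg : (-1 : k) ^ (((a :: s).length + 1 + i) * (m + 1 + i)) * (-1) ^ i =
          (-1) ^ s.length * (-1) ^ (((a :: s).length + 1 + i) * (m + i)) := by
        rw [← pow_add, ← pow_add, List.length_cons]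
        refine neg_one_pow_congr' ?_
        have : (s.length + 1 + 1 + i) * (m + 1 + i) + i =
            s.length + (s.length + 1 + 1 + i) * (m + i) + 2 * (i + 1) := by ring
        rw [this]
        omega
      linear_combination (ev (fun l => F ((a, b) :: l)) (Sh (a :: s.take i)
        (t.take (m + 1 - i))) * ev G (Sh ((a :: s).drop i) ((b :: t).drop (m + 1 - i)))) * hsg
    rw [Finset.sum_congr rfl fun i hi => key i (by
      have := Finset.mem_range.1 hi
      omega), Finset.sum_add_distrib]
    have e1 : (fun l : List (α × β) => F (l.take (m + 1 + 1)) * G (l.drop (m + 1))) =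
      fun l => F (l.take (m + 1 + 1)) * G (l.drop (m + 1)) := rfl
    rw [Sh_cons hne, ev_cons, map_add, map_smul]
    have e2 : (fun l : List (α × β) => F (((a, b) :: l).take (m + 1 + 1)) *
        G (((a, b) :: l).drop (m + 1))) =
        fun l => F ((a, b) :: l.take (m + 1)) * G (l.drop m) := rfl
    rw [e2, h1, h2, smul_eq_mul]
    congr 1
    · -- first part: shift of the index
      rw [Finset.sum_range_succ' _ (m + 1)]
      have z0 : (-1 : k) ^ (((a :: s).length + 1 + 0) * (m + 1 + 0)) *
        (ev (fun l => F ((a, b) :: l)) (Sh (s.take 0) (b :: t.take (m + 1 - 0))) *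
          ev G (Sh ((a :: s).drop 0) ((b :: t).drop (m + 1 - 0)))) = 0 := by
        rw [List.take_zero, Sh_nil_left, map_zero, zero_mul, mul_zero]
      rw [z0, add_zero]
      refine Finset.sum_congr rfl fun i hi => ?_
      have hi' := Finset.mem_range.1 hi
      have e3 : m + 1 - (i + 1) = m - i := by omega
      rw [e3, List.drop_succ_cons, List.take_succ_cons]
      congr 1
      refine neg_one_pow_congr' ?_
      rw [List.length_cons]
      have : (s.length + 1 + 1 + (i + 1)) * (m + 1 + (i + 1)) =
          (s.length + 1 + i) * (m + i) + 2 * (s.length + 1 + i + m + i + 2) := by ring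
      rw [this]
      omega
    · -- second part
      rw [← Finset.mul_sum]
      congr 1
      rw [Finset.sum_range_succ _ (m + 1)]
      have z0 : (-1 : k) ^ (((a :: s).length + 1 + (m + 1)) * (m + (m + 1))) *
        (ev (fun l => F ((a, b) :: l)) (Sh (a :: s.take (m + 1)) (t.take (m + 1 - (m + 1)))) *
          ev G (Sh ((a :: s).drop (m + 1)) ((b :: t).drop (m + 1 - (m + 1))))) = 0 := by
        rw [Nat.sub_self, List.take_zero, Sh_nil_right, map_zero, zero_mul, mul_zero]
      rw [z0, add_zero]
      refine Finset.sum_congr rfl fun i hi => ?_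
      have hi' := Finset.mem_range.1 hi
      have e3 : m + 1 - i = (m - i) + 1 := by omega
      rw [e3, List.drop_succ_cons, List.take_succ_cons]

end Vale.Agent.P216.H285
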