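import Vale.Agent.P216.H285.Pow9

/-!
# P216-D, [POW-OM] (10): the power maps commute with the restrictions; families of classes
-/

open Finsupp Set BoundedContinuousFunction

namespace Vale.Agent.P216.H285

open Vale.Agent.P216.Sl Vale.Agent.P216.PS Vale.Agent.P216.N929 Vale.Agent.P216.H977C
open Vale.Agent.P216.AS Vale.Agent.P216.H894
open Vale.Agent.P216.H774D (pwr pwr_mem_P dist_pwr)
open Vale.Agent.P216.H250 (cat_apply')
open Vale.Agent.P216.B64 (HU hres hpull UMap OmegaOutC)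

variable {k : Type} [Field k] {M : Type} [MetricSpace M] [CompactSpace M] {x₀ : M}

/-- Change of the duration. -/
theorem dist_pwr_time {s u u' : ℝ} (hs : 0 ≤ s) (hu : s ≤ u) (hu' : u ≤ u') {w w' : ℝ →ᵇ M}
    (hw : w ∈ P x₀ x₀ s) (hw' : w' ∈ P x₀ x₀ s) (m : ℕ) (v : ℝ) :
    dist (pwr u m w v) (pwr u' m w' v) ≤ dist w w' + m * (u' - u) := by
  have h0 : 0 ≤ u := hs.trans hu
  have h0' : 0 ≤ u' := h0.trans hu'
  have hwu : w ∈ P x₀ x₀ u := P_mono hu hw
  have hwu' : w' ∈ P x₀ x₀ u' := P_mono (hu.trans hu') hw'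
  have hd : 0 ≤ dist w w' := dist_nonneg
  have huu : 0 ≤ u' - u := by linarith
  induction m generalizing v with
  | zero =>
    change dist (cst (w 0) v) (cst (w' 0) v) ≤ _
    rw [cst_apply, cst_apply, eq_left hw le_rfl, eq_left hw' le_rfl, dist_self]
    positivity
  | succ m ih =>
    have hm : (0 : ℝ) ≤ m := Nat.cast_nonneg m
    have hmu : (m : ℝ) * u ≤ m * u' := mul_le_mul_of_nonneg_left hu' hm
    have h1 := pwr_mem_P h0 hwu m
    have h2 := pwr_mem_P h0' hwu' m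
    rw [pwr_succ', pwr_succ', cat_apply' h1 hwu, cat_apply' h2 hwu']
    push_cast
    by_cases hv : v ≤ m * u
    · rw [if_pos hv, if_pos (hv.trans hmu)]
      exact (ih v).trans (by nlinarith)
    · rw [if_neg hv]
      have hv := not_le.1 hv
      by_cases hv' : v ≤ m * u'
      · rw [if_pos hv']
        -- both are close to `x₀`
        have e1 : dist (w (v - m * u)) x₀ ≤ v - m * u := by
          have h3 := hw.1 (v - m * u) 0
          rw [eq_left hw le_rfl, sub_zero, abs_of_nonneg (by linarith)] at h3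
          exact h3
        have e2 : dist (pwr u' m w' v) x₀ ≤ m * u' - v := by
          have h3 := h2.1 v (m * u')
          rw [eq_right h2 le_rfl, abs_sub_comm, abs_of_nonneg (by linarith)] at h3
          exact h3
        have e3 := dist_triangle_right (w (v - m * u)) (pwr u' m w' v) x₀
        nlinarith
      · rw [if_neg hv']
        have e1 : dist (w (v - m * u)) (w' (v - m * u)) ≤ dist w w' :=
          BoundedContinuousFunction.dist_coe_le_dist _
        have e2 : dist (w' (v - m * u)) (w' (v - m * u')) ≤ m * (u' - u) := by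
          refine (hw'.1 _ _).trans (le_of_eq ?_)
          rw [show v - m * u - (v - m * u') = m * (u' - u) by ring, abs_of_nonneg (by positivity)]
        have e3 := dist_triangle (w (v - m * u)) (w' (v - m * u)) (w' (v - m * u'))
        nlinarith

theorem dist_pwr_time' {s u u' : ℝ} (hs : 0 ≤ s) (hu : s ≤ u) (hu' : s ≤ u') {w w' : ℝ →ᵇ M}
    (hw : w ∈ P x₀ x₀ s) (hw' : w' ∈ P x₀ x₀ s) (m : ℕ) :
    dist (pwr u m w) (pwr u' m w') ≤ dist w w' + m * |u - u'| := by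
  rw [BoundedContinuousFunction.dist_le (by positivity)]
  intro v
  rcases le_total u u' with h | h
  · rw [abs_sub_comm, abs_of_nonneg (by linarith)]
    exact dist_pwr_time hs hu h hw hw' m v
  · rw [abs_of_nonneg (by linarith), dist_comm, dist_comm w w']
    exact dist_pwr_time hs hu' h hw' hw m v

/-- The power map. -/
theorem umapPw {t : ℝ} (ht : 0 ≤ t) (m : ℕ) :
    UMap (P x₀ x₀ t) (P x₀ x₀ (m * t)) (pwr t m) :=
  ⟨fun _ hw => pwr_mem_P ht hw m, fun e => e.elim, fun ε hε => ⟨ε, hε, fun _ hw _ hw' h =>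
    (dist_pwr ht (MV337.P_subset_FL hw) (MV337.P_subset_FL hw') m).trans_lt h⟩⟩

theorem htpy_pwr {s t : ℝ} (hs : 0 ≤ s) (hst : s ≤ t) (m : ℕ) :
    IsHtpy (B64.a0 (ℝ →ᵇ M)) (B64.a0 (ℝ →ᵇ M)) (P x₀ x₀ s) (P x₀ x₀ (m * t))
      fun l => pwr (s + l * (t - s)) m := by
  have hm : (0 : ℝ) ≤ m := Nat.cast_nonneg m
  have hr : ∀ l ∈ Icc (0 : ℝ) 1, s ≤ s + l * (t - s) ∧ s + l * (t - s) ≤ t := fun l hl => by
    have h1 : 0 ≤ l * (t - s) := mul_nonneg hl.1 (by linarith)
    have h2 : l * (t - s) ≤ 1 * (t - s) := mul_le_mul_of_nonneg_right hl.2 (by linarith)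
    constructor <;> linarith
  refine ⟨fun l hl w hw => ?_, fun _ _ i => i.elim, fun ε hε => ?_⟩
  · obtain ⟨h1, h2⟩ := hr l hl
    exact P_mono (mul_le_mul_of_nonneg_left h2 hm) (pwr_mem_P (hs.trans h1) (P_mono h1 hw) m)
  · set K : ℝ := m * (t - s) + 1 with hK
    have hK0 : 0 < K := by
      have : 0 ≤ m * (t - s) := mul_nonneg hm (by linarith)
      linarith
    refine ⟨min (ε / 2) (ε / 2 / K), lt_min (by linarith) (by positivity),
      fun l hl l' hl' w hw w' hw' h1 h2 => ?_⟩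
    obtain ⟨a1, a2⟩ := hr l hl
    obtain ⟨b1, b2⟩ := hr l' hl'
    have h3 := dist_pwr_time' hs a1 b1 hw hw' m
    have h4 := h1.trans_le (min_le_right _ _)
    have h5 := h2.trans_le (min_le_left _ _)
    rw [lt_div_iff₀ hK0] at h4
    have h6 : |s + l * (t - s) - (s + l' * (t - s))| = |l - l'| * (t - s) := by
      rw [show s + l * (t - s) - (s + l' * (t - s)) = (l - l') * (t - s) by ring, abs_mul,
        abs_of_nonneg (by linarith : (0 : ℝ) ≤ t - s)]
    rw [h6] at h3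
    have h7 : |l - l'| * K = m * (|l - l'| * (t - s)) + |l - l'| := by
      rw [hK]
      ring
    have h8 : 0 ≤ |l - l'| := abs_nonneg _
    linarith

/-- **The power maps commute with the restrictions.** -/
theorem hpull_pwr_res {s t : ℝ} (hs : 0 ≤ s) (hst : s ≤ t) (m p : ℕ)
    (ms : UMap (P x₀ x₀ s) (P x₀ x₀ (m * s)) (pwr s m))
    (mt : UMap (P x₀ x₀ t) (P x₀ x₀ (m * t)) (pwr t m))
    (h : P x₀ x₀ (m * s) ⊆ P x₀ x₀ (m * t)) (x : HU k (P x₀ x₀ (m * t)) p) :
    hres k (P_mono hst) p (hpull k mt p x) = hpull k ms p (hres k h p x) := by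
  obtain ⟨f, hf, -, rfl⟩ := exists_cls x
  rw [hpull, pull_cls, hres, res_cls, hres, res_cls, hpull, pull_cls]
  have h1 := DFunLike.congr_fun (pull_homotopy (χ := B64.c0 k) (htpy_pwr (x₀ := x₀) hs hst m) p)
    (cls (B64.a0 (ℝ →ᵇ M)) (B64.c0 k) f hf)
  rw [pull_cls, pull_cls] at h1
  refine Eq.trans ?_ (h1.trans ?_)
  · refine cls_congr fun l => ?_
    have : (pwr (s + 1 * (t - s)) m : (ℝ →ᵇ M) → (ℝ →ᵇ M)) = pwr t m := by
      rw [one_mul, add_sub_cancel]
    rw [this]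
  · refine cls_congr fun l => ?_
    have : (pwr (s + 0 * (t - s)) m : (ℝ →ᵇ M) → (ℝ →ᵇ M)) = pwr s m := by
      rw [zero_mul, add_zero]
    rw [this]

/-! ### Families -/

/-- A compatible family of classes. -/
def Cmp (k : Type) [Field k] (x₀ : M) (p : ℕ) (z : ∀ t, HU k (P x₀ x₀ t) p) : Prop :=
  ∀ s t (h : s ≤ t), 0 ≤ s → hres k (P_mono h) p (z t) = z s

/-- A family is a multiple of a spanning family. -/
theorem Cmp.coef {p : ℕ} {w z : ∀ t, HU k (P x₀ x₀ t) p} {B : ℝ} (hB : 0 ≤ B)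
    (hw : Cmp k x₀ p w)
    (hsp : ∀ t, 0 ≤ t → ∀ (h : P x₀ x₀ t ⊆ P x₀ x₀ (t + B)) (y : HU k (P x₀ x₀ (t + B)) p),
      ∃ c : k, hres k h p y = c • w t) (hz : Cmp k x₀ p z) :
    ∃ a : k, ∀ t, 0 ≤ t → z t = a • w t := by
  have h1 : ∀ t, 0 ≤ t → ∃ c : k, z t = c • w t := fun t ht => by
    obtain ⟨c, hc⟩ := hsp t ht (P_mono (by linarith)) (z (t + B))
    exact ⟨c, by rw [← hc, hz t (t + B) (by linarith) ht]⟩
  by_cases h0 : ∀ t, 0 ≤ t → w t = 0
  · refine ⟨0, fun t ht => ?_⟩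
    obtain ⟨c, hc⟩ := h1 t ht
    rw [hc, h0 t ht, smul_zero, smul_zero]
  · push Not at h0
    obtain ⟨T, hT, hne⟩ := h0
    obtain ⟨a, ha⟩ := h1 T hT
    refine ⟨a, fun t ht => ?_⟩
    rcases le_total t T with h | h
    · rw [← hz t T h ht, ha, map_smul, hw t T h ht]
    · obtain ⟨c, hc⟩ := h1 t ht
      have e1 : (c - a) • w T = 0 := by
        rw [sub_smul, ← ha, ← hz T t h hT, hc, map_smul, hw T t h hT, sub_self]
      rw [hc, sub_eq_zero.1 ((smul_eq_zero.1 e1).resolve_right hne)]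

/-- Pull back of a family under the power maps. -/
noncomputable def pF {p : ℕ} (z : ∀ t, HU k (P x₀ x₀ t) p) (m : ℕ) (t : ℝ) :
    HU k (P x₀ x₀ t) p :=
  if ht : 0 ≤ t then hpull k (umapPw ht m) p (z (m * t)) else 0

theorem pF_eq {p : ℕ} (z : ∀ t, HU k (P x₀ x₀ t) p) (m : ℕ) {t : ℝ} (ht : 0 ≤ t)
    (h : UMap (P x₀ x₀ t) (P x₀ x₀ (m * t)) (pwr t m)) :
    pF z m t = hpull k h p (z (m * t)) := by
  rw [pF, dif_pos ht]

theorem Cmp.pF {p : ℕ} {z : ∀ t, HU k (P x₀ x₀ t) p} (hz : Cmp k x₀ p z) (m : ℕ) :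
    Cmp k x₀ p (pF z m) := by
  intro s t hst hs
  have ht : 0 ≤ t := hs.trans hst
  have hm : (0 : ℝ) ≤ m := Nat.cast_nonneg m
  have hmst : (m : ℝ) * s ≤ m * t := mul_le_mul_of_nonneg_left hst hm
  rw [pF_eq z m ht (umapPw ht m), pF_eq z m hs (umapPw hs m),
    hpull_pwr_res hs hst m p (umapPw hs m) (umapPw ht m) (P_mono hmst),
    hz (m * s) (m * t) hmst (mul_nonneg hm hs)]

/-- Classes of a cocycle on all levels. -/
theorem cmp_cls {p : ℕ} {f : List (ℝ →ᵇ M) → k} (hf : ∀ T, CocL (P x₀ x₀ T) p f) :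
    Cmp k x₀ p fun t => cls (B64.a0 _) (B64.c0 k) f (hf t) := fun s t h _ => by
  rw [hres, res_cls]

/-- The action of the power map in terms of lists. -/
theorem pF_cls_iff {p : ℕ} {f : List (ℝ →ᵇ M) → k} (hf : ∀ T, CocL (P x₀ x₀ T) p f) (m : ℕ)
    {t : ℝ} (ht : 0 ≤ t) (a : k) :
    pF (fun t => cls (B64.a0 _) (B64.c0 k) f (hf t)) m t =
      a • cls (B64.a0 _) (B64.c0 k) f (hf t) ↔
      ExL (P x₀ x₀ t) p fun l => f (l.map (pwr t m)) - a * f l := by
  rw [pF_eq _ m ht (umapPw ht m), hpull, pull_cls, cls_smul, cls_eq_cls]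

end Vale.Agent.P216.H285
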