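import Vale.Agent.P216.H285.Pow1

/-!
# P216-D, [POW-OM] (2): the diagonal is the Eilenberg-Zilber product of the two faces
-/

open Finsupp

namespace Vale.Agent.P216.H285

open Vale.Agent.P216.Sl

variable {k : Type} [Field k] {α β : Type}

/-! ### Sums over the cuts of a list -/

/-- The sum over the cuts of a list. -/
noncomputable def aw (Φ : List α → List α → k) (l : List α) : k :=
  ∑ p ∈ Finset.range l.length, Φ (l.take (p + 1)) (l.drop p)

theorem aw_nil (Φ : List α → List α → k) : aw Φ [] = 0 := by
  rw [aw, List.length_nil, Finset.sum_range_zero]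

theorem aw_cons (Φ : List α → List α → k) (x : α) (l : List α) :
    aw Φ (x :: l) = Φ [x] (x :: l) + aw (fun s t => Φ (x :: s) t) l := by
  rw [aw, List.length_cons, Finset.sum_range_succ', add_comm]
  rfl

/-- The differential of a function of two lists. -/
noncomputable def dd (Φ : List α → List α → k) (s t : List α) : k :=
  dl (fun s' => Φ s' t) s + (-1) ^ (s.length + 1) * dl (Φ s) t

theorem aw_neg (Φ : List α → List α → k) (l : List α) :
    aw (fun s t => -Φ s t) l = -aw Φ l := by
  rw [aw, aw, Finset.sum_neg_distrib]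

theorem aw_congr {Φ Ψ : List α → List α → k} {l : List α}
    (h : ∀ p < l.length, Φ (l.take (p + 1)) (l.drop p) = Ψ (l.take (p + 1)) (l.drop p)) :
    aw Φ l = aw Ψ l := Finset.sum_congr rfl fun p hp => h p (Finset.mem_range.1 hp)

theorem aw_add (Φ Ψ : List α → List α → k) (l : List α) :
    aw (fun s t => Φ s t + Ψ s t) l = aw Φ l + aw Ψ l := Finset.sum_add_distrib

theorem dl_fun_neg (f : List α → k) (l : List α) : dl (fun l' => -f l') l = -dl f l := by
  have := N929.dl_smul_fun (-1 : k) f l
  rw [← neg_one_mul, ← this]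
  congr 1
  funext l'
  ring

/-- The differential of a sum over the cuts. -/
theorem dl_aw (l : List α) : ∀ (Φ : List α → List α → k), l ≠ [] →
    dl (aw Φ) l = aw (dd Φ) l - Φ [] l + (-1) ^ l.length * Φ l [] := by
  induction l with
  | nil => intro Φ h; exact absurd rfl h
  | cons x l ih =>
    intro Φ _
    have e1 : dl (aw Φ) (x :: l) = aw Φ l - dl (fun l' => Φ [x] (x :: l')) l -
        dl (aw fun s t => Φ (x :: s) t) l := by
      rw [N929.dl_cons]
      have : (fun l' => aw Φ (x :: l')) =
          fun l' => Φ [x] (x :: l') + aw (fun s t => Φ (x :: s) t) l' := by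
        funext l'
        exact aw_cons Φ x l'
      rw [this, N929.dl_add_fun]
      ring
    have e2 : ∀ s t, dd Φ (x :: s) t = Φ s t - dd (fun s t => Φ (x :: s) t) s t := by
      intro s t
      rw [dd, dd, N929.dl_cons, List.length_cons, pow_succ]
      ring
    rw [aw_cons]
    have e3 : aw (fun s t => dd Φ (x :: s) t) l =
        aw Φ l - aw (dd fun s t => Φ (x :: s) t) l := by
      have : (fun s t => dd Φ (x :: s) t) =
          fun s t => Φ s t + -(dd (fun s t => Φ (x :: s) t) s t) := by
        funext s t
        rw [e2]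
        ring
      rw [this, aw_add, aw_neg]
      ring
    rw [e1, e3]
    have e4 : dd Φ [x] (x :: l) = Φ [] (x :: l) + (Φ [x] l - dl (fun l' => Φ [x] (x :: l')) l) := by
      rw [dd, N929.dl_cons, N929.dl_nil, N929.dl_cons, List.length_singleton]
      ring
    rw [e4]
    rcases l with _ | ⟨y, l⟩
    · rw [N929.dl_nil, N929.dl_nil, aw_nil, aw_nil, List.length_singleton]
      ring
    · rw [ih (fun s t => Φ (x :: s) t) (by simp), List.length_cons (a := x), pow_succ]
      ring

/-- The differential of the Eilenberg-Zilber evaluation. -/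
theorem dd_sh (F : List (α × β) → k) {s : List α} {t : List β} (h : 3 ≤ s.length + t.length)
    (hs : s ≠ []) (ht : t ≠ []) :
    dl (fun s' => ev F (Sh s' t)) s + (-1) ^ (s.length + 1) * dl (fun t' => ev F (Sh s t')) t =
      ev (dl F) (Sh s t) := by
  have hs' := List.length_pos_iff.2 hs
  have ht' := List.length_pos_iff.2 ht
  have h1 := bd_sh (k := k) (p := s.length - 1) (q := t.length - 1) (by omega)
    (single_mem (P := Ln (s.length - 1 + 1)) (l := s) (by rw [Ln]; omega) 1)
    (single_mem (P := Ln (t.length - 1 + 1)) (l := t) (by rw [Ln]; omega) 1)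
  rw [sh_single, bd_single, bd_single, one_smul, one_smul] at h1
  rw [ev_dl, h1, map_add, map_smul, smul_eq_mul]
  have e1 : dl (fun s' => ev F (Sh s' t)) s = ev F (sh (bdL s) (single t 1)) := by
    rw [dl]
    have := lin_ext_apply (f := ev fun s' => ev F (Sh s' t))
      (g := (ev F).comp ((sh (k := k) (α := α) (β := β)).flip (single t 1))) (fun l => by
        rw [LinearMap.comp_apply, LinearMap.flip_apply, sh_single, ev_single, one_mul]) (bdL s)
    exact this
  have e2 : dl (fun t' => ev F (Sh s t')) t = ev F (sh (single s 1) (bdL t)) := by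
    rw [dl]
    have := lin_ext_apply (f := ev fun t' => ev F (Sh s t'))
      (g := (ev F).comp ((sh (k := k) (α := α) (β := β)) (single s 1))) (fun l => by
        rw [LinearMap.comp_apply, sh_single, ev_single, one_mul]) (bdL t)
    exact this
  rw [e1, e2]
  congr 2
  refine neg_one_pow_congr' ?_
  omega

/-- The Eilenberg-Zilber evaluation over the cuts commutes with the differentials. -/
theorem dl_aw_sh (F : List (α × α) → k) {l : List α} (hl : 2 ≤ l.length) :
    dl (aw fun s t => ev F (Sh s t)) l = aw (fun s t => ev (dl F) (Sh s t)) l := by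
  rw [dl_aw l _ (by rintro rfl; simp at hl), Sh_nil_left, Sh_nil_right, map_zero, mul_zero,
    sub_zero, add_zero]
  refine aw_congr fun p hp => ?_
  have h1 : (l.take (p + 1)).length = p + 1 := by
    rw [List.length_take]
    omega
  have h2 : (l.drop p).length = l.length - p := List.length_drop
  refine dd_sh F (by omega) ?_ ?_
  · intro h
    rw [h, List.length_nil] at h1
    omega
  · intro h
    rw [h, List.length_nil] at h2
    omega

/-! ### The homotopy -/

/-- The diagonal. -/
def dg (x : α) : α × α := (x, x)

/-- The homotopy between the diagonal and the Eilenberg-Zilber product of the faces. -/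
noncomputable def kn : ℕ → (List (α × α) → k) → List α → k
  | 0, _, _ => 0
  | _ + 1, _, [] => 0
  | n + 1, F, x :: l => F ((x, x) :: (x :: l).map dg) -
      aw (fun s t => ev (fun L => F ((x, x) :: L)) (Sh s t)) (x :: l) -
      dl (kn n fun L => F ((x, x) :: L)) (x :: l)

theorem dl_fun_sub (f g : List α → k) (l : List α) :
    dl (fun l' => f l' - g l') l = dl f l - dl g l := by
  have e : (fun l' => f l' - g l') = fun l' => f l' + -g l' := by
    funext l'
    ring
  rw [e, N929.dl_add_fun, dl_fun_neg]
  ring

theorem aw_sub (Φ Ψ : List α → List α → k) (l : List α) :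
    aw (fun s t => Φ s t - Ψ s t) l = aw Φ l - aw Ψ l := Finset.sum_sub_distrib ..

theorem ev_fun_sub (f g : List α → k) (c : Ch k α) :
    ev (fun l => f l - g l) c = ev f c - ev g c := by
  have e : (fun l => f l - g l) = fun l => f l + (-1) * g l := by
    funext l
    ring
  rw [e, ev_add_fun, ev_smul_fun]
  ring

theorem kn_add (n : ℕ) : ∀ (F G : List (α × α) → k) (l : List α),
    kn n (fun L => F L - G L) l = kn n F l - kn n G l := by
  induction n with
  | zero => intro F G l; rw [kn, kn, kn, sub_zero]
  | succ n ih =>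
    intro F G l
    rcases l with _ | ⟨x, l⟩
    · rw [kn, kn, kn, sub_zero]
    · rw [kn, kn, kn]
      have e1 : aw (fun s t => ev (fun L => F ((x, x) :: L) - G ((x, x) :: L)) (Sh s t)) (x :: l) =
          aw (fun s t => ev (fun L => F ((x, x) :: L)) (Sh s t)) (x :: l) -
          aw (fun s t => ev (fun L => G ((x, x) :: L)) (Sh s t)) (x :: l) := by
        rw [← aw_sub]
        congr 1
        funext s t
        rw [ev_fun_sub]
      have e2 : dl (kn n fun L => F ((x, x) :: L) - G ((x, x) :: L)) (x :: l) =
          dl (kn n fun L => F ((x, x) :: L)) (x :: l) -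
          dl (kn n fun L => G ((x, x) :: L)) (x :: l) := by
        rw [← dl_fun_sub]
        congr 1
        funext l'
        exact ih _ _ l'
      rw [e1, e2]
      ring

/-- **The homotopy formula.** -/
theorem kn_formula (n : ℕ) : ∀ (F : List (α × α) → k) (l : List α), l.length = n + 1 →
    F (l.map dg) - aw (fun s t => ev F (Sh s t)) l = kn (n + 1) (dl F) l + dl (kn n F) l := by
  induction n with
  | zero =>
    intro F l hl
    obtain ⟨x, rfl⟩ := List.length_eq_one_iff.1 hl
    have h1 : ∀ G : List (α × α) → k, aw (fun s t => ev G (Sh s t)) [x] = G [(x, x)] := by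
      intro G
      rw [aw, List.length_singleton, Finset.sum_range_one]
      simp only [List.take_succ_cons, List.take_zero, List.drop_zero, Sh_one, ev_single, one_mul]
    have h2 : dl (kn 0 F) [x] = 0 := by
      have : (kn 0 F : List α → k) = fun _ => 0 := by
        funext l
        rw [kn]
      rw [this, PS.dl_zero_fun]
    have h3 : dl (kn 0 fun L => dl F ((x, x) :: L)) [x] = 0 := by
      have : (kn 0 (fun L => dl F ((x, x) :: L)) : List α → k) = fun _ => 0 := by
        funext l
        rw [kn]
      rw [this, PS.dl_zero_fun]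
    rw [h1, h2, kn, h1, h3]
    simp only [List.map_cons, List.map_nil, dg]
    ring
  | succ n ih =>
    intro F l hl
    obtain ⟨x, l', rfl⟩ : ∃ x l', l = x :: l' := by
      rcases l with _ | ⟨x, l'⟩
      · simp at hl
      · exact ⟨x, l', rfl⟩
    set Fx : List (α × α) → k := fun L => F ((x, x) :: L) with hFx
    have hd : (fun L => dl F ((x, x) :: L)) = fun L => F L - dl Fx L := by
      funext L
      exact N929.dl_cons F (x, x) L
    have e0 : kn (n + 1 + 1) (dl F) (x :: l') = dl F ((x, x) :: (x :: l').map dg) -
        aw (fun s t => ev (fun L => dl F ((x, x) :: L)) (Sh s t)) (x :: l') -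
        dl (kn (n + 1) fun L => dl F ((x, x) :: L)) (x :: l') := by rw [kn]
    have e1 : aw (fun s t => ev (fun L => dl F ((x, x) :: L)) (Sh s t)) (x :: l') =
        aw (fun s t => ev F (Sh s t)) (x :: l') - dl (aw fun s t => ev Fx (Sh s t)) (x :: l') := by
      rw [dl_aw_sh Fx (by omega), ← aw_sub]
      congr 1
      funext s t
      rw [hd, ev_fun_sub]
    have e2 : dl (kn (n + 1) fun L => dl F ((x, x) :: L)) (x :: l') =
        dl (kn (n + 1) F) (x :: l') - dl (kn (n + 1) (dl Fx)) (x :: l') := by
      rw [← dl_fun_sub]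
      congr 1
      funext l''
      rw [hd, kn_add]
    have e3 : dl F ((x, x) :: (x :: l').map dg) = F ((x :: l').map dg) -
        dl (fun l'' => Fx (l''.map dg)) (x :: l') := by
      rw [N929.dl_cons, N929.dl_map]
    have e4 : dl (fun l'' => Fx (l''.map dg) - aw (fun s t => ev Fx (Sh s t)) l'') (x :: l') =
        dl (fun l'' => kn (n + 1) (dl Fx) l'' + dl (kn n Fx) l'') (x :: l') :=
      N929.dl_congr fun l'' h1 _ => ih Fx l'' (by omega)
    rw [dl_fun_sub, N929.dl_add_fun, N929.dl_dl, add_zero] at e4
    rw [e0, e1, e2, e3]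
    linear_combination e4

/-- The homotopy only sees the products of the entries. -/
theorem kn_zero (n : ℕ) : ∀ (G : List (α × α) → k) (l : List α), l.length = n →
    (∀ L : List (α × α), L.length = n + 1 → (∀ p ∈ L, p.1 ∈ l ∧ p.2 ∈ l) → G L = 0) →
    kn n G l = 0 := by
  induction n with
  | zero => intro G l _ _; rw [kn]
  | succ n ih =>
    intro G l hl h
    obtain ⟨x, l', rfl⟩ : ∃ x l', l = x :: l' := by
      rcases l with _ | ⟨x, l'⟩
      · simp at hl
      · exact ⟨x, l', rfl⟩
    have hx : x ∈ x :: l' := List.mem_cons_self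
    have h1 : G ((x, x) :: (x :: l').map dg) = 0 := by
      refine h _ (by rw [List.length_cons, List.length_map, hl]) fun p hp => ?_
      rcases List.mem_cons.1 hp with rfl | hp
      · exact ⟨hx, hx⟩
      · obtain ⟨y, hy, rfl⟩ := List.mem_map.1 hp
        exact ⟨hy, hy⟩
    have h2 : aw (fun s t => ev (fun L => G ((x, x) :: L)) (Sh s t)) (x :: l') = 0 := by
      refine Finset.sum_eq_zero fun p hp => ?_
      have hp := Finset.mem_range.1 hp
      refine ev_zero_of (fun L hL => ?_) (Sh_mem (k := k) _ ((x :: l').take (p + 1))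
        ((x :: l').drop p) rfl)
      have h3 := hL.1
      rw [List.length_take, List.length_drop] at h3
      refine h _ (by rw [List.length_cons]; omega) fun q hq => ?_
      rcases List.mem_cons.1 hq with rfl | hq
      · exact ⟨hx, hx⟩
      · exact ⟨List.mem_of_mem_take (hL.2 q hq).1, List.mem_of_mem_drop (hL.2 q hq).2⟩
    have h3 : dl (kn n fun L => G ((x, x) :: L)) (x :: l') = 0 := by
      refine N929.dl_eq_zero fun l'' h4 h5 => ih _ l'' (by omega) fun L hL hL' => ?_
      refine h _ (by rw [List.length_cons, hL]) fun q hq => ?_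
      rcases List.mem_cons.1 hq with rfl | hq
      · exact ⟨hx, hx⟩
      · exact ⟨h5 _ (hL' q hq).1, h5 _ (hL' q hq).2⟩
    rw [kn, h1, h2, h3]
    ring

/-- **The diagonal**: `F` on the diagonal and the Eilenberg-Zilber evaluation of `F` over the cuts
are cohomologous. -/
theorem exL_diag [PseudoMetricSpace α] {X : Set α} {m : ℕ} {F : List (α × α) → k}
    (hF : CocL (X ×ˢ X) m F) :
    ExL X m fun l => F (l.map dg) - aw (fun s t => ev F (Sh s t)) l := by
  obtain ⟨ε, hε, h⟩ := hF
  refine ⟨kn m F, fun h0 l => by rw [h0, kn], ε, hε, fun l hl hs => ?_⟩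
  refine (kn_formula m F l hl).trans ?_
  rw [kn_zero (m + 1) (dl F) l hl, zero_add]
  intro L hL hL'
  refine h L hL ⟨fun p hp => ⟨hs.1 _ (hL' p hp).1, hs.1 _ (hL' p hp).2⟩, fun p hp q hq => ?_⟩
  rw [Prod.dist_eq]
  exact max_lt (hs.2 _ (hL' p hp).1 _ (hL' q hq).1) (hs.2 _ (hL' p hp).2 _ (hL' q hq).2)

end Vale.Agent.P216.H285
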