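import Vale.Agent.P216.H285.Pow2
import Vale.Agent.P216.H311.Assoc

/-!
# P216-D, [POW-OM] (3): the step and the cup product with an additive class, on concatenations
-/

open Finsupp Set BoundedContinuousFunction

namespace Vale.Agent.P216.H285

open Vale.Agent.P216.Sl Vale.Agent.P216.PS Vale.Agent.P216.N929 Vale.Agent.P216.H977C

variable {k : Type} [Field k] {M : Type} [MetricSpace M] [CompactSpace M]

/-- Evaluation of a cochain on the concatenations of two lists of paths. -/
noncomputable def bc (c : ℝ) (g : List (ℝ →ᵇ M) → k) (s t : List (ℝ →ᵇ M)) : k :=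
  ev (fun l => g (l.map (catc c))) (Sh s t)

section

variable {n m : ℕ} {ρ₀ ρ₁ r δ ε η : ℝ} {y : M} {g : List (ℝ →ᵇ M) → k}

/-- The integrand after the junction. -/
noncomputable def itg (n : ℕ) (τ : List (M × M) → k) (g : List (ℝ →ᵇ M) → k) (r : ℝ) (y : M)
    (c : ℝ) (L : List (((ℝ →ᵇ M) × (ℝ →ᵇ M)) × ℝ)) : k :=
  τ (((L.map (Prod.map Prod.snd id)).take (n + 1)).map (evp y)) *
    g ((L.drop n).map fun p => catc c (p.1.1, cutp r y (p.1.2, p.2)))

/-- **The step on concatenations.** -/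
theorem stp_split (τ : Tau k M n ρ₁) (hseg : LS.UniqSeg M ρ₀) (hr : 0 < r) (hrρ : r < ρ₀)
    (hs : Scl τ r y ε η) {x₀ x₁ x₂ : M} (h1 : ρ₁ ≤ dist x₁ y)
    (h2 : ρ₁ ≤ dist x₂ y) {N : ℕ} (hN : 1 / ((N : ℝ) + 1) < η) {c : ℕ} {S : ℝ}
    (hS : 0 ≤ S) {l : List ((ℝ →ᵇ M) × (ℝ →ᵇ M))} (hne : l ≠ [])
    (hm : ∀ x ∈ l, x.1 ∈ P x₀ x₁ c ∧ x.2 ∈ P x₁ x₂ S)
    (hf : Fine (P x₁ x₂ S) η (l.map Prod.snd)) :
    stp n τ.f r (1 / ((N : ℝ) + 1)) y g (l.map (catc c)) =
      stp n τ.f r (1 / ((N : ℝ) + 1)) y g (l.map Prod.fst) +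
      ∑ i ∈ Finset.range (⌈S⌉₊ * (N + 1)),
        N929.fib (edge k (1 / ((N : ℝ) + 1)) i) (itg n τ.f g r y c) l := by
  have hN0 : (0 : ℝ) < (N : ℝ) + 1 := by positivity
  have hδ0 : (0 : ℝ) < 1 / ((N : ℝ) + 1) := by positivity
  have hSN : S ≤ ((⌈S⌉₊ * (N + 1) : ℕ) : ℝ) * (1 / ((N : ℝ) + 1)) := by
    have := Nat.le_ceil S
    push_cast
    rw [mul_assoc, mul_one_div, div_self hN0.ne', mul_one]
    exact this
  have hcN : (c : ℝ) ≤ ((c * (N + 1) : ℕ) : ℝ) * (1 / ((N : ℝ) + 1)) := by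
    push_cast
    rw [mul_one_div, mul_div_assoc, div_self hN0.ne', mul_one]
  have E1 := stp_eq (r := r) (g := g) (T := c + S) (x₀ := x₀) (y' := x₂)
    (N := c * (N + 1) + ⌈S⌉₊ * (N + 1)) (l := l.map (catc (c : ℝ))) τ h2 hδ0
    (by push_cast at hSN hcN ⊢; rw [add_mul]; linarith) (by simpa using hne) (fun w hw => by
      obtain ⟨x, hx, rfl⟩ := List.mem_map.1 hw
      exact cat_mem (Nat.cast_nonneg c) hS (hm x hx).1 (hm x hx).2)
  have E2 := stp_eq (r := r) (g := g) (T := c) (x₀ := x₀) (y' := x₁) (N := c * (N + 1))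
    (l := l.map Prod.fst) τ h1 hδ0 hcN (by simpa using hne) (fun w hw => by
      obtain ⟨x, hx, rfl⟩ := List.mem_map.1 hw
      exact (hm x hx).1)
  rw [E1, E2, fib_mesh, fib_mesh, Finset.sum_range_add]
  set δ : ℝ := 1 / ((N : ℝ) + 1) with hδ
  have hcδ : ((c * (N + 1) : ℕ) : ℝ) * δ = c := by
    rw [hδ]
    push_cast
    rw [mul_one_div, mul_div_assoc, div_self hN0.ne', mul_one]
  have hmem : ∀ i : ℕ, edge k δ i ∈ Sp k (fun t => t = [(i : ℝ) * δ, ((i + 1 : ℕ) : ℝ) * δ]) :=
    fun i => single_mem (P := fun t => t = [(i : ℝ) * δ, ((i + 1 : ℕ) : ℝ) * δ]) rfl 1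
  congr 1
  · -- the edges before `c`
    refine Finset.sum_congr rfl fun i hi => ?_
    rw [fib_map, fib_map]
    refine fib_congr (hmem i) fun t ht L hL => ?_
    subst ht
    have hi' : ((i + 1 : ℕ) : ℝ) * δ ≤ c := by
      rw [← hcδ]
      exact mul_le_mul_of_nonneg_right (by exact_mod_cast Finset.mem_range.1 hi) hδ0.le
    have key : ∀ p ∈ L, p.1 ∈ l ∧ p.2 ≤ c := by
      intro p hp
      refine ⟨(hL.2 p hp).1, ?_⟩
      have h3 := (hL.2 p hp).2
      have h4 : (i : ℝ) * δ ≤ ((i + 1 : ℕ) : ℝ) * δ := by push_cast; nlinarith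
      simp only [List.mem_cons, List.not_mem_nil, or_false] at h3
      rcases h3 with h | h <;> rw [h]
      · exact h4.trans hi'
      · exact hi'
    rw [intg_eq', intg_eq', List.map_map, List.map_map, List.map_map, List.map_map]
    have e1 : L.map (evp y ∘ Prod.map (catc (c : ℝ)) id) = L.map (evp y ∘ Prod.map Prod.fst id) :=
      List.map_congr_left fun p hp => evp_left (hm _ (key p hp).1).1 (hm _ (key p hp).1).2
        (key p hp).2
    have e2 : L.map (cutp r y ∘ Prod.map (catc (c : ℝ)) id) =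
        L.map (cutp r y ∘ Prod.map Prod.fst id) :=
      List.map_congr_left fun p hp => cutp_left hr (hm _ (key p hp).1).1 (hm _ (key p hp).1).2
        (key p hp).2
    rw [e1, e2]
  · -- the edges after `c`
    refine Finset.sum_congr rfl fun i hi => ?_
    have hedge : edge k δ (c * (N + 1) + i) = mp (fun s => (c : ℝ) + s) (edge k δ i) := by
      rw [edge, edge, mp_single, List.map_cons, List.map_cons, List.map_nil]
      congr 2
      · push_cast at hcδ ⊢
        linear_combination hcδ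
      · congr 1
        push_cast at hcδ ⊢
        linear_combination hcδ
    rw [fib_map, hedge, fib_mp]
    refine fib_congr (hmem i) fun t ht L hL => ?_
    subst ht
    have hLl : L.length = l.length + 1 := by
      have := hL.1
      simp only [List.length_cons, List.length_nil] at this
      omega
    have hLne : L ≠ [] := by
      rintro rfl
      simp at hLl
    have hσ : ∀ p ∈ L, 0 ≤ p.2 := by
      intro p hp
      have h3 := (hL.2 p hp).2
      simp only [List.mem_cons, List.not_mem_nil, or_false] at h3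
      rcases h3 with h | h <;> rw [h] <;> positivity
    have hG2 : Gr (l.map Prod.snd) [(i : ℝ) * δ, ((i + 1 : ℕ) : ℝ) * δ]
        (L.map (Prod.map Prod.snd id)) := by
      refine ⟨by rw [List.length_map, List.length_map, hL.1], fun p hp => ?_⟩
      obtain ⟨q, hq, rfl⟩ := List.mem_map.1 hp
      exact ⟨List.mem_map_of_mem (hL.2 q hq).1, (hL.2 q hq).2⟩
    have hfine : Fine (PTm x₁ x₂ S (((⌈S⌉₊ * (N + 1) : ℕ) : ℝ) * δ)) η
        (L.map (Prod.map Prod.snd id)) :=
      fine_grid hs.pos hN hδ0 hf ⟨i, Finset.mem_range.1 hi, rfl⟩ hG2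
    have e1 : ((L.map (Prod.map id fun s => (c : ℝ) + s)).map
        (Prod.map (catc (c : ℝ)) id)).map (evp y) = (L.map (Prod.map Prod.snd id)).map (evp y) := by
      rw [List.map_map, List.map_map, List.map_map]
      exact List.map_congr_left fun p hp => evp_right (hm _ (hL.2 p hp).1).1
        (hm _ (hL.2 p hp).1).2 (hσ p hp)
    rw [intg_eq', itg, e1, ← List.map_take]
    by_cases hτ : τ.f (((L.map (Prod.map Prod.snd id)).take (n + 1)).map (evp y)) = 0
    · rw [hτ, zero_mul, zero_mul]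
    congr 1
    have hne2 : L.map (Prod.map Prod.snd id) ≠ [] := by simpa using hLne
    have hnear := near_of τ hs.h3' hfine hne2 (by rwa [List.map_take] at hτ)
    have e3 : ((L.map (Prod.map id fun s => (c : ℝ) + s)).map
        (Prod.map (catc (c : ℝ)) id)).map (cutp r y) =
        L.map fun p => catc (c : ℝ) (p.1.1, cutp r y (p.1.2, p.2)) := by
      rw [List.map_map, List.map_map]
      refine List.map_congr_left fun p hp => ?_
      exact cutp_right hseg hr hrρ (hm _ (hL.2 p hp).1).1 (hm _ (hL.2 p hp).1).2 (hσ p hp)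
        (hnear (p.1.2, p.2) (List.mem_map_of_mem hp))
    rw [e3, List.map_drop]

end

/-! ### Expansions -/

/-- A tensor `f (x) g`, `f` of degree `a`, `g` of degree `b`. -/
structure Tm (k : Type) [Field k] (M : Type) [MetricSpace M] where
  a : ℕ
  f : List (ℝ →ᵇ M) → k
  b : ℕ
  g : List (ℝ →ᵇ M) → k

/-- The value of a sum of tensors. -/
def tsum (Λ : List (Tm k M)) (s t : List (ℝ →ᵇ M)) : k :=
  (Λ.map fun x => if s.length = x.a + 1 then x.f s * x.g t else 0).sum

/-- `g` (of degree `m`) on the concatenations of loops at `x₀` and `ε`-fine paths to `q`. -/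
def Exp (x₀ q : M) (ε : ℝ) (m : ℕ) (g : List (ℝ →ᵇ M) → k) (Λ : List (Tm k M)) : Prop :=
  ∀ (c : ℕ) (S : ℝ), 0 ≤ S → ∀ s t : List (ℝ →ᵇ M), s.length + t.length = m + 2 → s ≠ [] →
    t ≠ [] → (∀ w ∈ s, w ∈ P x₀ x₀ c) → Fine (P x₀ q S) ε t → bc c g s t = tsum Λ s t

omit [CompactSpace M] in
theorem tsum_nil (s t : List (ℝ →ᵇ M)) : tsum ([] : List (Tm k M)) s t = 0 := rfl

omit [CompactSpace M] in
theorem tsum_cons (x : Tm k M) (Λ : List (Tm k M)) (s t : List (ℝ →ᵇ M)) :
    tsum (x :: Λ) s t = (if s.length = x.a + 1 then x.f s * x.g t else 0) + tsum Λ s t := by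
  rw [tsum, tsum, List.map_cons, List.sum_cons]

omit [CompactSpace M] in
theorem tsum_append (Λ Λ' : List (Tm k M)) (s t : List (ℝ →ᵇ M)) :
    tsum (Λ ++ Λ') s t = tsum Λ s t + tsum Λ' s t := by
  rw [tsum, tsum, tsum, List.map_append, List.sum_append]

/-- Functions of the first coordinate vanish on the products with a list of length `≥ 2`. -/
theorem ev_fst_zero {α β : Type} {f : List α → k} (hf : Nrm f) {s : List α} {t : List β}
    (ht : 2 ≤ t.length) : ev (fun l => f (l.map Prod.fst)) (Sh s t : Ch k (α × β)) = 0 := by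
  refine ev_zero_of (P := fun l => (∀ j, ((l.drop j).map Prod.fst).IsChain (· ≠ ·) →
      l.length ≤ s.length + j) ∧ Gr s t l) (fun L hL => ?_) ?_
  · refine hf _ fun hc => ?_
    have h1 := hL.1 0 (by simpa using hc)
    have h2 := hL.2.1
    omega
  · have a1 := Sh_chain_fst (k := k) _ s t rfl
    have a2 := Sh_mem (k := k) _ s t rfl
    rw [Finsupp.mem_supported] at a1 a2 ⊢
    exact fun l hl => ⟨a1 hl, a2 hl⟩

theorem list_sum_mul {α : Type} (L : List α) (F : α → k) (c : k) :
    (L.map F).sum * c = (L.map fun x => F x * c).sum := by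
  induction L with
  | nil => simp
  | cons x L ih => rw [List.map_cons, List.sum_cons, List.map_cons, List.sum_cons, add_mul, ih]

theorem mul_list_sum {α : Type} (L : List α) (F : α → k) (c : k) :
    c * (L.map F).sum = (L.map fun x => c * F x).sum := by
  induction L with
  | nil => simp
  | cons x L ih => rw [List.map_cons, List.sum_cons, List.map_cons, List.sum_cons, mul_add, ih]

theorem sum_list_sum {α ι : Type} (L : List α) (I : Finset ι) (F : ι → α → k) :
    ∑ i ∈ I, (L.map (F i)).sum = (L.map fun x => ∑ i ∈ I, F i x).sum := by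
  induction L with
  | nil => simp
  | cons x L ih =>
    simp only [List.map_cons, List.sum_cons]
    rw [Finset.sum_add_distrib, ih]

theorem ev_list_sum {α ι : Type} (L : List ι) (F : ι → List α → k) (c : Ch k α) :
    ev (fun l => (L.map fun x => F x l).sum) c = (L.map fun x => ev (F x) c).sum := by
  induction L with
  | nil => simp only [List.map_nil, List.sum_nil]; exact ev_zero_fun c
  | cons x L ih =>
    simp only [List.map_cons, List.sum_cons]
    rw [ev_add_fun, ih]

section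

variable {n m : ℕ} {ρ₀ ρ₁ r δ ε η : ℝ} {y q x₀ : M} {g : List (ℝ →ᵇ M) → k}
  {Λ : List (Tm k M)}

/-- The integrand over one edge. -/
theorem ev_itg (τ : Tau k M n ρ₁) (hseg : LS.UniqSeg M ρ₀) (hr : 0 < r) (hrρ : r < ρ₀)
    (hs : Scl τ r y ε η) (hsg : ∀ x ∈ Λ, Even (n * x.a)) (hΛ : Exp x₀ y ε m g Λ)
    (hdeg : ∀ x ∈ Λ, x.a + x.b = m)
    {N : ℕ} (hN : 1 / ((N : ℝ) + 1) < η) (c : ℕ) {S : ℝ} {s t : List (ℝ →ᵇ M)}
    (hst : s.length + t.length = n + m + 1) (hsn : s ≠ []) (htn : t ≠ [])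
    (hsm : ∀ w ∈ s, w ∈ P x₀ x₀ c) (htf : Fine (P x₀ q S) η t) (i : ℕ) :
    ev (N929.fib (edge k (1 / ((N : ℝ) + 1)) i) (itg n τ.f g r y c)) (Sh s t) =
      tsum (Λ.map fun x => ⟨x.a, x.f, x.b, N929.fib (edge k (1 / ((N : ℝ) + 1)) i)
        (intg n τ.f x.g r y)⟩) s t := by
  have hN0 : (0 : ℝ) < (N : ℝ) + 1 := by positivity
  have hδ0 : (0 : ℝ) < 1 / ((N : ℝ) + 1) := by positivity
  set δ : ℝ := 1 / ((N : ℝ) + 1) with hδ
  have hmem : edge k δ i ∈ Sp k (fun t => t = [(i : ℝ) * δ, ((i + 1 : ℕ) : ℝ) * δ]) :=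
    single_mem (P := fun t => t = [(i : ℝ) * δ, ((i + 1 : ℕ) : ℝ) * δ]) rfl 1
  set Ψ : List ((ℝ →ᵇ M) × ((ℝ →ᵇ M) × ℝ)) → k := fun L =>
    (fun l : List ((ℝ →ᵇ M) × ℝ) => τ.f (l.map (evp y))) ((L.take (n + 1)).map Prod.snd) *
      (fun l : List ((ℝ →ᵇ M) × ((ℝ →ᵇ M) × ℝ)) =>
        g (l.map fun p => catc (c : ℝ) (p.1, cutp r y p.2))) (L.drop n) with hΨ
  have e1 : itg n τ.f g r y c = fun L => Ψ (L.map asc) := by
    funext L
    rw [itg, hΨ]
    simp only
    rw [← List.map_take, ← List.map_take, ← List.map_drop]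
    simp only [List.map_map]
    rfl
  have e2 : ev (N929.fib (edge k δ i) (itg n τ.f g r y c)) (Sh s t) =
      ev Ψ (sh (single s 1) (sh (single t 1) (edge k δ i))) := by
    rw [N929.ev_fib, e1, ← ev_mp, ← sh_single, sh_assoc]
  -- the value on a single list
  have key : ∀ v, Gr t [(i : ℝ) * δ, ((i + 1 : ℕ) : ℝ) * δ] v → ev Ψ (Sh s v) =
      (Λ.map fun x => if s.length = x.a + 1 then x.f s * intg n τ.f x.g r y v else 0).sum := by
    intro v hv
    have hvl : v.length = t.length + 1 := by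
      have := hv.1
      simp only [List.length_cons, List.length_nil] at this
      omega
    have hvn : v ≠ [] := by
      rintro rfl
      simp at hvl
    have hsl := List.length_pos_iff.2 hsn
    have htl := List.length_pos_iff.2 htn
    have hfr := front_right (k := k) (α := ℝ →ᵇ M)
      (f := fun l : List ((ℝ →ᵇ M) × ℝ) => τ.f (l.map (evp y)))
      (τ.nrm.map (evp y)) (fun l : List ((ℝ →ᵇ M) × ((ℝ →ᵇ M) × ℝ)) =>
        g (l.map fun p => catc (c : ℝ) (p.1, cutp r y p.2))) n s v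
    by_cases hlen : n + 2 ≤ s.length + v.length
    swap
    · exfalso
      omega
    rw [hΨ, hfr hlen hsn hvn]
    by_cases hvn' : n + 1 ≤ v.length
    swap
    · rw [if_neg hvn']
      symm
      refine List.sum_eq_zero fun z hz => ?_
      obtain ⟨x, hx, rfl⟩ := List.mem_map.1 hz
      rw [if_neg]
      have := hdeg x hx
      omega
    rw [if_pos hvn']
    by_cases hτ : τ.f ((v.take (n + 1)).map (evp y)) = 0
    · rw [hτ, zero_mul, mul_zero]
      symm
      refine List.sum_eq_zero fun z hz => ?_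
      obtain ⟨x, hx, rfl⟩ := List.mem_map.1 hz
      rw [intg, N929.cup, hτ, zero_mul, mul_zero, ite_self]
    -- the cut paths
    have htm : Fine (P x₀ q S) η t := htf
    have hfine : Fine (PTm x₀ q S (((i + 1 : ℕ) : ℝ) * δ)) η v :=
      fine_grid hs.pos hN hδ0 htf ⟨i, Nat.lt_succ_self i, rfl⟩ hv
    have hcut := cut_fine τ hseg hr hrρ hs.pos hs.mod hs.h3' hfine hvn hτ
    have e3 : ev (fun l : List ((ℝ →ᵇ M) × ((ℝ →ᵇ M) × ℝ)) =>
        g (l.map fun p => catc (c : ℝ) (p.1, cutp r y p.2))) (Sh s (v.drop n)) =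
        bc c g s ((v.drop n).map (cutp r y)) := by
      have h3 := Sh_map (k := k) (id : (ℝ →ᵇ M) → (ℝ →ᵇ M)) (cutp r y) _ s (v.drop n) rfl
      rw [List.map_id] at h3
      have h5 : (fun l : List ((ℝ →ᵇ M) × ((ℝ →ᵇ M) × ℝ)) =>
          g (l.map fun p => catc (c : ℝ) (p.1, cutp r y p.2))) =
          fun l => g ((l.map (Prod.map id (cutp r y))).map (catc (c : ℝ))) := by
        funext l
        rw [List.map_map]
        rfl
      rw [bc, h3, h5]
      rw [ev_mp]
    rw [e3, hΛ c _ (by have := hs.pos; positivity) s ((v.drop n).map (cutp r y)) (by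
      rw [List.length_map, List.length_drop, hvl]; omega) hsn (by
      intro h0
      have := congrArg List.length h0
      rw [List.length_map, List.length_drop, List.length_nil] at this
      omega) hsm hcut, tsum, mul_list_sum, mul_list_sum]
    congr 1
    refine List.map_congr_left fun x hx => ?_
    rw [mul_ite, mul_zero, mul_ite, mul_zero]
    split_ifs with hl
    · have hev : (-1 : k) ^ ((s.length + 1) * n) = 1 := by
        refine Even.neg_one_pow ?_
        have : (s.length + 1) * n = n * x.a + 2 * n := by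
          rw [hl]
          ring
        rw [this]
        exact (hsg x hx).add (even_two_mul n)
      rw [hev, intg, N929.cup]
      ring
    · rfl
  have e3 : ev Ψ (sh (single s 1) (sh (single t 1) (edge k δ i))) =
      ev (fun v => (Λ.map fun x => if s.length = x.a + 1 then x.f s * intg n τ.f x.g r y v
        else 0).sum) (sh (single t 1) (edge k δ i)) := by
    have h4 := eq_of_mem (k := k) (P := Gr t [(i : ℝ) * δ, ((i + 1 : ℕ) : ℝ) * δ])
      (F := ev Ψ ∘ₗ sh (k := k) (single s (1 : k)))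
      (G := ev (fun v => (Λ.map fun x => if s.length = x.a + 1 then x.f s * intg n τ.f x.g r y v
        else 0).sum)) (fun v hv => by
        rw [LinearMap.comp_apply, sh_single, ev_single, one_mul]
        exact key v hv) (c := sh (single t (1 : k)) (edge k δ i)) (by
        rw [edge, sh_single]
        exact Sh_mem _ _ _ rfl)
    exact h4
  rw [e2, e3, ev_list_sum, tsum, List.map_map]
  congr 1
  refine List.map_congr_left fun x _ => ?_
  simp only [Function.comp_apply]
  split_ifs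
  · rw [ev_smul_fun, N929.fib]
  · exact ev_zero_fun _

/-- **The expansion of a step.** -/
theorem exp_stp (τ : Tau k M n ρ₁) (hseg : LS.UniqSeg M ρ₀) (hr : 0 < r) (hrρ : r < ρ₀)
    (hs : Scl τ r y ε η) (hsg : ∀ x ∈ Λ, Even (n * x.a)) (hgN : Nrm g) (hx : ρ₁ ≤ dist x₀ y)
    (hq : ρ₁ ≤ dist q y) (hΛ : Exp x₀ y ε m g Λ) (hdeg : ∀ x ∈ Λ, x.a + x.b = m)
    {N : ℕ} (hN : 1 / ((N : ℝ) + 1) < η) {m' : ℕ} (hm' : m' + 1 = n + m) :
    Exp x₀ q η m' (stp n τ.f r (1 / ((N : ℝ) + 1)) y g)
      (⟨m', stp n τ.f r (1 / ((N : ℝ) + 1)) y g, 0, one1 k _⟩ ::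
        Λ.map fun x => ⟨x.a, x.f, n + x.b - 1, stp n τ.f r (1 / ((N : ℝ) + 1)) y x.g⟩) := by
  intro c S hS s t hst hsn htn hsm htf
  have hN0 : (0 : ℝ) < (N : ℝ) + 1 := by positivity
  have hδ0 : (0 : ℝ) < 1 / ((N : ℝ) + 1) := by positivity
  have hSN : S ≤ ((⌈S⌉₊ * (N + 1) : ℕ) : ℝ) * (1 / ((N : ℝ) + 1)) := by
    have := Nat.le_ceil S
    push_cast
    rw [mul_assoc, mul_one_div, div_self hN0.ne', mul_one]
    exact this
  have hsl := List.length_pos_iff.2 hsn
  have htl := List.length_pos_iff.2 htn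
  have h1 : bc c (stp n τ.f r (1 / ((N : ℝ) + 1)) y g) s t =
      ev (fun l => stp n τ.f r (1 / ((N : ℝ) + 1)) y g (l.map Prod.fst) +
        ∑ i ∈ Finset.range (⌈S⌉₊ * (N + 1)),
          N929.fib (edge k (1 / ((N : ℝ) + 1)) i) (itg n τ.f g r y c) l) (Sh s t) := by
    rw [bc]
    refine ev_congr (fun l hl => ?_) (Sh_mem (k := k) _ s t rfl)
    refine stp_split τ hseg hr hrρ hs hx hq hN hS (x₀ := x₀) (by
      rintro rfl
      have := hl.1
      rw [List.length_nil] at this
      omega) (fun p hp => ⟨hsm _ (hl.2 p hp).1, htf.1 _ (hl.2 p hp).2⟩) ?_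
    exact htf.sub fun w hw => by
      obtain ⟨p, hp, rfl⟩ := List.mem_map.1 hw
      exact (hl.2 p hp).2
  have h2 : ev (fun l => stp n τ.f r (1 / ((N : ℝ) + 1)) y g (l.map Prod.fst)) (Sh s t) =
      if s.length = m' + 1 then stp n τ.f r (1 / ((N : ℝ) + 1)) y g s * one1 k _ t else 0 := by
    by_cases hl : s.length = m' + 1
    · have ht1 : t.length = 1 := by omega
      obtain ⟨u, rfl⟩ := List.length_eq_one_iff.1 ht1
      rw [if_pos hl, Sh_point_right u hsn, ev_single, one_mul, one1, if_pos ht1, mul_one,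
        List.map_map]
      congr 1
      exact List.map_id _
    · rw [if_neg hl]
      exact ev_fst_zero (nrm_stp τ hgN) (by omega)
  have h3 : ∀ I : Finset ℕ, ev (fun l => ∑ i ∈ I,
      N929.fib (edge k (1 / ((N : ℝ) + 1)) i) (itg n τ.f g r y c) l) (Sh s t) =
      ∑ i ∈ I, ev (N929.fib (edge k (1 / ((N : ℝ) + 1)) i) (itg n τ.f g r y c)) (Sh s t) := by
    classical
    intro I
    induction I using Finset.induction_on with
    | empty => simp only [Finset.sum_empty]; exact ev_zero_fun _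
    | insert a I ha ih =>
      simp only [Finset.sum_insert ha]
      rw [ev_add_fun, ih]
  rw [h1, ev_add_fun, h2, h3, tsum_cons]
  congr 1
  rw [Finset.sum_congr rfl fun i _ => ev_itg τ hseg hr hrρ hs hsg hΛ hdeg hN c
    (by omega : s.length + t.length = n + m + 1) hsn htn hsm htf i]
  simp only [tsum, List.map_map]
  rw [sum_list_sum]
  congr 1
  refine List.map_congr_left fun x _ => ?_
  simp only [Function.comp_apply]
  split_ifs with h4
  · rw [← Finset.mul_sum, ← fib_mesh, stp_eq (x₀ := x₀) τ hq hδ0 hSN htn htf.1]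
  · rw [Finset.sum_const_zero]

end

end Vale.Agent.P216.H285
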