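import Vale.Agent.P216.H285.Pow3

/-!
# P216-D, [POW-OM] (4): cup products of expansions
-/

open Finsupp Set BoundedContinuousFunction

namespace Vale.Agent.P216.H285

open Vale.Agent.P216.Sl Vale.Agent.P216.PS Vale.Agent.P216.N929 Vale.Agent.P216.H977C

variable {k : Type} [Field k] {M : Type} [MetricSpace M] [CompactSpace M]

/-- The product of two tensors. -/
noncomputable def Tm.mul (x y : Tm k M) : Tm k M :=
  ⟨x.a + y.a, fun l => (-1) ^ (x.b * y.a) * N929.cup x.a x.f y.f l, x.b + y.b,
    N929.cup x.b x.g y.g⟩

theorem Exp.congr {x₀ q : M} {ε : ℝ} {m : ℕ} {g : List (ℝ →ᵇ M) → k} {Λ Λ' : List (Tm k M)}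
    (h : Exp x₀ q ε m g Λ) (hΛ : ∀ s t : List (ℝ →ᵇ M), s ≠ [] → t ≠ [] →
      tsum Λ s t = tsum Λ' s t) : Exp x₀ q ε m g Λ' := by
  intro c S hS s t hst hs ht hsm htf
  rw [← hΛ s t hs ht]
  exact h c S hS s t hst hs ht hsm htf

theorem Exp.mono {x₀ q : M} {ε ε' : ℝ} {m : ℕ} {g : List (ℝ →ᵇ M) → k} {Λ : List (Tm k M)}
    (h : Exp x₀ q ε m g Λ) (hε : ε' ≤ ε) : Exp x₀ q ε' m g Λ :=
  fun c S hS s t hst hs ht hsm htf => h c S hS s t hst hs ht hsm (htf.mono le_rfl hε)

omit [MetricSpace M] [CompactSpace M] in
theorem list_sum_mul_sum {ι κ : Type} (L : List ι) (L' : List κ) (F : ι → k) (G : κ → k) :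
    (L.map F).sum * (L'.map G).sum = ((L.flatMap fun x => L'.map fun y => (x, y)).map
      fun p => F p.1 * G p.2).sum := by
  induction L with
  | nil => simp
  | cons x L ih =>
    rw [List.map_cons, List.sum_cons, add_mul, ih, List.flatMap_cons, List.map_append,
      List.sum_append, List.map_map, mul_list_sum]
    rfl

/-- **The cup product of two expansions.** -/
theorem exp_cupp {x₀ q : M} {ε : ℝ} {m m' : ℕ} {F G : List (ℝ →ᵇ M) → k} {Λ Λ' : List (Tm k M)}
    (hF : Exp x₀ q ε m F Λ) (hG : Exp x₀ q ε m' G Λ') (hdF : ∀ x ∈ Λ, x.a + x.b = m)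
    (hdG : ∀ x ∈ Λ', x.a + x.b = m') :
    Exp x₀ q ε (m' + m) (N929.cup m F G)
      ((Λ.flatMap fun x => Λ'.map fun y => (x, y)).map fun p => p.1.mul p.2) := by
  intro c S hS s t hst hsn htn hsm htf
  have hsl := List.length_pos_iff.2 hsn
  have htl := List.length_pos_iff.2 htn
  have h1 : bc c (N929.cup m F G) s t = ev (fun l : List ((ℝ →ᵇ M) × (ℝ →ᵇ M)) =>
      (fun l' => F (l'.map (catc c))) (l.take (m + 1)) *
        (fun l' => G (l'.map (catc c))) (l.drop m)) (Sh s t) := by
    rw [bc]
    congr 2
    funext l
    rw [N929.cup, ← List.map_take, ← List.map_drop]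
  rw [h1, ev_cut (fun l' => G (l'.map (catc c))) m (fun l' => F (l'.map (catc c))) s t (by omega)
    hsn htn]
  -- each term
  have key : ∀ a ∈ Finset.range (m + 1), (-1 : k) ^ ((s.length + 1 + a) * (m + a)) *
      (ev (fun l' => F (l'.map (catc c))) (Sh (s.take (a + 1)) (t.take (m - a + 1))) *
        ev (fun l' => G (l'.map (catc c))) (Sh (s.drop a) (t.drop (m - a)))) =
      ((Λ.flatMap fun x => Λ'.map fun y => (x, y)).map fun p : Tm k M × Tm k M =>
        if a = p.1.a then (if s.length = (p.1.mul p.2).a + 1 then
          (p.1.mul p.2).f s * (p.1.mul p.2).g t else 0) else 0).sum := by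
    intro a ha
    have ha := Finset.mem_range.1 ha
    by_cases hz : a < s.length ∧ m - a < t.length
    · obtain ⟨h2, h3⟩ := hz
      have e1 : ev (fun l' => F (l'.map (catc c))) (Sh (s.take (a + 1)) (t.take (m - a + 1))) =
          tsum Λ (s.take (a + 1)) (t.take (m - a + 1)) :=
        hF c S hS _ _ (by rw [List.length_take, List.length_take]; omega)
          (by intro h0; have := congrArg List.length h0; rw [List.length_take,
            List.length_nil] at this; omega)
          (by intro h0; have := congrArg List.length h0; rw [List.length_take,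
            List.length_nil] at this; omega)
          (fun w hw => hsm w (List.mem_of_mem_take hw)) (htf.sub fun w hw => List.mem_of_mem_take hw)
      have e2 : ev (fun l' => G (l'.map (catc c))) (Sh (s.drop a) (t.drop (m - a))) =
          tsum Λ' (s.drop a) (t.drop (m - a)) :=
        hG c S hS _ _ (by rw [List.length_drop, List.length_drop]; omega)
          (by intro h0; have := congrArg List.length h0; rw [List.length_drop,
            List.length_nil] at this; omega)
          (by intro h0; have := congrArg List.length h0; rw [List.length_drop,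
            List.length_nil] at this; omega)
          (fun w hw => hsm w (List.mem_of_mem_drop hw)) (htf.sub fun w hw => List.mem_of_mem_drop hw)
      rw [e1, e2, tsum, tsum, list_sum_mul_sum, mul_list_sum]
      congr 1
      refine List.map_congr_left fun p hp => ?_
      obtain ⟨x, hx, hp⟩ := List.mem_flatMap.1 hp
      obtain ⟨y, hy, rfl⟩ := List.mem_map.1 hp
      have hxd := hdF x hx
      have hyd := hdG y hy
      simp only [List.length_take, List.length_drop]
      by_cases h4 : a = x.a
      · subst h4
        rw [if_pos (by omega : min (x.a + 1) s.length = x.a + 1), if_pos rfl]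
        by_cases h5 : s.length = x.a + y.a + 1
        · have h6 : s.length - x.a = y.a + 1 := by omega
          rw [if_pos h6, if_pos (show s.length = (x.mul y).a + 1 from h5)]
          have hb : m - x.a = x.b := by omega
          simp only [Tm.mul, N929.cup, hb]
          have hsg : (-1 : k) ^ ((s.length + 1 + x.a) * (m + x.a)) = (-1) ^ (x.b * y.a) := by
            refine neg_one_pow_congr' ?_
            have : (s.length + 1 + x.a) * (m + x.a) =
                x.b * y.a + 2 * ((x.a + 1) * (x.b + 2 * x.a) + y.a * x.a) := by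
              rw [h5, ← hxd]
              ring
            rw [this]
            omega
          rw [hsg]
          ring
        · have h6 : ¬ s.length - x.a = y.a + 1 := by omega
          rw [if_neg h6, if_neg (show ¬ s.length = (x.mul y).a + 1 from h5)]
          ring
      · rw [if_neg (by omega : ¬ min (a + 1) s.length = x.a + 1), if_neg h4]
        ring
    · have h0 : ev (fun l' => G (l'.map (catc c))) (Sh (s.drop a) (t.drop (m - a))) = 0 := by
        rcases not_and_or.1 hz with h | h
        · rw [List.drop_eq_nil_of_le (by omega : s.length ≤ a), Sh_nil_left, map_zero]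
        · rw [List.drop_eq_nil_of_le (by omega : t.length ≤ m - a), Sh_nil_right, map_zero]
      rw [h0, mul_zero, mul_zero]
      symm
      refine List.sum_eq_zero fun z hz' => ?_
      obtain ⟨p, hp, rfl⟩ := List.mem_map.1 hz'
      obtain ⟨x, hx, hp⟩ := List.mem_flatMap.1 hp
      obtain ⟨y, hy, rfl⟩ := List.mem_map.1 hp
      have hxd := hdF x hx
      have hyd := hdG y hy
      simp only
      split_ifs with h4 h5
      · exfalso
        have h5 : s.length = x.a + y.a + 1 := h5
        omega
      · rfl
      · rfl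
  rw [Finset.sum_congr rfl key, sum_list_sum, tsum, List.map_map]
  congr 1
  refine List.map_congr_left fun p hp => ?_
  obtain ⟨x, hx, hp⟩ := List.mem_flatMap.1 hp
  obtain ⟨y, hy, rfl⟩ := List.mem_map.1 hp
  have hxd := hdF x hx
  simp only [Function.comp_apply]
  rw [Finset.sum_ite_eq' (Finset.range (m + 1)) x.a, if_pos (Finset.mem_range.2 (by omega))]

/-- Functions of the second coordinate vanish on the products with a list of length `≥ 2`. -/
theorem ev_snd_zero {α β : Type} {f : List β → k} (hf : Nrm f) {s : List α} {t : List β}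
    (hs : 2 ≤ s.length) : ev (fun l => f (l.map Prod.snd)) (Sh s t : Ch k (α × β)) = 0 := by
  rcases t with _ | ⟨b, t⟩
  · rw [Sh_nil_right, map_zero]
  have hsn : s ≠ [] := by
    rintro rfl
    simp at hs
  by_cases ht : t = []
  · subst ht
    rw [Sh_point_right b hsn, ev_single, one_mul, List.map_map]
    obtain ⟨a, s, rfl⟩ := List.exists_cons_of_ne_nil hsn
    obtain ⟨a', s, rfl⟩ := List.exists_cons_of_ne_nil (l := s) (by
      rintro rfl
      simp at hs)
    rw [List.map_cons, List.map_cons]
    exact hf.dup _ _
  have h1 := front_right (k := k) (α := α) (f := f) hf (fun _ : List (α × β) => (1 : k))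
    (s.length + t.length - 1) s (b :: t) (by
      have := List.length_pos_iff.2 ht
      have := List.length_pos_iff.2 hsn
      rw [List.length_cons]
      omega) hsn (by simp)
  rw [if_neg (by rw [List.length_cons]; omega)] at h1
  rw [← h1]
  refine ev_congr (fun l hl => ?_) (Sh_mem (k := k) _ s (b :: t) rfl)
  have h2 := hl.1
  rw [List.length_cons] at h2
  rw [List.take_of_length_le (by omega), mul_one]

/-- **The expansion of an additive class.** -/
theorem exp_add {e : ℕ} {f : List (ℝ →ᵇ M) → k} (hf : AddE f) (hN : Nrm f) (x₀ q : M) (ε : ℝ) :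
    Exp x₀ q ε e f [⟨e, f, 0, one1 k _⟩, ⟨0, one1 k _, e, f⟩] := by
  intro c S hS s t hst hsn htn hsm htf
  have hsl := List.length_pos_iff.2 hsn
  have htl := List.length_pos_iff.2 htn
  have h1 : bc c f s t = ev (fun l => f (l.map Prod.fst) + f (l.map Prod.snd)) (Sh s t) := by
    rw [bc]
    refine ev_congr (fun l hl => ?_) (Sh_mem (k := k) _ s t rfl)
    refine hf x₀ x₀ q c S hS l (by
      rintro rfl
      have := hl.1
      rw [List.length_nil] at this
      omega) fun p hp => ⟨hsm _ (hl.2 p hp).1, htf.1 _ (hl.2 p hp).2⟩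
  have h2 : ev (fun l => f (l.map Prod.fst)) (Sh s t : Ch k ((ℝ →ᵇ M) × (ℝ →ᵇ M))) =
      if s.length = e + 1 then f s * one1 k _ t else 0 := by
    by_cases hl : s.length = e + 1
    · have ht1 : t.length = 1 := by omega
      obtain ⟨u, rfl⟩ := List.length_eq_one_iff.1 ht1
      rw [if_pos hl, Sh_point_right u hsn, ev_single, one_mul, one1, if_pos ht1, mul_one,
        List.map_map]
      congr 1
      exact List.map_id _
    · rw [if_neg hl]
      exact ev_fst_zero hN (by omega)
  have h3 : ev (fun l => f (l.map Prod.snd)) (Sh s t : Ch k ((ℝ →ᵇ M) × (ℝ →ᵇ M))) =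
      if s.length = 0 + 1 then one1 k _ s * f t else 0 := by
    by_cases hl : s.length = 0 + 1
    · obtain ⟨u, rfl⟩ := List.length_eq_one_iff.1 hl
      rw [if_pos hl, Sh_point_left u htn, ev_single, one_mul, one1, if_pos hl, one_mul, List.map_map]
      congr 1
      exact List.map_id _
    · rw [if_neg hl]
      exact ev_snd_zero hN (by omega)
  rw [h1, ev_add_fun, h2, h3, tsum_cons, tsum_cons, tsum_nil, add_zero]

/-- The cup product with an additive class. -/
noncomputable def cupT (e : ℕ) (f : List (ℝ →ᵇ M) → k) (Λ : List (Tm k M)) : List (Tm k M) :=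
  (Λ.map fun x => ⟨x.a + e, N929.cup e f x.f, x.b, x.g⟩) ++
    Λ.map fun x => ⟨x.a, fun l => (-1) ^ (e * x.a) * x.f l, x.b + e, N929.cup e f x.g⟩

/-- **The expansion of the cup product with an additive class.** -/
theorem exp_cup {x₀ q : M} {ε : ℝ} {e m : ℕ} {f g : List (ℝ →ᵇ M) → k} {Λ : List (Tm k M)}
    (hf : AddE f) (hN : Nrm f) (hg : Exp x₀ q ε m g Λ) (hd : ∀ x ∈ Λ, x.a + x.b = m) :
    Exp x₀ q ε (m + e) (N929.cup e f g) (cupT e f Λ) := by
  refine (exp_cupp (exp_add (e := e) hf hN x₀ q ε) hg (by simp) hd).congr fun s t hs ht => ?_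
  have hs1 : one1 k (ℝ →ᵇ M) (s.take 1) = 1 := by
    rw [one1, if_pos]
    rw [List.length_take]
    have := List.length_pos_iff.2 hs
    omega
  have ht1 : one1 k (ℝ →ᵇ M) (t.take 1) = 1 := by
    rw [one1, if_pos]
    rw [List.length_take]
    have := List.length_pos_iff.2 ht
    omega
  rw [cupT, tsum_append]
  simp only [List.flatMap_cons, List.flatMap_nil, List.append_nil, List.map_append, List.map_map]
  rw [tsum_append]
  simp only [tsum, List.map_map]
  congr 2
  · refine List.map_congr_left fun x hx => ?_
    simp only [Function.comp_apply, Tm.mul, N929.cup, Nat.zero_mul, pow_zero, one_mul,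
      Nat.zero_add, ht1, List.drop_zero, Nat.add_comm e x.a]
  · refine List.map_congr_left fun x hx => ?_
    simp only [Function.comp_apply, Tm.mul, N929.cup, Nat.zero_add, hs1, List.drop_zero, one_mul,
      Nat.add_comm e x.b]

end Vale.Agent.P216.H285
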