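import Vale.Agent.P216.H285.Pow4
import Vale.Agent.P216.H894.SignC

/-!
# P216-D, [POW-OM] (5): the classes with one mesh, and their expansions
-/

open Finsupp Set BoundedContinuousFunction

namespace Vale.Agent.P216.H285

open Vale.Agent.P216.Sl Vale.Agent.P216.PS Vale.Agent.P216.N929 Vale.Agent.P216.H977C

variable {k : Type} [Field k] {M : Type} [MetricSpace M] [CompactSpace M]

/-- `i` negations. -/
def nb : ℕ → Bool → Bool
  | 0, b => b
  | i + 1, b => nb i (!b)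

section

variable {n e : ℕ} (G : Geo M n) (τ : Tau k M n G.ρ₁) (E : Eta k M e)

/-- The step. -/
noncomputable def sp (N : ℕ) (b : Bool) (g : List (ℝ →ᵇ M) → k) : List (ℝ →ᵇ M) → k :=
  stp n τ.f G.r (1 / ((N : ℝ) + 1)) (G.y b) g

/-- The classes, with one mesh. -/
noncomputable def VV (N : ℕ) : ℕ → Bool → List (ℝ →ᵇ M) → k
  | 0, _ => one1 k _
  | j + 1, b => sp G τ N (!b) (N929.cup e E.f (VV N j (!b)))

/-- The scales. -/
noncomputable def es : ℕ → {ε : ℝ // 0 < ε}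
  | 0 => ⟨E.ε, E.hε⟩
  | j + 1 =>
    let h := fun b : Bool => exists_scl (y := G.y b) τ G.h1r (cutMod G.seg G.hr G.hrρ _) (es j).2
    ⟨min (es j).1 (min (h true).choose (h false).choose),
      lt_min (es j).2 (lt_min (h true).choose_spec.pos (h false).choose_spec.pos)⟩

theorem es_scl (j : ℕ) (b : Bool) :
    Scl τ G.r (G.y b) (es G τ E j).1 (es G τ E (j + 1)).1 := by
  have h := fun b : Bool => exists_scl (y := G.y b) τ G.h1r (cutMod G.seg G.hr G.hrρ _)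
    (es G τ E j).2
  cases b
  · exact (exists_scl (y := G.y false) τ G.h1r (cutMod G.seg G.hr G.hrρ _)
      (es G τ E j).2).choose_spec.mono (es G τ E (j + 1)).2
      ((min_le_right _ _).trans (min_le_right _ _))
  · exact (exists_scl (y := G.y true) τ G.h1r (cutMod G.seg G.hr G.hrρ _)
      (es G τ E j).2).choose_spec.mono (es G τ E (j + 1)).2
      ((min_le_right _ _).trans (min_le_left _ _))

theorem es_succ (j : ℕ) : (es G τ E (j + 1)).1 ≤ (es G τ E j).1 := min_le_left _ _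

theorem es_anti {i j : ℕ} (h : i ≤ j) : (es G τ E j).1 ≤ (es G τ E i).1 := by
  induction j, h using Nat.le_induction with
  | base => exact le_rfl
  | succ j _ ih => exact (es_succ G τ E j).trans ih

theorem es_le (j : ℕ) : (es G τ E j).1 ≤ E.ε := es_anti G τ E (Nat.zero_le j)

theorem VV_zero (N : ℕ) (b : Bool) : VV G τ E N 0 b = one1 k _ := rfl

theorem VV_succ (N j : ℕ) (b : Bool) :
    VV G τ E N (j + 1) b = sp G τ N (!b) (N929.cup e E.f (VV G τ E N j (!b))) := rfl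

theorem VV_nrm (N j : ℕ) (b : Bool) : Nrm (VV G τ E N j b) := by
  induction j generalizing b with
  | zero => exact nrm_one1
  | succ j ih => exact nrm_stp τ (nrm_cup E.nrm (ih _))

/-- A step of a cocycle is a cocycle. -/
theorem sp_coc {N j m : ℕ} (hN : 1 / ((N : ℝ) + 1) < (es G τ E (j + 1)).1) {b : Bool}
    {g : List (ℝ →ᵇ M) → k} (hg : ∀ T, Coc (P G.x₀ (G.y b) T) (es G τ E j).1 m g) {q : M}
    (hq : G.ρ₁ ≤ dist q (G.y b)) (T : ℝ) :
    Coc (P G.x₀ q T) (es G τ E (j + 1)).1 (n + m - 1) (sp G τ N b g) :=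
  stp_coc' τ G.seg G.hr G.hrρ (es_scl G τ E j b) hq (G.hx b) (by have := G.hn; omega) hg
    (by positivity) hN T

/-- A step of an exact cochain is exact. -/
theorem sp_ex {N j m : ℕ} (hN : 1 / ((N : ℝ) + 1) < (es G τ E (j + 1)).1) {b : Bool}
    {g : List (ℝ →ᵇ M) → k} (hg : ∀ T, Coc (P G.x₀ (G.y b) T) (es G τ E j).1 m g)
    (hx : ∀ T, 0 ≤ T → ExL (P G.x₀ (G.y b) T) m g) {q : M} (hq : G.ρ₁ ≤ dist q (G.y b)) {T : ℝ}
    (hT : 0 ≤ T) : ExL (P G.x₀ q T) (n + m - 1) (sp G τ N b g) :=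
  stp_down τ G.seg G.hr G.hrρ G.h1r G.hn (by have := G.hn; omega) (es_scl G τ E j b) hq hg
    (by positivity) hN hT le_rfl (hx _ (by have := G.hr; linarith))

/-- The classes are cocycles. -/
theorem VV_coc {D : ℕ} (hD : D + 1 = n + e) {N j : ℕ} (hN : 1 / ((N : ℝ) + 1) < (es G τ E j).1)
    (b : Bool) {q : M} (hq : G.ρ₁ ≤ dist q (G.y (!b))) (T : ℝ) :
    Coc (P G.x₀ q T) (es G τ E j).1 (j * D) (VV G τ E N j b) := by
  induction j generalizing b q T with
  | zero => rw [Nat.zero_mul]; exact coc_one1 _ _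
  | succ j ih =>
    have h1 : ∀ T, Coc (P G.x₀ (G.y (!b)) T) (es G τ E j).1 (j * D + e)
        (N929.cup e E.f (VV G τ E N j (!b))) := fun T =>
      coc_cup (E.coc _ _ _) (ih (hN.trans_le (es_succ G τ E j)) (!b)
        (by have := G.hy (!b); simpa using this) T) (es_le G τ E j) le_rfl
    have h2 := sp_coc G τ E hN h1 hq T
    have e' : n + (j * D + e) - 1 = (j + 1) * D := by
      have := G.hn
      rw [Nat.add_mul, Nat.one_mul]
      omega
    rwa [e'] at h2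

/-- The negligible tensors. -/
structure Ng (x₀ q : M) (ε : ℝ) (m : ℕ) (x : Tm k M) : Prop where
  deg : x.a + x.b = m
  cf : ∀ T, CocL (P x₀ x₀ T) x.a x.f
  hb : 1 ≤ x.b
  cg : ∀ T, Coc (P x₀ q T) ε x.b x.g
  eg : ∀ T, 0 ≤ T → ExL (P x₀ q T) x.b x.g

/-- The main tensors. -/
noncomputable def mn (N D j : ℕ) (b : Bool) (i : ℕ) : Tm k M :=
  ⟨(j - i) * D, VV G τ E N (j - i) (nb i b), i * D, VV G τ E N i b⟩

/-- The list of the main tensors. -/
noncomputable def MV (N D j : ℕ) (b : Bool) : List (Tm k M) :=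
  (List.range (j + 1)).map (mn G τ E N D j b)

theorem MV_deg {N D j : ℕ} {b : Bool} {x : Tm k M} (hx : x ∈ MV G τ E N D j b) :
    x.a + x.b = j * D := by
  obtain ⟨i, hi, rfl⟩ := List.mem_map.1 hx
  have hi := List.mem_range.1 hi
  change (j - i) * D + i * D = j * D
  rw [← Nat.add_mul]
  congr 1
  omega

/-- The stage `j`: the expansion of `VV j b`. -/
def StE (D N : ℕ) (j : ℕ) (b : Bool) (q : M) : Prop :=
  ∃ Λ : List (Tm k M), Exp G.x₀ q (es G τ E j).1 (j * D) (VV G τ E N j b)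
    (MV G τ E N D j b ++ Λ) ∧ ∀ x ∈ Λ, Ng G.x₀ q (es G τ E j).1 (j * D) x

/-- The step on tensors. -/
noncomputable def stT (N : ℕ) (b : Bool) (x : Tm k M) : Tm k M :=
  ⟨x.a, x.f, n + x.b - 1, sp G τ N b x.g⟩

theorem Ng.step {N j m : ℕ} (hN : 1 / ((N : ℝ) + 1) < (es G τ E (j + 1)).1) {b : Bool} {x : Tm k M}
    (hx : Ng G.x₀ (G.y b) (es G τ E j).1 m x) {q : M} (hq : G.ρ₁ ≤ dist q (G.y b)) :
    Ng G.x₀ q (es G τ E (j + 1)).1 (n + m - 1) (stT G τ N b x) := by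
  have hn := G.hn
  refine ⟨?_, hx.cf, ?_, sp_coc G τ E hN hx.cg hq, fun T hT => sp_ex G τ E hN hx.cg hx.eg hq hT⟩
  · have := hx.deg
    have := hx.hb
    change x.a + (n + x.b - 1) = _
    omega
  · have := hx.hb
    change 1 ≤ n + x.b - 1
    omega

omit [CompactSpace M] in
theorem cocL_smul' {X : Set (ℝ →ᵇ M)} {m : ℕ} {f : List (ℝ →ᵇ M) → k} (c : k)
    (hf : CocL X m f) : CocL X m fun l => c * f l := by
  obtain ⟨ε, hε, h⟩ := hf
  refine ⟨ε, hε, fun l hl hs => ?_⟩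
  rw [N929.dl_smul_fun, h l hl hs, mul_zero]

omit [CompactSpace M] in
theorem cocL_cup {X : Set (ℝ →ᵇ M)} {m e' : ℕ} {f g : List (ℝ →ᵇ M) → k} (hf : CocL X e' f)
    (hg : CocL X m g) : CocL X (m + e') (N929.cup e' f g) := by
  obtain ⟨ε, hε, hf⟩ := hf
  obtain ⟨ε', hε', hg⟩ := hg
  exact ⟨min ε ε', lt_min hε hε', coc_cup hf hg (min_le_left _ _) (min_le_right _ _)⟩

omit [CompactSpace M] in
theorem Ng.cup1 {x₀ q : M} {ε : ℝ} {m : ℕ} {x : Tm k M} (hx : Ng x₀ q ε m x) :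
    Ng x₀ q ε (m + e) ⟨x.a + e, N929.cup e E.f x.f, x.b, x.g⟩ := by
  refine ⟨?_, fun T => cocL_cup ⟨E.ε, E.hε, E.coc _ _ _⟩ (hx.cf T), hx.hb, hx.cg, hx.eg⟩
  have := hx.deg
  change x.a + e + x.b = m + e
  omega

omit [CompactSpace M] in
theorem Ng.cup2 (he : 1 ≤ e) {x₀ q : M} {ε : ℝ} (hε : ε ≤ E.ε) {m : ℕ} {x : Tm k M}
    (hx : Ng x₀ q ε m x) :
    Ng x₀ q ε (m + e) ⟨x.a, fun l => (-1) ^ (e * x.a) * x.f l, x.b + e,
      N929.cup e E.f x.g⟩ := by
  refine ⟨?_, fun T => cocL_smul' _ (hx.cf T), ?_, fun T => coc_cup (E.coc _ _ _) (hx.cg T) hε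
    le_rfl, fun T hT => exL_cup E.hε he (E.coc _ _ _) (hx.eg T hT)⟩
  · have := hx.deg
    change x.a + (x.b + e) = m + e
    omega
  · have := hx.hb
    change 1 ≤ x.b + e
    omega

end

end Vale.Agent.P216.H285
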