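import Vale.Agent.P216.H285.Pow5

/-!
# P216-D, [POW-OM] (6): the expansion of every stage
-/

open Finsupp Set BoundedContinuousFunction

namespace Vale.Agent.P216.H285

open Vale.Agent.P216.Sl Vale.Agent.P216.PS Vale.Agent.P216.N929 Vale.Agent.P216.H977C
open Vale.Agent.P216.AS

variable {k : Type} [Field k] {M : Type} [MetricSpace M] [CompactSpace M]

/-- The stable cohomology of the loops at `x₀` vanishes in degree `m`. -/
def EpZ (k : Type) [Field k] {M : Type} [MetricSpace M] (x₀ : M) (B : ℝ) (m : ℕ) : Prop :=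
  ∀ t, 0 ≤ t → ∀ (h : P x₀ x₀ t ⊆ P x₀ x₀ (t + B))
    (z : Ha (H901.tr (ℝ →ᵇ M)) (H901.on k) (P x₀ x₀ (t + B)) m), res h m z = 0

/-- Cocycles on the paths from `x₀` to `q` are exact in such degrees. -/
theorem EpZ.ex {x₀ q : M} {B D₀ : ℝ} {m : ℕ} (hz : EpZ k x₀ B m) (hB : 0 ≤ B)
    (hD₀ : IsPi M D₀) {g : List (ℝ →ᵇ M) → k} (hg : ∀ T, CocL (P x₀ q T) m g) {T : ℝ}
    (hT : 0 ≤ T) : ExL (P x₀ q T) m g := by
  refine ex_of_TC (α := H901.tr (ℝ →ᵇ M)) (χ := H901.on k) (hD := hD₀) (x₀ := x₀) (e := q)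
    (f := g) (hf := hg) hT ?_
  have hD0 := hD₀.nonneg
  rw [← res_TC _ _ hD₀ x₀ q g hg (show T + D₀ ≤ T + D₀ + B by linarith)]
  exact hz _ (by linarith) _ _

section

variable {n e D : ℕ} (G : Geo M n) (τ : Tau k M n G.ρ₁) (E : Eta k M e) (hD : D + 1 = n + e)

theorem nb_not (i : ℕ) (b : Bool) : nb i (!b) = !(nb i b) := by
  induction i generalizing b with
  | zero => rfl
  | succ i ih => rw [nb, nb, ih]

theorem stE_zero (N : ℕ) (b : Bool) (q : M) : StE G τ E D N 0 b q := by
  refine ⟨[], ?_, fun x hx => by simp at hx⟩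
  intro c S hS s t hst hsn htn hsm htf
  have hsl := List.length_pos_iff.2 hsn
  have htl := List.length_pos_iff.2 htn
  rw [Nat.zero_mul] at hst
  obtain ⟨u, rfl⟩ := List.length_eq_one_iff.1 (by omega : s.length = 1)
  obtain ⟨v, rfl⟩ := List.length_eq_one_iff.1 (by omega : t.length = 1)
  rw [List.append_nil, MV, bc, VV_zero, Sh_one, ev_single, tsum]
  simp [mn, one1, VV_zero]

include hD in
/-- **The induction step.** -/
theorem stE_succ (hE : AddE E.f) (he : 1 ≤ e) (hn : Even n) (hDe : Even D) {N j : ℕ}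
    (hN : 1 / ((N : ℝ) + 1) < (es G τ E (j + 1)).1) (b : Bool) {D₀ B : ℝ} (hB : 0 ≤ B)
    (hD₀ : IsPi M D₀) (hz : ∀ i, EpZ k G.x₀ B (n + i * D - 1))
    (h : StE G τ E D N j (!b) (G.y (!b))) {q : M} (hq : G.ρ₁ ≤ dist q (G.y (!b))) :
    StE G τ E D N (j + 1) b q := by
  have hn2 := G.hn
  have hD1 : 1 ≤ D := by omega
  have hjD : (j + 1) * D = j * D + D := by ring
  obtain ⟨Λ, hexp, hng⟩ := h
  have hdeg : ∀ x ∈ MV G τ E N D j (!b) ++ Λ, x.a + x.b = j * D := fun x hx => by
    rcases List.mem_append.1 hx with hx | hx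
    · exact MV_deg G τ E hx
    · exact (hng x hx).deg
  have h1 := exp_cup (e := e) hE E.nrm hexp hdeg
  have hdeg' : ∀ x ∈ cupT e E.f (MV G τ E N D j (!b) ++ Λ), x.a + x.b = j * D + e := by
    intro x hx
    rcases List.mem_append.1 hx with hx | hx
    · obtain ⟨y, hy, rfl⟩ := List.mem_map.1 hx
      have := hdeg y hy
      change y.a + e + y.b = _
      omega
    · obtain ⟨y, hy, rfl⟩ := List.mem_map.1 hx
      have := hdeg y hy
      change y.a + (y.b + e) = _
      omega
  have h2 := exp_stp (q := q) (m' := (j + 1) * D) τ G.seg G.hr G.hrρ (es_scl G τ E j (!b))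
    (fun x _ => hn.mul_right _) (nrm_cup E.nrm (VV_nrm G τ E N j (!b))) (G.hx _) hq h1 hdeg' hN (by omega)
  -- the new negligible tensors
  have hqb : G.ρ₁ ≤ dist (G.y (!b)) (G.y (!(!b))) := G.hy (!b)
  have cV : ∀ i ≤ j, ∀ (b' : Bool) {q : M}, G.ρ₁ ≤ dist q (G.y (!b')) → ∀ T,
      Coc (P G.x₀ q T) (es G τ E j).1 (i * D) (VV G τ E N i b') := fun i hi b' q hq T =>
    (VV_coc G τ E hD (hN.trans_le ((es_succ G τ E j).trans (es_anti G τ E hi))) b' hq T).mono
      le_rfl (es_anti G τ E hi)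
  refine ⟨(((MV G τ E N D j (!b)).map fun x =>
      (⟨x.a + e, N929.cup e E.f x.f, x.b, x.g⟩ : Tm k M)) ++
      (Λ.map fun x => (⟨x.a + e, N929.cup e E.f x.f, x.b, x.g⟩ : Tm k M)) ++
      (Λ.map fun x => (⟨x.a, fun l => (-1) ^ (e * x.a) * x.f l, x.b + e,
        N929.cup e E.f x.g⟩ : Tm k M))).map (stT G τ N (!b)), ?_, ?_⟩
  · refine h2.congr fun s t hs ht => ?_
    rw [tsum_cons, tsum_append]
    have e0 : cupT e E.f (MV G τ E N D j (!b) ++ Λ) =
        ((MV G τ E N D j (!b)).map fun x =>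
          (⟨x.a + e, N929.cup e E.f x.f, x.b, x.g⟩ : Tm k M)) ++
        (Λ.map fun x => (⟨x.a + e, N929.cup e E.f x.f, x.b, x.g⟩ : Tm k M)) ++
        (((MV G τ E N D j (!b)).map fun x => (⟨x.a, fun l => (-1) ^ (e * x.a) * x.f l, x.b + e,
          N929.cup e E.f x.g⟩ : Tm k M)) ++
        (Λ.map fun x => (⟨x.a, fun l => (-1) ^ (e * x.a) * x.f l, x.b + e,
          N929.cup e E.f x.g⟩ : Tm k M))) := by
      rw [cupT, List.map_append, List.map_append]
    have e1 : ∀ Λ' : List (Tm k M), (Λ'.map fun x : Tm k M => (⟨x.a, x.f, n + x.b - 1,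
        stp n τ.f G.r (1 / ((N : ℝ) + 1)) (G.y (!b)) x.g⟩ : Tm k M)) =
        Λ'.map (stT G τ N (!b)) := fun _ => rfl
    rw [e1, e0]
    simp only [List.map_append, tsum_append]
    have e2 : tsum (MV G τ E N D (j + 1) b) s t =
        (if s.length = (j + 1) * D + 1 then VV G τ E N (j + 1) b s * one1 k _ t else 0) +
        tsum (((MV G τ E N D j (!b)).map fun x => (⟨x.a, fun l => (-1) ^ (e * x.a) * x.f l,
          x.b + e, N929.cup e E.f x.g⟩ : Tm k M)).map (stT G τ N (!b))) s t := by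
      rw [MV, List.range_succ_eq_map, List.map_cons, tsum_cons]
      congr 1
      rw [MV, tsum, tsum, List.map_map, List.map_map, List.map_map, List.map_map, List.map_map]
      congr 1
      refine List.map_congr_left fun i hi => ?_
      have hi := List.mem_range.1 hi
      have e3 : j + 1 - (i + 1) = j - i := by omega
      simp only [Function.comp_apply, mn, stT, Nat.succ_eq_add_one, e3]
      have hev : (-1 : k) ^ (e * ((j - i) * D)) = 1 := by
        refine Even.neg_one_pow ?_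
        exact (hDe.mul_left _).mul_left _
      rw [hev, one_mul]
      rfl
    rw [e2]
    simp only [VV_succ, sp]
    ring
  · intro x hx
    obtain ⟨y, hy, rfl⟩ := List.mem_map.1 hx
    have hm : n + (j * D + e) - 1 = (j + 1) * D := by omega
    rcases List.mem_append.1 hy with hy | hy
    · rcases List.mem_append.1 hy with hy | hy
      · -- the terms with `sp (VV i (!b))`
        obtain ⟨z, hz', rfl⟩ := List.mem_map.1 hy
        obtain ⟨i, hi, rfl⟩ := List.mem_map.1 hz'
        have hi := List.mem_range.1 hi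
        have hcg := fun {q : M} (hq : G.ρ₁ ≤ dist q (G.y (!b))) =>
          sp_coc (q := q) G τ E hN (m := i * D) (cV i (by omega) (!b) hqb) hq
        refine ⟨?_, fun T => ?_, ?_, hcg hq, fun T hT => ?_⟩
        · change (j - i) * D + e + (n + i * D - 1) = _
          have : (j - i) * D + i * D = j * D := by
            rw [← Nat.add_mul]
            congr 1
            omega
          omega
        · exact cocL_cup ⟨E.ε, E.hε, E.coc _ _ _⟩ ⟨_, (es G τ E j).2,
            cV (j - i) (by omega) _ (G.hx _) T⟩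
        · change 1 ≤ n + i * D - 1
          omega
        · exact (hz i).ex hB hD₀ (fun T => ⟨_, (es G τ E (j + 1)).2, hcg hq T⟩) hT
      · obtain ⟨z, hz', rfl⟩ := List.mem_map.1 hy
        have := Ng.step G τ E hN (Ng.cup1 E (hng z hz')) hq
        rwa [hm] at this
    · obtain ⟨z, hz', rfl⟩ := List.mem_map.1 hy
      have := Ng.step G τ E hN (Ng.cup2 E he (es_le G τ E j) (hng z hz')) hq
      rwa [hm] at this

include hD in
/-- **The expansion of `VV j b`.** -/
theorem stE (hE : AddE E.f) (he : 1 ≤ e) (hn : Even n) (hDe : Even D) {N j : ℕ}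
    (hN : 1 / ((N : ℝ) + 1) < (es G τ E j).1) (b : Bool) {D₀ B : ℝ} (hB : 0 ≤ B)
    (hD₀ : IsPi M D₀) (hz : ∀ i, EpZ k G.x₀ B (n + i * D - 1)) {q : M}
    (hq : G.ρ₁ ≤ dist q (G.y (!b))) : StE G τ E D N j b q := by
  induction j generalizing b q with
  | zero => exact stE_zero G τ E N b q
  | succ j ih =>
    exact stE_succ G τ E hD hE he hn hDe hN b hB hD₀ hz
      (ih (hN.trans_le (es_succ G τ E j)) (!b) (G.hy (!b))) hq

end

end Vale.Agent.P216.H285
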