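import Vale.Agent.P216.H285.Pow6

/-!
# P216-D, [POW-OM] (7): cup products of the classes on the powers of a cycle
-/

open Finsupp Set BoundedContinuousFunction

namespace Vale.Agent.P216.H285

open Vale.Agent.P216.Sl Vale.Agent.P216.PS Vale.Agent.P216.N929 Vale.Agent.P216.H977C
open Vale.Agent.P216.AS Vale.Agent.P216.H894

variable {k : Type} [Field k]

/-! ### Sums over lists -/

theorem list_range_sum (n : ℕ) (f : ℕ → k) :
    ((List.range n).map f).sum = ∑ i ∈ Finset.range n, f i := by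
  induction n with
  | zero => simp
  | succ n ih =>
    rw [List.range_succ, List.map_append, List.sum_append, ih, Finset.sum_range_succ]
    simp

theorem flat_sum {ι κ : Type} (L : List ι) (L' : List κ) (φ : ι × κ → k) :
    ((L.flatMap fun x => L'.map fun y => (x, y)).map φ).sum =
      (L.map fun x => (L'.map fun y => φ (x, y)).sum).sum := by
  induction L with
  | nil => simp
  | cons x L ih =>
    rw [List.flatMap_cons, List.map_append, List.sum_append, ih, List.map_cons, List.sum_cons,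
      List.map_map]
    rfl

theorem list_sum_zero {ι : Type} (L : List ι) (f : ι → k) (h : ∀ x ∈ L, f x = 0) :
    (L.map f).sum = 0 :=
  List.sum_eq_zero fun z hz => by
    obtain ⟨x, hx, rfl⟩ := List.mem_map.1 hz
    exact h x hx

/-- A double sum which is concentrated on `α + β = 1`. -/
theorem sum_one (φ : ℕ → ℕ → k) (h : ∀ α β, α + β ≠ 1 → φ α β = 0) (m m' : ℕ) :
    ∑ α ∈ Finset.range (m + 1), ∑ β ∈ Finset.range (m' + 1), φ α β =
      (if 1 ≤ m then φ 1 0 else 0) + if 1 ≤ m' then φ 0 1 else 0 := by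
  rw [Finset.sum_range_succ' _ m]
  congr 1
  · by_cases hm : 1 ≤ m
    · rw [if_pos hm, Finset.sum_eq_single_of_mem 0 (Finset.mem_range.2 (by omega)),
        Finset.sum_eq_single_of_mem 0 (Finset.mem_range.2 (by omega))]
      · intro β _ hβ
        exact h _ _ (by omega)
      · intro α _ hα
        exact Finset.sum_eq_zero fun β _ => h _ _ (by omega)
    · rw [if_neg hm]
      have : m = 0 := by omega
      subst this
      simp
  · by_cases hm : 1 ≤ m'
    · rw [if_pos hm, Finset.sum_eq_single_of_mem 1 (Finset.mem_range.2 (by omega))]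
      intro β _ hβ
      exact h _ _ (by omega)
    · rw [if_neg hm]
      have : m' = 0 := by omega
      subst this
      rw [Finset.sum_range_one]
      exact h _ _ (by omega)

theorem exists_delta {ι : Type} (L : List ι) (Q : ι → ℝ → Prop)
    (hm : ∀ i δ δ', 0 < δ' → δ' ≤ δ → Q i δ → Q i δ') (h : ∀ i ∈ L, ∃ δ > 0, Q i δ) :
    ∃ δ > 0, ∀ i ∈ L, Q i δ := by
  induction L with
  | nil => exact ⟨1, one_pos, fun i hi => by simp at hi⟩
  | cons x L ih =>
    obtain ⟨δ, hδ, h1⟩ := ih fun i hi => h i (List.mem_cons_of_mem _ hi)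
    obtain ⟨δ', hδ', h2⟩ := h x List.mem_cons_self
    refine ⟨min δ δ', lt_min hδ hδ', fun i hi => ?_⟩
    rcases List.mem_cons.1 hi with rfl | hi
    · exact hm _ _ _ (lt_min hδ hδ') (min_le_right _ _) h2
    · exact hm _ _ _ (lt_min hδ hδ') (min_le_left _ _) (h1 i hi)

variable {M : Type} [MetricSpace M] [CompactSpace M]

/-- **Evaluation of an expansion on a product of chains.** -/
theorem ev_conc {x₀ q : M} {ε : ℝ} {m : ℕ} {g : List (ℝ →ᵇ M) → k} {Λ : List (Tm k M)}
    (hg : Exp x₀ q ε m g Λ) {c : ℕ} {S : ℝ} (hS : 0 ≤ S) {a d : ℕ} (had : a + d = m)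
    {z h : Ch k (ℝ →ᵇ M)} (hz : z ∈ Sp k fun l => l.length = a + 1 ∧ ∀ w ∈ l, w ∈ P x₀ x₀ c)
    (hh : h ∈ Sp k fun l => l.length = d + 1 ∧ Fine (P x₀ q S) ε l) :
    ev g (conc c z h) = (Λ.map fun x => if a = x.a then ev x.f z * ev x.g h else 0).sum := by
  rw [conc, ev_mp]
  -- single lists
  have h1 : ∀ s, (s.length = a + 1 ∧ ∀ w ∈ s, w ∈ P x₀ x₀ (c : ℝ)) →
      ev (fun l => g (l.map (catc c))) (sh (single s (1 : k)) h) =
      (Λ.map fun x => if a = x.a then x.f s * ev x.g h else 0).sum := by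
    intro s hs
    have h2 := eq_of_mem (F := ev (fun l : List ((ℝ →ᵇ M) × (ℝ →ᵇ M)) => g (l.map (catc c))) ∘ₗ
      (sh (k := k) (single s (1 : k)))) (G := ev fun t => tsum Λ s t) (fun t ht => by
        rw [LinearMap.comp_apply, sh_single, ev_single, one_mul]
        refine hg c S hS s t (by omega) ?_ ?_ hs.2 ht.2
        · rintro rfl
          have := hs.1
          simp at this
        · rintro rfl
          have := ht.1
          simp at this) hh
    rw [LinearMap.comp_apply] at h2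
    rw [h2]
    have h3 : (fun t => tsum Λ s t) =
        fun t => (Λ.map fun x => (fun (x : Tm k M) t => if s.length = x.a + 1 then
          x.f s * x.g t else 0) x t).sum := rfl
    rw [h3, ev_list_sum]
    congr 1
    refine List.map_congr_left fun x _ => ?_
    by_cases hx : a = x.a
    · rw [if_pos hx]
      have : s.length = x.a + 1 := by omega
      simp only [if_pos this]
      rw [ev_smul_fun]
    · rw [if_neg hx]
      have : ¬ s.length = x.a + 1 := by omega
      simp only [if_neg this]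
      exact ev_zero_fun _
  have h4 := eq_of_mem (F := ev (fun l : List ((ℝ →ᵇ M) × (ℝ →ᵇ M)) => g (l.map (catc c))) ∘ₗ
      (sh (k := k) (α := ℝ →ᵇ M) (β := ℝ →ᵇ M)).flip h)
    (G := ev fun s => (Λ.map fun x => (fun (x : Tm k M) s => if a = x.a then
          x.f s * ev x.g h else 0) x s).sum) (fun s hs => by
        rw [LinearMap.comp_apply, LinearMap.flip_apply, ev_single, one_mul]
        exact h1 s hs) hz
  rw [LinearMap.comp_apply, LinearMap.flip_apply] at h4
  rw [h4, ev_list_sum]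
  congr 1
  refine List.map_congr_left fun x _ => ?_
  by_cases hx : a = x.a
  · simp only [if_pos hx]
    have : (fun s : List (ℝ →ᵇ M) => x.f s * ev x.g h) = fun s => ev x.g h * x.f s := by
      funext s
      ring
    rw [this, ev_smul_fun]
    ring
  · simp only [if_neg hx]
    exact ev_zero_fun _

omit [CompactSpace M] in
/-- `f cup g` is exact if `g` is exact of positive degree. -/
theorem exL_cup_right {X : Set (ℝ →ᵇ M)} {e m : ℕ} {f g : List (ℝ →ᵇ M) → k} (hm : 1 ≤ m)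
    (hf : CocL X e f) (hg : ExL X m g) : ExL X (m + e) (N929.cup e f g) := by
  obtain ⟨ε, hε, hf⟩ := hf
  obtain ⟨s, hs0, ε', hε', hs⟩ := hg
  refine ⟨fun l => (-1 : k) ^ e * N929.cup e f s l, fun h0 => by omega, min ε ε',
    lt_min hε hε', fun l hl hl' => ?_⟩
  have h1 : dl f (l.take (e + 2)) = 0 :=
    hf _ (by rw [List.length_take]; omega)
      ((Fine.sub hl' fun x hx => List.mem_of_mem_take hx).mono le_rfl (min_le_left _ _))
  have h2 : g (l.drop e) = dl s (l.drop e) :=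
    hs _ (by rw [List.length_drop]; omega)
      (SmL.mono (Fine.sub hl' fun x hx => List.mem_of_mem_drop hx) le_rfl (min_le_right _ _))
  have hsq : (-1 : k) ^ e * (-1) ^ e = 1 := by
    rw [← pow_add, ← two_mul]; simp
  rw [N929.dl_smul_fun, N929.dl_cup _ _ _ _ (by omega), N929.cup, h2, h1]
  linear_combination (-(f (l.take (e + 1)) * dl s (l.drop e))) * hsq

section

variable {n e D : ℕ} (G : Geo M n) (τ : Tau k M n G.ρ₁) (E : Eta k M e) (hD : D + 1 = n + e)

theorem VV_cocL0 (hD : D + 1 = n + e) {N j : ℕ} (hN : 1 / ((N : ℝ) + 1) < (es G τ E j).1)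
    (b : Bool) (T : ℝ) : CocL (P G.x₀ G.x₀ T) (j * D) (VV G τ E N j b) :=
  ⟨_, (es G τ E j).2, VV_coc G τ E hD hN b (G.hx _) T⟩

include hD in
/-- **The values of the cup products on the powers of a cycle.** -/
theorem ev_cup_pw (hE : AddE E.f) (he : 1 ≤ e) (hn : Even n) (hDe : Even D) {N J : ℕ}
    (hN : 1 / ((N : ℝ) + 1) < (es G τ E J).1) {D₀ B : ℝ} (hB : 0 ≤ B)
    (hD₀ : IsPi M D₀) (hz : ∀ i, EpZ k G.x₀ B (n + i * D - 1)) (s : ℕ) : ∀ (j i₁ i₂ : ℕ)
    (b₁ b₂ : Bool), i₁ + i₂ = j → j ≤ J → ∃ δ > 0, ∀ h : Ch k (ℝ →ᵇ M),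
      Cy (P G.x₀ G.x₀ s) δ D h →
      ev (N929.cup (i₁ * D) (VV G τ E N i₁ b₁) (VV G τ E N i₂ b₂)) (pw G.x₀ s h j) =
        (j.choose i₁ : k) * (pp (fun b => ev (VV G τ E N 1 b) h) i₁ b₁ *
          pp (fun b => ev (VV G τ E N 1 b) h) i₂ b₂) := by
  have hn2 := G.hn
  have hD1 : 1 ≤ D := by omega
  intro j
  induction j with
  | zero =>
    intro i₁ i₂ b₁ b₂ hi _
    obtain rfl : i₁ = 0 := by omega
    obtain rfl : i₂ = 0 := by omega
    refine ⟨1, one_pos, fun h _ => ?_⟩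
    rw [pw_zero, ev_single, VV_zero, VV_zero, N929.cup, pp, pp]
    simp [one1]
  | succ j ih =>
    intro i₁ i₂ b₁ b₂ hi hj
    -- the scales
    have hes : ∀ i, i ≤ J → 1 / ((N : ℝ) + 1) < (es G τ E i).1 := fun i hi =>
      hN.trans_le (es_anti G τ E hi)
    obtain ⟨Λ₁, x₁, g₁⟩ := stE G τ E hD hE he hn hDe (hes i₁ (by omega)) b₁ hB hD₀ hz (G.hx _)
    obtain ⟨Λ₂, x₂, g₂⟩ := stE G τ E hD hE he hn hDe (hes i₂ (by omega)) b₂ hB hD₀ hz (G.hx _)
    set ε : ℝ := min (es G τ E i₁).1 (es G τ E i₂).1 with hε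
    have hε0 : 0 < ε := lt_min (es G τ E i₁).2 (es G τ E i₂).2
    have hd₁ : ∀ x ∈ MV G τ E N D i₁ b₁ ++ Λ₁, x.a + x.b = i₁ * D := fun x hx => by
      rcases List.mem_append.1 hx with hx | hx
      · exact MV_deg G τ E hx
      · exact (g₁ x hx).deg
    have hd₂ : ∀ x ∈ MV G τ E N D i₂ b₂ ++ Λ₂, x.a + x.b = i₂ * D := fun x hx => by
      rcases List.mem_append.1 hx with hx | hx
      · exact MV_deg G τ E hx
      · exact (g₂ x hx).deg
    have hexp := exp_cupp (x₁.mono (min_le_left _ _)) (x₂.mono (min_le_right _ _)) hd₁ hd₂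
    -- cocycles
    have cMV : ∀ (i : ℕ) (b : Bool), i ≤ J → ∀ x ∈ MV G τ E N D i b,
        CocL (P G.x₀ G.x₀ (s : ℝ)) x.b x.g := by
      intro i b hi x hx
      obtain ⟨α, hα, rfl⟩ := List.mem_map.1 hx
      have hα := List.mem_range.1 hα
      exact VV_cocL0 G τ E hD (hes α (by omega)) _ _
    have cAll : ∀ (i : ℕ) (b : Bool) (Λ : List (Tm k M)), i ≤ J → (∀ x ∈ Λ, Ng G.x₀ G.x₀
        (es G τ E i).1 (i * D) x) → ∀ x ∈ MV G τ E N D i b ++ Λ,
        CocL (P G.x₀ G.x₀ (s : ℝ)) x.b x.g := by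
      intro i b Λ hi hΛ x hx
      rcases List.mem_append.1 hx with hx | hx
      · exact cMV i b hi x hx
      · exact ⟨_, (es G τ E i).2, (hΛ x hx).cg _⟩
    -- the negligible products
    have neg₁ : ∀ x ∈ Λ₁, ∀ y ∈ MV G τ E N D i₂ b₂ ++ Λ₂,
        ExL (P G.x₀ G.x₀ (s : ℝ)) (x.mul y).b (x.mul y).g := by
      intro x hx y hy
      obtain ⟨ε', hε', hc⟩ := cAll i₂ b₂ Λ₂ (by omega) g₂ y hy
      have h1 := Sg.exL_cup_left hε' (g₁ x hx).hb ((g₁ x hx).eg s (Nat.cast_nonneg s)) hc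
      rw [Nat.add_comm] at h1
      exact h1
    have neg₂ : ∀ x ∈ MV G τ E N D i₁ b₁ ++ Λ₁, ∀ y ∈ Λ₂,
        ExL (P G.x₀ G.x₀ (s : ℝ)) (x.mul y).b (x.mul y).g := by
      intro x hx y hy
      have h1 := exL_cup_right (g₂ y hy).hb (cAll i₁ b₁ Λ₁ (by omega) g₁ x hx)
        ((g₂ y hy).eg s (Nat.cast_nonneg s))
      rw [Nat.add_comm] at h1
      exact h1
    have mono : ∀ (i : Tm k M × Tm k M) (δ δ' : ℝ), 0 < δ' → δ' ≤ δ →
        (∀ h, Cy (P G.x₀ G.x₀ (s : ℝ)) δ (i.1.mul i.2).b h → ev (i.1.mul i.2).g h = 0) →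
        ∀ h, Cy (P G.x₀ G.x₀ (s : ℝ)) δ' (i.1.mul i.2).b h → ev (i.1.mul i.2).g h = 0 :=
      fun i δ δ' _ hδ h c hc => h c (hc.mono le_rfl hδ)
    obtain ⟨δ₁, hδ₁, H₁⟩ := exists_delta
      (Λ₁.flatMap fun x => (MV G τ E N D i₂ b₂ ++ Λ₂).map fun y => (x, y)) _ mono
      (fun p hp => by
        obtain ⟨x, hx, hp⟩ := List.mem_flatMap.1 hp
        obtain ⟨y, hy, rfl⟩ := List.mem_map.1 hp
        exact ex_iff.2 (neg₁ x hx y hy))
    obtain ⟨δ₂, hδ₂, H₂⟩ := exists_delta
      ((MV G τ E N D i₁ b₁ ++ Λ₁).flatMap fun x => Λ₂.map fun y => (x, y)) _ mono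
      (fun p hp => by
        obtain ⟨x, hx, hp⟩ := List.mem_flatMap.1 hp
        obtain ⟨y, hy, rfl⟩ := List.mem_map.1 hp
        exact ex_iff.2 (neg₂ x hx y hy))
    -- the induction hypotheses
    have ih₁ : ∃ δ > 0, ∀ h : Ch k (ℝ →ᵇ M), Cy (P G.x₀ G.x₀ s) δ D h → 1 ≤ i₁ →
        ev (N929.cup ((i₁ - 1) * D) (VV G τ E N (i₁ - 1) (!b₁)) (VV G τ E N i₂ b₂))
          (pw G.x₀ s h j) =
        (j.choose (i₁ - 1) : k) * (pp (fun b => ev (VV G τ E N 1 b) h) (i₁ - 1) (!b₁) *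
          pp (fun b => ev (VV G τ E N 1 b) h) i₂ b₂) := by
      by_cases h1 : 1 ≤ i₁
      · obtain ⟨δ, hδ, H⟩ := ih (i₁ - 1) i₂ (!b₁) b₂ (by omega) (by omega)
        exact ⟨δ, hδ, fun h hh _ => H h hh⟩
      · exact ⟨1, one_pos, fun h _ h' => absurd h' h1⟩
    have ih₂ : ∃ δ > 0, ∀ h : Ch k (ℝ →ᵇ M), Cy (P G.x₀ G.x₀ s) δ D h → 1 ≤ i₂ →
        ev (N929.cup (i₁ * D) (VV G τ E N i₁ b₁) (VV G τ E N (i₂ - 1) (!b₂)))
          (pw G.x₀ s h j) =
        (j.choose i₁ : k) * (pp (fun b => ev (VV G τ E N 1 b) h) i₁ b₁ *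
          pp (fun b => ev (VV G τ E N 1 b) h) (i₂ - 1) (!b₂)) := by
      by_cases h1 : 1 ≤ i₂
      · obtain ⟨δ, hδ, H⟩ := ih i₁ (i₂ - 1) b₁ (!b₂) (by omega) (by omega)
        exact ⟨δ, hδ, fun h hh _ => H h hh⟩
      · exact ⟨1, one_pos, fun h _ h' => absurd h' h1⟩
    obtain ⟨δ₃, hδ₃, H₃⟩ := ih₁
    obtain ⟨δ₄, hδ₄, H₄⟩ := ih₂
    refine ⟨min (min δ₁ δ₂) (min ε (min δ₃ δ₄)), lt_min (lt_min hδ₁ hδ₂) (lt_min hε0
      (lt_min hδ₃ hδ₄)), fun h hh => ?_⟩
    have hh₁ := hh.mono le_rfl ((min_le_left _ _).trans (min_le_left _ _))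
    have hh₂ := hh.mono le_rfl ((min_le_left _ _).trans (min_le_right _ _))
    have hh₀ := hh.mono le_rfl ((min_le_right _ _).trans (min_le_left _ _))
    have hh₃ := hh.mono le_rfl ((min_le_right _ _).trans ((min_le_right _ _).trans
      (min_le_left _ _)))
    have hh₄ := hh.mono le_rfl ((min_le_right _ _).trans ((min_le_right _ _).trans
      (min_le_right _ _)))
    have hpw := pw_InP (s := (s : ℝ)) (Nat.cast_nonneg s) (InP.of_cy hh) j
    have hc : ((j * s : ℕ) : ℝ) = j * s := by push_cast; ring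
    have e0 : (j + 1) * D = j * D + D := by ring
    have e1 : (i₁ + i₂) * D = (j + 1) * D := by rw [hi]
    rw [Nat.add_mul] at e1
    rw [pw_succ, ← hc, ev_conc hexp (Nat.cast_nonneg s) (a := j * D) (d := D) (by omega)
      (z := pw G.x₀ s h j) (by rw [hc]; exact hpw) hh₀.1, List.map_map, flat_sum]
    -- the sum over the main terms
    set w : Bool → k := fun b => ev (VV G τ E N 1 b) h with hw
    set φ : Tm k M × Tm k M → k := fun p => if j * D = (p.1.mul p.2).a then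
      ev (p.1.mul p.2).f (pw G.x₀ s h j) * ev (p.1.mul p.2).g h else 0 with hφ
    have hφ' : ((fun x : Tm k M => if j * D = x.a then ev x.f (pw G.x₀ s h j) * ev x.g h else 0) ∘
        fun p : Tm k M × Tm k M => p.1.mul p.2) = φ := rfl
    rw [hφ', List.map_append, List.sum_append]
    have hdeg : ∀ x ∈ MV G τ E N D i₁ b₁ ++ Λ₁, ∀ y ∈ MV G τ E N D i₂ b₂ ++ Λ₂,
        j * D = (x.mul y).a → (x.mul y).b = D := by
      intro x hx y hy h1
      have h2 := hd₁ x hx
      have h3 := hd₂ y hy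
      change j * D = x.a + y.a at h1
      change x.b + y.b = D
      omega
    have z₁ : (Λ₁.map fun x => ((MV G τ E N D i₂ b₂ ++ Λ₂).map fun y => φ (x, y)).sum).sum = 0 := by
      refine list_sum_zero _ _ fun x hx => list_sum_zero _ _ fun y hy => ?_
      rw [hφ]
      simp only
      split_ifs with h1
      · have h2 := H₁ (x, y) (List.mem_flatMap.2 ⟨x, hx, List.mem_map.2 ⟨y, hy, rfl⟩⟩) h (by
          change Cy _ _ (x.mul y).b _
          rw [hdeg x (List.mem_append_right _ hx) y hy h1]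
          exact hh₁)
        rw [h2, mul_zero]
      · rfl
    rw [z₁, add_zero]
    have z₂ : ∀ x ∈ MV G τ E N D i₁ b₁, ((MV G τ E N D i₂ b₂ ++ Λ₂).map fun y => φ (x, y)).sum =
        ((MV G τ E N D i₂ b₂).map fun y => φ (x, y)).sum := by
      intro x hx
      rw [List.map_append, List.sum_append, list_sum_zero Λ₂ _ fun y hy => ?_, add_zero]
      rw [hφ]
      simp only
      split_ifs with h1
      · have h2 := H₂ (x, y) (List.mem_flatMap.2 ⟨x, List.mem_append_left _ hx,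
          List.mem_map.2 ⟨y, hy, rfl⟩⟩) h (by
          change Cy _ _ (x.mul y).b _
          rw [hdeg x (List.mem_append_left _ hx) y (List.mem_append_right _ hy) h1]
          exact hh₂)
        rw [h2, mul_zero]
      · rfl
    rw [List.map_congr_left z₂, show MV G τ E N D i₁ b₁ = (List.range (i₁ + 1)).map
      (mn G τ E N D i₁ b₁) from rfl, List.map_map, list_range_sum]
    have z₃ : ∀ α ∈ Finset.range (i₁ + 1), ((fun x => ((MV G τ E N D i₂ b₂).map fun y =>
        φ (x, y)).sum) ∘ mn G τ E N D i₁ b₁) α =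
        ∑ β ∈ Finset.range (i₂ + 1), (if α ≤ i₁ ∧ β ≤ i₂ then
          φ (mn G τ E N D i₁ b₁ α, mn G τ E N D i₂ b₂ β) else 0) := by
      intro α hα
      have hα := Finset.mem_range.1 hα
      rw [Function.comp_apply, MV, List.map_map, list_range_sum]
      refine Finset.sum_congr rfl fun β hβ => ?_
      have hβ := Finset.mem_range.1 hβ
      rw [if_pos ⟨by omega, by omega⟩]
      rfl
    rw [Finset.sum_congr rfl z₃, sum_one _ (fun α β hαβ => ?_)]
    rotate_left
    · split_ifs with h1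
      · rw [hφ]
        simp only
        rw [if_neg]
        intro h2
        change j * D = (i₁ - α) * D + (i₂ - β) * D at h2
        rw [← Nat.add_mul] at h2
        have := Nat.eq_of_mul_eq_mul_right (by omega) h2
        omega
      · rfl
    -- the two values
    have v₁ : 1 ≤ i₁ → φ (mn G τ E N D i₁ b₁ 1, mn G τ E N D i₂ b₂ 0) =
        (j.choose (i₁ - 1) : k) * (pp w i₁ b₁ * pp w i₂ b₂) := by
      intro h1
      rw [hφ]
      simp only
      rw [if_pos (by
        change j * D = (i₁ - 1) * D + (i₂ - 0) * D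
        rw [← Nat.add_mul]
        congr 1
        omega)]
      have t1 : ev ((mn G τ E N D i₁ b₁ 1).mul (mn G τ E N D i₂ b₂ 0)).f (pw G.x₀ s h j) =
          (j.choose (i₁ - 1) : k) * (pp w (i₁ - 1) (!b₁) * pp w i₂ b₂) := by
        rw [← H₃ h hh₃ h1]
        have : ((mn G τ E N D i₁ b₁ 1).mul (mn G τ E N D i₂ b₂ 0)).f =
            fun l => (-1) ^ (1 * D * ((i₂ - 0) * D)) * N929.cup ((i₁ - 1) * D)
              (VV G τ E N (i₁ - 1) (!b₁)) (VV G τ E N i₂ b₂) l := rfl
        rw [this, ev_smul_fun, Even.neg_one_pow ((hDe.mul_left _).mul_right _), one_mul]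
      have t2 : ev ((mn G τ E N D i₁ b₁ 1).mul (mn G τ E N D i₂ b₂ 0)).g h = w b₁ := by
        refine ev_congr (fun l hl => ?_) hh₀.1
        change N929.cup (1 * D) (VV G τ E N 1 b₁) (VV G τ E N 0 b₂) l = _
        rw [N929.cup, VV_zero, one1, if_pos (by rw [List.length_drop]; have := hl.1; omega),
          List.take_of_length_le (by have := hl.1; omega), mul_one]
      rw [t1, t2]
      obtain ⟨i, rfl⟩ : ∃ i, i₁ = i + 1 := ⟨i₁ - 1, by omega⟩
      rw [Nat.add_sub_cancel, pp]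
      ring
    have v₂ : 1 ≤ i₂ → φ (mn G τ E N D i₁ b₁ 0, mn G τ E N D i₂ b₂ 1) =
        (j.choose i₁ : k) * (pp w i₁ b₁ * pp w i₂ b₂) := by
      intro h1
      rw [hφ]
      simp only
      rw [if_pos (by
        change j * D = (i₁ - 0) * D + (i₂ - 1) * D
        rw [← Nat.add_mul]
        congr 1
        omega)]
      have t1 : ev ((mn G τ E N D i₁ b₁ 0).mul (mn G τ E N D i₂ b₂ 1)).f (pw G.x₀ s h j) =
          (j.choose i₁ : k) * (pp w i₁ b₁ * pp w (i₂ - 1) (!b₂)) := by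
        rw [← H₄ h hh₄ h1]
        have : ((mn G τ E N D i₁ b₁ 0).mul (mn G τ E N D i₂ b₂ 1)).f =
            fun l => (-1) ^ (0 * D * ((i₂ - 1) * D)) * N929.cup ((i₁ - 0) * D)
              (VV G τ E N (i₁ - 0) b₁) (VV G τ E N (i₂ - 1) (!b₂)) l := rfl
        rw [this, ev_smul_fun, Even.neg_one_pow ((hDe.mul_left _).mul_right _), one_mul,
          Nat.sub_zero]
      have t2 : ev ((mn G τ E N D i₁ b₁ 0).mul (mn G τ E N D i₂ b₂ 1)).g h = w b₂ := by
        refine ev_congr (fun l hl => ?_) hh₀.1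
        change N929.cup (0 * D) (VV G τ E N 0 b₁) (VV G τ E N 1 b₂) l = _
        rw [N929.cup, VV_zero, one1, if_pos (by rw [List.length_take]; have := hl.1; omega),
          Nat.zero_mul, List.drop_zero, one_mul]
      rw [t1, t2]
      obtain ⟨i, rfl⟩ : ∃ i, i₂ = i + 1 := ⟨i₂ - 1, by omega⟩
      rw [Nat.add_sub_cancel, pp]
      ring
    rcases Nat.eq_zero_or_pos i₁ with h1 | h1
    · have h2 : 1 ≤ i₂ := by omega
      rw [if_neg (by omega), if_pos h2, if_pos ⟨Nat.zero_le _, h2⟩, v₂ h2, h1, zero_add,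
        Nat.choose_zero_right, Nat.choose_zero_right]
    · have h1 : 1 ≤ i₁ := h1
      rcases Nat.eq_zero_or_pos i₂ with h2 | h2
      · rw [if_pos h1, if_pos ⟨h1, Nat.zero_le _⟩, if_neg (by omega), v₁ h1, add_zero]
        have h3 : i₁ = j + 1 := by omega
        rw [h3, Nat.add_sub_cancel, Nat.choose_self, Nat.choose_self]
      · have h2 : 1 ≤ i₂ := h2
        rw [if_pos h1, if_pos ⟨h1, Nat.zero_le _⟩, if_pos h2, if_pos ⟨Nat.zero_le _, h2⟩, v₁ h1,
          v₂ h2]
        obtain ⟨i, rfl⟩ : ∃ i, i₁ = i + 1 := ⟨i₁ - 1, by omega⟩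
        rw [Nat.add_sub_cancel, Nat.choose_succ_succ]
        push_cast
        ring

end

end Vale.Agent.P216.H285
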