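import Vale.Agent.P216.H285.Rev2

/-!
# P216-C, C13-SIGN (S5): the reversal on the classes `A 0` and `W 1` of the based loops
-/

open Finsupp Set BoundedContinuousFunction

namespace Vale.Agent.P216.H285

open Vale.Agent.P216.Sl Vale.Agent.P216.PS Vale.Agent.P216.N929 Vale.Agent.P216.H977C
open Vale.Agent.P216.AS Vale.Agent.P216.H754B
open Vale.Agent.P216.H250 (catR)

section Gen

variable {k : Type} [Field k] {M : Type} [MetricSpace M] {x₀ : M} {p : ℕ} {s t : ℝ}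

/-- The reversal commutes with the restrictions. -/
theorem pull_rv_res (hst : s ≤ t)
    (ms : IsMap (H901.tr (ℝ →ᵇ M)) (H901.tr (ℝ →ᵇ M)) (P x₀ x₀ s) (P x₀ x₀ s) (rv s))
    (mt : IsMap (H901.tr (ℝ →ᵇ M)) (H901.tr (ℝ →ᵇ M)) (P x₀ x₀ t) (P x₀ x₀ t) (rv t))
    (x : Ha (H901.tr (ℝ →ᵇ M)) (H901.on k) (P x₀ x₀ t) p) :
    res (P_mono hst) p (pull (H901.on k) mt p x) =
      pull (H901.on k) ms p (res (P_mono hst) p x) := by
  obtain ⟨f, hf, -, rfl⟩ := exists_cls x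
  rw [pull_cls, res_cls, res_cls, pull_cls]
  have h : IsHtpy (H901.tr (ℝ →ᵇ M)) (H901.tr (ℝ →ᵇ M)) (P x₀ x₀ s) (P x₀ x₀ t)
      (fun l => rv (s + l * (t - s))) :=
    htpy_rv hst (fun _ hw => hw.1) (fun _ h1 h2 _ hw => P_mono h2 (rv_mem_P hw h1))
  have h1 := DFunLike.congr_fun (pull_homotopy (χ := H901.on k) h p)
    (cls (H901.tr (ℝ →ᵇ M)) (H901.on k) f hf)
  rw [pull_cls, pull_cls] at h1
  refine Eq.trans ?_ (h1.trans ?_)
  · refine cls_congr fun l => ?_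
    have : (rv (s + 1 * (t - s)) : (ℝ →ᵇ M) → (ℝ →ᵇ M)) = rv t := by
      rw [one_mul, add_sub_cancel]
    rw [this]
  · refine cls_congr fun l => ?_
    have : (rv (s + 0 * (t - s)) : (ℝ →ᵇ M) → (ℝ →ᵇ M)) = rv s := by
      rw [zero_mul, add_zero]
    rw [this]

/-- It is enough to know the action of the reversal for integral durations. -/
theorem rev_of_nat (F : ∀ t : ℝ, Ha (H901.tr (ℝ →ᵇ M)) (H901.on k) (P x₀ x₀ t) p)
    (hF : ∀ s t (h : s ≤ t), res (P_mono h) p (F t) = F s) {σ : k}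
    (hN : ∀ (c : ℕ) (mc : IsMap (H901.tr (ℝ →ᵇ M)) (H901.tr (ℝ →ᵇ M)) (P x₀ x₀ c) (P x₀ x₀ c)
      (rv (c : ℝ))), pull (H901.on k) mc p (F c) = σ • F c)
    (t : ℝ) (f : (ℝ →ᵇ M) → (ℝ →ᵇ M)) (hf : B64.RevP t f)
    (h : IsMap (H901.tr (ℝ →ᵇ M)) (H901.tr (ℝ →ᵇ M)) (P x₀ x₀ t) (P x₀ x₀ t) f) :
    pull (H901.on k) h p (F t) = σ • F t := by
  have hfr : f = rv t := by
    funext w
    ext u
    rw [hf w u, rv_apply]
  subst hfr
  have hc := Nat.le_ceil t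
  have mc : IsMap (H901.tr (ℝ →ᵇ M)) (H901.tr (ℝ →ᵇ M)) (P x₀ x₀ (⌈t⌉₊ : ℝ))
      (P x₀ x₀ (⌈t⌉₊ : ℝ)) (rv (⌈t⌉₊ : ℝ)) := map_rv _ fun _ hw => rv_mem_P hw le_rfl
  have h1 := pull_rv_res (k := k) hc h mc (F (⌈t⌉₊ : ℝ))
  rw [hN _ mc, map_smul, hF _ _ hc] at h1
  exact h1.symm

end Gen

section Stp

variable {k : Type} [Field k] {M : Type} [MetricSpace M] [CompactSpace M]
variable {n m : ℕ} {r δ : ℝ} {y : M}

/-- The step only sees the lists of one length. -/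
theorem stp_congr_len (τ : List (M × M) → k) {g g' : List (ℝ →ᵇ M) → k}
    (h : ∀ l, l.length = m → g l = g' l) {l : List (ℝ →ᵇ M)} (hl : l.length + 1 = n + m) :
    stp n τ r δ y g l = stp n τ r δ y g' l := by
  rw [stp, stp, fibI, fibI]
  refine finsum_congr fun j => ?_
  refine fib_congr (Q := fun t => t = [(j : ℝ) * δ, ((j + 1 : ℕ) : ℝ) * δ])
    (single_mem (P := fun t => t = [(j : ℝ) * δ, ((j + 1 : ℕ) : ℝ) * δ]) rfl 1)
    fun t ht L hL => ?_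
  subst ht
  have hL1 := hL.1
  simp only [List.length_cons, List.length_nil] at hL1
  rw [intg, intg, N929.cup, N929.cup, h _ (by rw [List.length_map, List.length_drop]; omega)]

end Stp

section TC

variable {k : Type} [Field k] {M : Type} [MetricSpace M] [CompactSpace M] {x₀ y' : M} {p : ℕ}
  {D₀ : ℝ}

/-- The sign of the reversal on a transported class, from the chain level. -/
theorem rev_TC (hD₀ : IsPi M D₀) {f g₀ : List (ℝ →ᵇ M) → k} (hf : ∀ T, CocL (P x₀ y' T) p f)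
    (c : ℕ) (hg₀ : ∀ l, l.length = p + 1 → (∀ w ∈ l, w ∈ P x₀ x₀ c) →
      f (l.map (catR c (vv hD₀ x₀ y'))) = g₀ l)
    (hex : ExL (P x₀ x₀ c) p fun l => g₀ l + g₀ (l.map (rv c)))
    (mc : IsMap (H901.tr (ℝ →ᵇ M)) (H901.tr (ℝ →ᵇ M)) (P x₀ x₀ c) (P x₀ x₀ c) (rv (c : ℝ))) :
    pull (H901.on k) mc p (TC (H901.tr (ℝ →ᵇ M)) (H901.on k) hD₀ x₀ y' f hf c) =
      (-1 : k) • TC (H901.tr (ℝ →ᵇ M)) (H901.on k) hD₀ x₀ y' f hf c := by
  rw [TC, pull_cls, cls_smul, cls_eq_cls]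
  refine exL_congr one_pos hex fun l hl hl' => ?_
  have e1 : tf hD₀ x₀ y' f c l = g₀ l := by
    rw [tf, max_eq_left (Nat.cast_nonneg c)]
    exact hg₀ l hl hl'.1
  have e2 : tf hD₀ x₀ y' f c (l.map (rv c)) = g₀ (l.map (rv c)) := by
    rw [tf, max_eq_left (Nat.cast_nonneg c)]
    refine hg₀ _ (by rw [List.length_map, hl]) fun w hw => ?_
    obtain ⟨u, hu, rfl⟩ := List.mem_map.1 hw
    exact rv_mem_P (hl'.1 u hu) le_rfl
  rw [e1, e2]
  ring

end TC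

section Sys

variable {k : Type} [Field k] {M : Type} [MetricSpace M] [CompactSpace M]
variable {n e D : ℕ} (G : Geo M n) (τ : Tau k M n G.ρ₁) (E : Eta k M e) (hD : D + 1 = n + e)
variable {D₀ : ℝ} (hD₀ : IsPi M D₀)

/-- `A b 0 = eta`. -/
theorem A_zero (b : Bool) {l : List (ℝ →ᵇ M)} (hl : l.length = e + 1) :
    A G τ E hD b 0 l = E.f l := by
  rw [A, N929.cup, W_zero, one1, if_pos (by rw [List.length_drop]; omega), mul_one,
    List.take_of_length_le (by omega)]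

/-- `W b 1 = stp eta`. -/
theorem W_one (b : Bool) : ∃ N : ℕ, 1 / ((N : ℝ) + 1) < Wε G τ E hD b 1 ∧
    ∀ l : List (ℝ →ᵇ M), l.length = D + 1 → W G τ E hD b 1 l =
      stp n τ.f G.r (1 / ((N : ℝ) + 1)) (G.y (!b)) E.f l := by
  obtain ⟨N, hN, hW⟩ := W_succ G τ E hD b 0
  refine ⟨N, hN, fun l hl => ?_⟩
  have h1 := stp_congr_len (n := n) (m := e + 1) (r := G.r) (δ := 1 / ((N : ℝ) + 1))
    (y := G.y (!b)) τ.f (g := A G τ E hD (!b) 0) (g' := E.f)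
    (fun l hl => A_zero G τ E hD (!b) hl) (l := l) (by omega)
  rw [← h1, ← hW]

/-- `theta^* A 0 = - A 0`. -/
theorem rev_A0 (hE : AddE E.f) (he : 1 ≤ e) (b : Bool) (t : ℝ)
    (f : (ℝ →ᵇ M) → (ℝ →ᵇ M)) (hf : B64.RevP t f)
    (h : IsMap (H901.tr (ℝ →ᵇ M)) (H901.tr (ℝ →ᵇ M)) (P G.x₀ G.x₀ t) (P G.x₀ G.x₀ t) f) :
    pull (H901.on k) h (0 * D + e) (TC (H901.tr (ℝ →ᵇ M)) (H901.on k) hD₀ G.x₀ (G.y b)
      (A G τ E hD b 0) (A_cocL G τ E hD b 0) t) =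
      (-1 : k) • TC (H901.tr (ℝ →ᵇ M)) (H901.on k) hD₀ G.x₀ (G.y b)
      (A G τ E hD b 0) (A_cocL G τ E hD b 0) t := by
  refine rev_of_nat (fun t => TC (H901.tr (ℝ →ᵇ M)) (H901.on k) hD₀ G.x₀ (G.y b)
      (A G τ E hD b 0) (A_cocL G τ E hD b 0) t)
    (fun s t h => res_TC _ _ hD₀ G.x₀ (G.y b) _ (A_cocL G τ E hD b 0) h)
    (fun c mc => rev_TC hD₀ (A_cocL G τ E hD b 0) c (g₀ := E.f) (fun l hl hm => ?_) ?_ mc) t f hf h
  · have hl' : l.length = e + 1 := by omega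
    rw [A_zero G τ E hD b (by rw [List.length_map]; exact hl')]
    have hv := vv_mem hD₀ G.x₀ (G.y b)
    have h1 := hE G.x₀ G.x₀ (G.y b) c D₀ hD₀.nonneg
      (l.map fun w => (w, vv hD₀ G.x₀ (G.y b))) (by
        intro h0
        have := congrArg List.length h0
        rw [List.length_map, hl', List.length_nil] at this
        omega) (fun x hx => by
        obtain ⟨w, hw, rfl⟩ := List.mem_map.1 hx
        exact ⟨hm w hw, hv⟩)
    rw [List.map_map, List.map_map, List.map_map] at h1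
    have e1 : (l.map (Prod.snd ∘ fun w => (w, vv hD₀ G.x₀ (G.y b)))) =
        l.map fun _ => vv hD₀ G.x₀ (G.y b) := rfl
    have e2 : (l.map (Prod.fst ∘ fun w => (w, vv hD₀ G.x₀ (G.y b)))) = l := List.map_id l
    have e3 : E.f (l.map fun _ => vv hD₀ G.x₀ (G.y b)) = 0 := by
      obtain ⟨w, w', l, rfl⟩ : ∃ w w' l', l = w :: w' :: l' := by
        rcases l with _ | ⟨x, _ | ⟨y, l⟩⟩
        · simp at hl'
        · simp only [List.length_cons, List.length_nil] at hl'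
          omega
        · exact ⟨x, y, l, rfl⟩
      rw [List.map_cons, List.map_cons]
      exact E.nrm.dup _ _
    rw [e1, e2, e3, add_zero] at h1
    exact h1
  · obtain ⟨e', rfl⟩ : ∃ e', e = e' + 1 := ⟨e - 1, by omega⟩
    rw [Nat.zero_mul, Nat.zero_add]
    exact exL_eta hE E.nrm (fun T => ⟨E.ε, E.hε, E.coc _ _ T⟩) c

/-- The fibre integral of the Thom cochain is exact on the loops of integral duration. -/
def ExT (b : Bool) : Prop := ∀ (N c : ℕ), 1 / ((N : ℝ) + 1) < Wε G τ E hD b 1 →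
  ExL (P G.x₀ G.x₀ c) (n - 1) (stp n τ.f G.r (1 / ((N : ℝ) + 1)) (G.y (!b)) (one1 k _))

/-- **`theta^* W 1 = - W 1`.** -/
theorem rev_W1 (hE : AddE E.f) (he : 1 ≤ e) (b : Bool) (hT : ExT G τ E hD b) (t : ℝ)
    (f : (ℝ →ᵇ M) → (ℝ →ᵇ M)) (hf : B64.RevP t f)
    (h : IsMap (H901.tr (ℝ →ᵇ M)) (H901.tr (ℝ →ᵇ M)) (P G.x₀ G.x₀ t) (P G.x₀ G.x₀ t) f) :
    pull (H901.on k) h (1 * D) (TC (H901.tr (ℝ →ᵇ M)) (H901.on k) hD₀ G.x₀ (G.y b)
      (W G τ E hD b 1) (W_cocL G τ E hD b 1) t) =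
      (-1 : k) • TC (H901.tr (ℝ →ᵇ M)) (H901.on k) hD₀ G.x₀ (G.y b)
      (W G τ E hD b 1) (W_cocL G τ E hD b 1) t := by
  obtain ⟨N, hN, hW⟩ := W_one G τ E hD b
  have hn := G.hn
  have hs := W_scl G τ E hD b 0
  have hcoc : ∀ a a' T, Coc (P a a' T) (Aε G τ E hD (!b) 0) e E.f := fun a a' T =>
    (E.coc a a' T).mono subset_rfl (min_le_left _ _)
  refine rev_of_nat (fun t => TC (H901.tr (ℝ →ᵇ M)) (H901.on k) hD₀ G.x₀ (G.y b)
      (W G τ E hD b 1) (W_cocL G τ E hD b 1) t)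
    (fun s t h => res_TC _ _ hD₀ G.x₀ (G.y b) _ (W_cocL G τ E hD b 1) h)
    (fun c mc => rev_TC hD₀ (W_cocL G τ E hD b 1) c
      (g₀ := stp n τ.f G.r (1 / ((N : ℝ) + 1)) (G.y (!b)) E.f) (fun l hl hm => ?_) ?_ mc) t f hf h
  · have hl' : l.length = D + 1 := by omega
    obtain ⟨n', rfl⟩ : ∃ n', n = n' + 1 := ⟨n - 1, by omega⟩
    rw [hW _ (by rw [List.length_map]; exact hl')]
    have hv := vv_mem hD₀ G.x₀ (G.y b)
    have h1 := stp_cat (e := e) (n := n') τ G.seg G.hr G.hrρ hs hE E.nrm (x₀ := G.x₀)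
      (x₁ := G.x₀) (x₂ := G.y b) (G.hx _) (G.hy _) hN (c := c) hD₀.nonneg
      (l := l.map fun w => (w, vv hD₀ G.x₀ (G.y b))) (by rw [List.length_map]; omega)
      (fun x hx => by
        obtain ⟨w, hw, rfl⟩ := List.mem_map.1 hx
        exact ⟨hm w hw, hv⟩) (by
        refine ⟨fun u hu => ?_, fun u hu u' hu' => ?_⟩
        · rw [List.map_map] at hu
          obtain ⟨w, hw, rfl⟩ := List.mem_map.1 hu
          exact hv
        · rw [List.map_map] at hu hu'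
          obtain ⟨w, hw, rfl⟩ := List.mem_map.1 hu
          obtain ⟨w', hw', rfl⟩ := List.mem_map.1 hu'
          change dist (vv hD₀ G.x₀ (G.y b)) (vv hD₀ G.x₀ (G.y b)) < _
          rw [dist_self]
          exact hs.pos)
    obtain ⟨w, w', l, rfl⟩ : ∃ w w' l', l = w :: w' :: l' := by
      rcases l with _ | ⟨x, _ | ⟨y, l⟩⟩
      · simp at hl'
      · simp only [List.length_cons, List.length_nil] at hl'
        omega
      · exact ⟨x, y, l, rfl⟩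
    have e3 : stp (n' + 1) τ.f G.r (1 / ((N : ℝ) + 1)) (G.y (!b)) E.f
        (((w :: w' :: l).map fun w => (w, vv hD₀ G.x₀ (G.y b))).map Prod.snd) = 0 := by
      rw [List.map_map, List.map_cons, List.map_cons]
      exact Nrm.dup (nrm_stp τ E.nrm) _ _
    have e4 : stp (n' + 1) τ.f G.r (1 / ((N : ℝ) + 1)) (G.y (!b)) (one1 k _)
        ((((w :: w' :: l).map fun w => (w, vv hD₀ G.x₀ (G.y b))).take (n' + 1)).map
          Prod.snd) = 0 := by
      obtain ⟨n'', rfl⟩ : ∃ n'', n' = n'' + 1 := ⟨n' - 1, by omega⟩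
      rw [← List.map_take, List.map_map, List.take_succ_cons, List.take_succ_cons, List.map_cons,
        List.map_cons]
      exact Nrm.dup (nrm_stp τ nrm_one1) _ _
    rw [e3, e4, zero_mul, mul_zero, add_zero, add_zero, List.map_map, List.map_map] at h1
    refine h1.trans ?_
    congr 1
    exact List.map_id _
  · obtain ⟨n', rfl⟩ : ∃ n', n = n' + 1 := ⟨n - 1, by omega⟩
    have e1 : 1 * D = n' + e := by omega
    rw [e1]
    exact exL_V τ G.seg G.hr G.hrρ hs hE E.nrm (fun T => hcoc _ _ T) (G.hx _) hN (by omega) c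
      ⟨E.ε, E.hε, E.coc _ _ _⟩ (hT N c hN)

/-- `ExT` from the vanishing of the stable cohomology in the degree `n - 1`. -/
theorem exT_of (b : Bool) {B : ℝ} (hB : 0 ≤ B)
    (hz : ∀ t, 0 ≤ t → ∀ (h : P G.x₀ G.x₀ t ⊆ P G.x₀ G.x₀ (t + B))
      (z : Ha (H901.tr (ℝ →ᵇ M)) (H901.on k) (P G.x₀ G.x₀ (t + B)) (n - 1)),
      res h (n - 1) z = 0) : ExT G τ E hD b := by
  intro N c hN
  have hn := G.hn
  have hs := W_scl G τ E hD b 0
  have hδ0 : (0 : ℝ) < 1 / ((N : ℝ) + 1) := by positivity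
  have h1 := stp_coc' (y' := G.x₀) (x₀ := G.x₀) (g := one1 k (ℝ →ᵇ M)) (m := 0) τ G.seg G.hr
    G.hrρ hs (G.hx _) (G.hx _) (by omega) (fun T => coc_one1 _ _) hδ0 hN (c + B)
  rw [show n + 0 - 1 = n - 1 by omega] at h1
  have h2 : CocL (P G.x₀ G.x₀ (c + B)) (n - 1)
      (stp n τ.f G.r (1 / ((N : ℝ) + 1)) (G.y (!b)) (one1 k _)) := ⟨_, hs.pos, h1⟩
  have h3 := hz c (Nat.cast_nonneg c) (P_mono (by linarith))
    (cls (H901.tr (ℝ →ᵇ M)) (H901.on k) _ h2)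
  rw [res_cls, cls_eq_zero] at h3
  exact h3

end Sys

end Vale.Agent.P216.H285
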