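import Vale.Agent.P216.H285.Pow7
import Vale.Agent.P216.H774D.Pwr
import Vale.Agent.P216.H285.Rev3

/-!
# P216-D, [POW-OM] (8): the power maps on the classes with one mesh
-/

open Finsupp Set BoundedContinuousFunction

namespace Vale.Agent.P216.H285

open Vale.Agent.P216.Sl Vale.Agent.P216.PS Vale.Agent.P216.N929 Vale.Agent.P216.H977C
open Vale.Agent.P216.AS Vale.Agent.P216.H894
open Vale.Agent.P216.H774D (pwr pwr_mem_P dist_pwr)

variable {k : Type} [Field k] {M : Type} [MetricSpace M] [CompactSpace M]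

theorem pwr_succ' (t : ℝ) (q : ℕ) (w : ℝ →ᵇ M) :
    pwr t (q + 1) w = cat (q * t) (pwr t q w) w := rfl

/-- **The power map on a cocycle with an expansion.** -/
theorem exL_pwr {x₀ : M} {ε : ℝ} {m : ℕ} {g : List (ℝ →ᵇ M) → k} {Λ : List (Tm k M)}
    (hx : Exp x₀ x₀ ε m g Λ) (hε : 0 < ε) (hc : ∀ T, Coc (P x₀ x₀ T) ε m g)
    (hdeg : ∀ x ∈ Λ, x.a + x.b = m) (c q : ℕ) :
    ExL (P x₀ x₀ (c : ℝ)) m fun l => g (l.map (pwr (c : ℝ) (q + 1))) -
      (Λ.map fun x => N929.cup x.a (fun l' => x.f (l'.map (pwr (c : ℝ) q))) x.g l).sum := by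
  have hc0 : (0 : ℝ) ≤ c := Nat.cast_nonneg c
  have hqc : ((q * c : ℕ) : ℝ) = q * c := by push_cast; ring
  have hqc0 : (0 : ℝ) ≤ ((q * c : ℕ) : ℝ) := Nat.cast_nonneg _
  set θ : (ℝ →ᵇ M) × (ℝ →ᵇ M) → (ℝ →ᵇ M) := fun p =>
    catc ((q * c : ℕ) : ℝ) (pwr (c : ℝ) q p.1, p.2) with hθ
  have hpm : ∀ w, w ∈ P x₀ x₀ (c : ℝ) → pwr (c : ℝ) q w ∈ P x₀ x₀ ((q * c : ℕ) : ℝ) := by
    intro w hw
    rw [hqc]
    exact pwr_mem_P hc0 hw q
  have hFL : ∀ w, w ∈ P x₀ x₀ (c : ℝ) → w ∈ MV337.FL M (c : ℝ) := fun w hw =>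
    MV337.P_subset_FL hw
  have hF : CocL (P x₀ x₀ (c : ℝ) ×ˢ P x₀ x₀ (c : ℝ)) m fun l => g (l.map θ) := by
    refine ⟨ε, hε, fun l hl hs => ?_⟩
    rw [N929.dl_map]
    refine hc (((q * c : ℕ) : ℝ) + c) _ (by rw [List.length_map, hl]) ⟨fun y hy => ?_,
      fun y hy z hz => ?_⟩
    · obtain ⟨x, hx, rfl⟩ := List.mem_map.1 hy
      exact cat_mem hqc0 hc0 (hpm _ (hs.1 x hx).1) (hs.1 x hx).2
    · obtain ⟨x, hx, rfl⟩ := List.mem_map.1 hy
      obtain ⟨x', hx', rfl⟩ := List.mem_map.1 hz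
      have h1 := hs.1 x hx
      have h2 := hs.1 x' hx'
      have h3 := hs.2 x hx x' hx'
      rw [Prod.dist_eq] at h3
      refine (dist_cat_cat_le (hpm _ h1.1).1 (hpm _ h2.1).1 h1.2.1 h2.2.1
          (by rw [eq_right (hpm _ h1.1) le_rfl, eq_left h1.2 le_rfl])
          (by rw [eq_right (hpm _ h2.1) le_rfl, eq_left h2.2 le_rfl])).trans_lt ?_
      exact max_lt ((dist_pwr hc0 (hFL _ h1.1) (hFL _ h2.1) q).trans_lt
        ((le_max_left _ _).trans_lt h3)) ((le_max_right _ _).trans_lt h3)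
  refine exL_congr hε (exL_diag hF) fun l hl hs => ?_
  congr 1
  · rw [List.map_map]
    congr 1
    refine List.map_congr_left fun w _ => ?_
    rw [pwr_succ', ← hqc]
    rfl
  · have h1 : ∀ p ∈ Finset.range l.length,
        ev (fun l => g (l.map θ)) (Sh (l.take (p + 1)) (l.drop p)) =
        (Λ.map fun x => if p = x.a then x.f ((l.take (x.a + 1)).map (pwr (c : ℝ) q)) *
          x.g (l.drop x.a) else 0).sum := by
      intro p hp
      have hp := Finset.mem_range.1 hp
      have h2 := hx (q * c) c hc0 ((l.take (p + 1)).map (pwr (c : ℝ) q)) (l.drop p)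
        (by rw [List.length_map, List.length_take, List.length_drop]; omega)
        (by intro h0; have := congrArg List.length h0; rw [List.length_map, List.length_take,
          List.length_nil] at this; omega)
        (by intro h0; have := congrArg List.length h0; rw [List.length_drop,
          List.length_nil] at this; omega)
        (fun w hw => by
          obtain ⟨v, hv, rfl⟩ := List.mem_map.1 hw
          exact hpm _ (hs.1 v (List.mem_of_mem_take hv)))
        ⟨fun w hw => hs.1 w (List.mem_of_mem_drop hw), fun w hw w' hw' =>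
          hs.2 w (List.mem_of_mem_drop hw) w' (List.mem_of_mem_drop hw')⟩
      have h3 : bc ((q * c : ℕ) : ℝ) g ((l.take (p + 1)).map (pwr (c : ℝ) q)) (l.drop p) =
          ev (fun l => g (l.map θ)) (Sh (l.take (p + 1)) (l.drop p)) := by
        have h4 := Sh_map (k := k) (pwr (c : ℝ) q) (id : (ℝ →ᵇ M) → (ℝ →ᵇ M)) _
          (l.take (p + 1)) (l.drop p) rfl
        rw [List.map_id] at h4
        rw [bc, h4, ev_mp]
        congr 2
        funext l'
        rw [List.map_map]
        rfl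
      rw [← h3, h2, tsum]
      congr 1
      refine List.map_congr_left fun x hx => ?_
      rw [List.length_map, List.length_take]
      by_cases hpx : p = x.a
      · subst hpx
        rw [if_pos (by omega), if_pos rfl]
      · rw [if_neg (by omega), if_neg hpx]
    rw [aw, Finset.sum_congr rfl h1, sum_list_sum]
    congr 1
    refine List.map_congr_left fun x hx => ?_
    have hxd := hdeg x hx
    rw [Finset.sum_ite_eq' (Finset.range l.length) x.a,
      if_pos (Finset.mem_range.2 (by omega)), N929.cup]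

end Vale.Agent.P216.H285
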