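import Vale.Agent.P216.H285.Pow8

/-!
# P216-D, [POW-OM] (9): the eigenvalues of the power maps on the classes with one mesh
-/

open Finsupp Set BoundedContinuousFunction

namespace Vale.Agent.P216.H285

open Vale.Agent.P216.Sl Vale.Agent.P216.PS Vale.Agent.P216.N929 Vale.Agent.P216.H977C
open Vale.Agent.P216.AS Vale.Agent.P216.H894
open Vale.Agent.P216.H774D (pwr pwr_mem_P dist_pwr)

variable {k : Type} [Field k] {M : Type} [MetricSpace M] [CompactSpace M]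

omit [CompactSpace M] in
/-- `f cup g` is exact if `f` is exact (also in degree `0`). -/
theorem exL_cup_left0 {X : Set (ℝ →ᵇ M)} {e m : ℕ} {f g : List (ℝ →ᵇ M) → k}
    (hf : ExL X e f) (hg : CocL X m g) : ExL X (m + e) (N929.cup e f g) := by
  rcases Nat.eq_zero_or_pos e with h0 | h0
  · subst h0
    obtain ⟨s, hs, ε, hε, h⟩ := hf
    refine exL_zero_of hε fun l hl hl' => ?_
    have h1 : f (l.take (0 + 1)) = 0 := by
      have e0 : s = fun _ => 0 := funext (hs rfl)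
      rw [h (l.take (0 + 1)) (by rw [List.length_take]; omega)
        (SmL.mono (Fine.sub hl' fun x hx => List.mem_of_mem_take hx) le_rfl le_rfl), e0,
        PS.dl_zero_fun]
    rw [N929.cup, h1, zero_mul]
  · obtain ⟨ε, hε, hg⟩ := hg
    exact Sg.exL_cup_left hε h0 hf hg

theorem pp_add (w : Bool → k) (i l : ℕ) (b : Bool) :
    pp w (i + l) b = pp w i b * pp w l (nb i b) := by
  induction i generalizing b with
  | zero => rw [Nat.zero_add, pp, nb, one_mul]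
  | succ i ih => rw [Nat.add_right_comm, pp, pp, nb, ih, mul_assoc]

/-- pull back of cocycles under the power map -/
theorem cocL_pwr {x₀ : M} {m : ℕ} {f : List (ℝ →ᵇ M) → k} (hf : ∀ T, CocL (P x₀ x₀ T) m f)
    {t : ℝ} (ht : 0 ≤ t) (q : ℕ) : CocL (P x₀ x₀ t) m fun l => f (l.map (pwr t q)) := by
  obtain ⟨ε, hε, h⟩ := hf (q * t)
  exact ⟨ε, hε, Sg.coc_map (fun w hw => pwr_mem_P ht hw q) (fun w hw w' hw' =>
    dist_pwr ht (MV337.P_subset_FL hw) (MV337.P_subset_FL hw') q) h⟩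

section

variable {n e D : ℕ} (G : Geo M n) (τ : Tau k M n G.ρ₁) (E : Eta k M e) (hD : D + 1 = n + e)

/-- The values of `VV j b` on the powers. -/
theorem ev_VV_pw (hD : D + 1 = n + e) (hE : AddE E.f) (he : 1 ≤ e) (hn : Even n) (hDe : Even D)
    {N J : ℕ}
    (hN : 1 / ((N : ℝ) + 1) < (es G τ E J).1) {D₀ B : ℝ} (hB : 0 ≤ B)
    (hD₀ : IsPi M D₀) (hz : ∀ i, EpZ k G.x₀ B (n + i * D - 1)) (s : ℕ) (j : ℕ) (b : Bool)
    (hj : j ≤ J) : ∃ δ > 0, ∀ h : Ch k (ℝ →ᵇ M), Cy (P G.x₀ G.x₀ s) δ D h →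
      ev (VV G τ E N j b) (pw G.x₀ s h j) = pp (fun b => ev (VV G τ E N 1 b) h) j b := by
  obtain ⟨δ, hδ, H⟩ := ev_cup_pw G τ E hD hE he hn hDe hN hB hD₀ hz s j j 0 b b (by omega) hj
  refine ⟨δ, hδ, fun h hh => ?_⟩
  have h1 := H h hh
  rw [Nat.choose_self, Nat.cast_one, one_mul] at h1
  have h2 : pp (fun b => ev (VV G τ E N 1 b) h) 0 b = 1 := rfl
  rw [h2, mul_one] at h1
  rw [← h1]
  have hpw := pw_InP (s := (s : ℝ)) (Nat.cast_nonneg s) (InP.of_cy hh) j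
  refine ev_congr (fun l hl => ?_) hpw
  rw [N929.cup, VV_zero, one1, if_pos (by rw [List.length_drop]; have := hl.1; omega),
    List.take_of_length_le (by have := hl.1; omega), mul_one]

/-- The action of the power maps on `VV j b`. -/
def PE (D N J q : ℕ) : Prop := ∀ j ≤ J, ∀ (b : Bool) (c : ℕ), 0 < c →
  ExL (P G.x₀ G.x₀ (c : ℝ)) (j * D) fun l => VV G τ E N j b (l.map (pwr (c : ℝ) q)) -
    (q : k) ^ j * VV G τ E N j b l

/-- `VV j b` is an eigenvector. -/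
def EigV (D N J q : ℕ) : Prop := ∀ j ≤ J, ∀ (b : Bool), ∃ a : k, ∀ c : ℕ, 0 < c →
  ExL (P G.x₀ G.x₀ (c : ℝ)) (j * D) fun l => VV G τ E N j b (l.map (pwr (c : ℝ) q)) -
    a * VV G τ E N j b l

theorem pe_one (D N J : ℕ) : PE G τ E D N J 1 := by
  intro j _ b c hc
  refine exL_zero_of one_pos fun l hl hs => ?_
  have h1 : l.map (pwr (c : ℝ) 1) = l := by
    conv_rhs => rw [← List.map_id l]
    refine List.map_congr_left fun w hw => ?_
    have hw' := hs.1 w hw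
    rw [pwr_succ', Nat.cast_zero, zero_mul]
    have h0 : pwr (c : ℝ) 0 w = cst G.x₀ := by
      change cst (w 0) = _
      rw [eq_left hw' le_rfl]
    rw [h0, cst_cat hw']
    rfl
  rw [h1, Nat.cast_one, one_pow, one_mul, sub_self]

include hD in
/-- **The induction on the exponent.** -/
theorem pe_succ (hE : AddE E.f) (he : 1 ≤ e) (hn : Even n) (hDe : Even D) {N J : ℕ}
    (hN : 1 / ((N : ℝ) + 1) < (es G τ E J).1) {D₀ B : ℝ} (hB : 0 ≤ B)
    (hD₀ : IsPi M D₀) (hz : ∀ i, EpZ k G.x₀ B (n + i * D - 1)) {s : ℕ} (hs : 0 < s)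
    (hne : ∀ δ > 0, ∃ h : Ch k (ℝ →ᵇ M), Cy (P G.x₀ G.x₀ s) δ D h ∧
      ∀ b, ev (VV G τ E N 1 b) h ≠ 0) {q : ℕ} (hq : PE G τ E D N J q)
    (hEig : EigV G τ E D N J (q + 1)) : PE G τ E D N J (q + 1) := by
  have hn2 := G.hn
  have hD1 : 1 ≤ D := by omega
  intro j hj b
  rcases Nat.eq_zero_or_pos j with h0 | h0
  · subst h0
    intro c hc
    refine exL_zero_of one_pos fun l hl _ => ?_
    rw [VV_zero, one1, one1, List.length_map, pow_zero, one_mul, sub_self]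
  obtain ⟨a, ha⟩ := hEig j hj b
  suffices h : a = ((q + 1 : ℕ) : k) ^ j by
    rw [← h]
    exact ha
  have hes : ∀ i, i ≤ J → 1 / ((N : ℝ) + 1) < (es G τ E i).1 := fun i hi =>
    hN.trans_le (es_anti G τ E hi)
  obtain ⟨Λ, hx, hng⟩ := stE G τ E hD hE he hn hDe (hes j hj) b hB hD₀ hz (G.hx _)
  have hdeg : ∀ x ∈ MV G τ E N D j b ++ Λ, x.a + x.b = j * D := fun x hx => by
    rcases List.mem_append.1 hx with hx | hx
    · exact MV_deg G τ E hx
    · exact (hng x hx).deg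
  have hdia := exL_pwr hx (es G τ E j).2 (fun T => VV_coc G τ E hD (hes j hj) b (G.hx _) T) hdeg
    (j * s) q
  have hjs : 0 < j * s := Nat.mul_pos h0 hs
  have hjs0 : (0 : ℝ) ≤ ((j * s : ℕ) : ℝ) := Nat.cast_nonneg _
  have hjs' : ((j * s : ℕ) : ℝ) = j * s := by push_cast; ring
  have haj := ha (j * s) hjs
  -- the main terms
  have main : ∀ i ∈ List.range (j + 1), ∃ δ > 0, ∀ h : Ch k (ℝ →ᵇ M),
      Cy (P G.x₀ G.x₀ s) δ D h →
      ev (N929.cup ((j - i) * D) (fun l' => VV G τ E N (j - i) (nb i b)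
        (l'.map (pwr ((j * s : ℕ) : ℝ) q))) (VV G τ E N i b)) (pw G.x₀ s h j) =
      (q : k) ^ (j - i) * (j.choose i : k) * pp (fun b => ev (VV G τ E N 1 b) h) j b := by
    intro i hi
    have hi := List.mem_range.1 hi
    have h1 := hq (j - i) (by omega) (nb i b) (j * s) hjs
    have h2 := exL_cup_left0 h1 (VV_cocL0 G τ E hD (hes i (by omega)) b ((j * s : ℕ) : ℝ))
    have e1 : i * D + (j - i) * D = j * D := by
      rw [← Nat.add_mul]
      congr 1
      omega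
    rw [e1] at h2
    obtain ⟨δ₁, hδ₁, H₁⟩ := ex_iff.2 h2
    obtain ⟨δ₂, hδ₂, H₂⟩ := ev_cup_pw G τ E hD hE he hn hDe hN hB hD₀ hz s j (j - i) i
      (nb i b) b (by omega) hj
    refine ⟨min δ₁ δ₂, lt_min hδ₁ hδ₂, fun h hh => ?_⟩
    have hcy := pw_cy (Nat.cast_nonneg s) hD1 hδ₁ (hh.mono le_rfl (min_le_left _ _)) j
    rw [← hjs'] at hcy
    have h3 := H₁ _ hcy
    have h4 := H₂ h (hh.mono le_rfl (min_le_right _ _))
    have h5 : N929.cup ((j - i) * D) (fun l => VV G τ E N (j - i) (nb i b)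
        (l.map (pwr ((j * s : ℕ) : ℝ) q)) - (q : k) ^ (j - i) * VV G τ E N (j - i) (nb i b) l)
        (VV G τ E N i b) = fun l => N929.cup ((j - i) * D) (fun l' => VV G τ E N (j - i) (nb i b)
        (l'.map (pwr ((j * s : ℕ) : ℝ) q))) (VV G τ E N i b) l +
        (-(q : k) ^ (j - i)) * N929.cup ((j - i) * D) (VV G τ E N (j - i) (nb i b))
          (VV G τ E N i b) l := by
      funext l
      simp only [N929.cup]
      ring
    rw [h5, ev_add_fun, ev_smul_fun, h4] at h3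
    have h6 : pp (fun b => ev (VV G τ E N 1 b) h) j b =
        pp (fun b => ev (VV G τ E N 1 b) h) i b *
          pp (fun b => ev (VV G τ E N 1 b) h) (j - i) (nb i b) := by
      rw [← pp_add]
      congr 1
      omega
    rw [Nat.choose_symm (by omega)] at h3
    rw [h6]
    linear_combination h3
  obtain ⟨δ₁, hδ₁, H₁⟩ := exists_delta (List.range (j + 1)) _
    (fun i δ δ' _ hδ H h hh => H h (hh.mono le_rfl hδ)) main
  -- the negligible terms
  have neg : ∀ x ∈ Λ, ∃ δ > 0, ∀ z : Ch k (ℝ →ᵇ M),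
      Cy (P G.x₀ G.x₀ ((j * s : ℕ) : ℝ)) δ (j * D) z →
      ev (N929.cup x.a (fun l' => x.f (l'.map (pwr ((j * s : ℕ) : ℝ) q))) x.g) z = 0 := by
    intro x hx
    have h1 := exL_cup_right (hng x hx).hb (cocL_pwr (hng x hx).cf hjs0 q)
      ((hng x hx).eg _ hjs0)
    rw [Nat.add_comm, (hng x hx).deg] at h1
    exact ex_iff.2 h1
  obtain ⟨δ₂, hδ₂, H₂⟩ := exists_delta Λ _
    (fun i δ δ' _ hδ H z hz => H z (hz.mono le_rfl hδ)) neg
  obtain ⟨δ₃, hδ₃, H₃⟩ := ex_iff.2 hdia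
  obtain ⟨δ₄, hδ₄, H₄⟩ := ex_iff.2 haj
  obtain ⟨δ₅, hδ₅, H₅⟩ := ev_VV_pw G τ E hD hE he hn hDe hN hB hD₀ hz s j b hj
  set δ := min (min δ₁ δ₂) (min δ₃ (min δ₄ δ₅)) with hδ
  have hδ0 : 0 < δ := lt_min (lt_min hδ₁ hδ₂) (lt_min hδ₃ (lt_min hδ₄ hδ₅))
  obtain ⟨h, hh, hb⟩ := hne δ hδ0
  have hcy : Cy (P G.x₀ G.x₀ ((j * s : ℕ) : ℝ)) δ (j * D) (pw G.x₀ s h j) := by
    rw [hjs']
    exact pw_cy (Nat.cast_nonneg s) hD1 hδ0 hh j
  have v₁ := fun i hi => H₁ i hi h (hh.mono le_rfl ((min_le_left _ _).trans (min_le_left _ _)))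
  have v₂ := fun x hx => H₂ x hx _ (hcy.mono le_rfl ((min_le_left _ _).trans (min_le_right _ _)))
  have v₃ := H₃ _ (hcy.mono le_rfl ((min_le_right _ _).trans (min_le_left _ _)))
  have v₄ := H₄ _ (hcy.mono le_rfl ((min_le_right _ _).trans ((min_le_right _ _).trans
    (min_le_left _ _))))
  have v₅ := H₅ h (hh.mono le_rfl ((min_le_right _ _).trans ((min_le_right _ _).trans
    (min_le_right _ _))))
  set w : Bool → k := fun b => ev (VV G τ E N 1 b) h with hw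
  have v₆ : ∀ i ∈ Finset.range (j + 1), ((fun x : Tm k M => ev (N929.cup x.a (fun l' => x.f
      (l'.map (pwr ((j * s : ℕ) : ℝ) q))) x.g) (pw G.x₀ s h j)) ∘ mn G τ E N D j b) i =
      (q : k) ^ (j - i) * (j.choose i : k) * pp w j b := fun i hi =>
    v₁ i (List.mem_range.2 (Finset.mem_range.1 hi))
  rw [ev_fun_sub, ev_list_sum (MV G τ E N D j b ++ Λ) (fun (x : Tm k M) =>
    N929.cup x.a (fun l' => x.f (l'.map (pwr ((j * s : ℕ) : ℝ) q))) x.g), List.map_append,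
    List.sum_append, list_sum_zero Λ _ v₂, add_zero, MV, List.map_map, list_range_sum,
    Finset.sum_congr rfl v₆, ← Finset.sum_mul] at v₃
  have hbin : (∑ i ∈ Finset.range (j + 1), (q : k) ^ (j - i) * (j.choose i : k)) =
      ((q + 1 : ℕ) : k) ^ j := by
    have h1 := add_pow (1 : k) (q : k) j
    rw [show ((q + 1 : ℕ) : k) = 1 + q by push_cast; ring, h1]
    exact Finset.sum_congr rfl fun i _ => by rw [one_pow, one_mul]
  have v₄' : ev (fun l => VV G τ E N j b (l.map (pwr ((j * s : ℕ) : ℝ) (q + 1))))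
      (pw G.x₀ s h j) = a * pp w j b := by
    have : (fun l => VV G τ E N j b (l.map (pwr ((j * s : ℕ) : ℝ) (q + 1))) -
        a * VV G τ E N j b l) = fun l => VV G τ E N j b (l.map (pwr ((j * s : ℕ) : ℝ) (q + 1))) -
        (fun l => a * VV G τ E N j b l) l := rfl
    rw [this, ev_fun_sub, ev_smul_fun, v₅] at v₄
    exact sub_eq_zero.1 v₄
  rw [hbin, v₄', ← sub_mul] at v₃
  exact sub_eq_zero.1 ((mul_eq_zero.1 v₃).resolve_right (pp_ne hb j b))

end

end Vale.Agent.P216.H285
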