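import Vale.Agent.P216.H285.Pow10
import Vale.Agent.P216.H894.SignOut

/-!
# P216-D, [POW-OM]: the power maps act on the classes `W j` by `m ^ j` and on `A j` by `m ^ (j + 1)`
-/

open Finsupp Set BoundedContinuousFunction

namespace Vale.Agent.P216.H285

open Vale.Agent.P216.Sl Vale.Agent.P216.PS Vale.Agent.P216.N929 Vale.Agent.P216.H977C
open Vale.Agent.P216.AS Vale.Agent.P216.H894
open Vale.Agent.P216.H774D (pwr pwr_mem_P dist_pwr)
open Vale.Agent.P216.H250 (cat_apply')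
open Vale.Agent.P216.B64 (HU hres hpull UMap OmegaOutC)

variable {k : Type} [Field k] {M : Type} [MetricSpace M] [CompactSpace M]

/-- The `m`-th power of the based loops acts by `m ^ j` on `W j` and by `m ^ (j + 1)` on `A j`. -/
structure OmegaPwrC {q N : ℕ} {x₀ : M} {B : ℝ} (O : OmegaOutC M q N x₀ B k) (m : ℕ) : Prop where
  W : ∀ j t, 0 < t → ∀ h : UMap (P x₀ x₀ t) (P x₀ x₀ (m * t)) (pwr t m),
    hpull k h (j * N) (O.W j (m * t)) = (m : k) ^ j • O.W j t
  A : ∀ j t, 0 < t → ∀ h : UMap (P x₀ x₀ t) (P x₀ x₀ (m * t)) (pwr t m),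
    hpull k h (j * N + q) (O.A j (m * t)) = (m : k) ^ (j + 1) • O.A j t

/-- An additive cochain on the powers. -/
theorem add_pwr {x₀ : M} {e : ℕ} {f : List (ℝ →ᵇ M) → k} (hf : AddE f) (hN : Nrm f) (he : 1 ≤ e)
    (c m : ℕ) {l : List (ℝ →ᵇ M)} (hl : l.length = e + 1) (hm : ∀ w ∈ l, w ∈ P x₀ x₀ (c : ℝ)) :
    f (l.map (pwr (c : ℝ) m)) = (m : k) * f l := by
  have hc0 : (0 : ℝ) ≤ c := Nat.cast_nonneg c
  induction m with
  | zero =>
    have h1 : l.map (pwr (c : ℝ) 0) = List.replicate (e + 1) (cst x₀) := by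
      rw [List.eq_replicate_iff]
      refine ⟨by rw [List.length_map, hl], fun w hw => ?_⟩
      obtain ⟨v, hv, rfl⟩ := List.mem_map.1 hw
      change cst (v 0) = _
      rw [eq_left (hm v hv) le_rfl]
    rw [h1, Nat.cast_zero, zero_mul]
    refine hN _ fun hc => ?_
    rw [show e + 1 = (e - 1) + 1 + 1 by omega, List.replicate_succ, List.replicate_succ,
      List.isChain_cons_cons] at hc
    exact hc.1 rfl
  | succ m ih =>
    have hmc : ((m * c : ℕ) : ℝ) = m * c := by push_cast; ring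
    have h1 := hf x₀ x₀ x₀ (m * c) c hc0 (l.map fun w => (pwr (c : ℝ) m w, w))
      (by
        intro h0
        have := congrArg List.length h0
        rw [List.length_map, List.length_nil] at this
        omega)
      (fun x hx => by
        obtain ⟨w, hw, rfl⟩ := List.mem_map.1 hx
        refine ⟨?_, hm w hw⟩
        rw [hmc]
        exact pwr_mem_P hc0 (hm w hw) m)
    rw [List.map_map, List.map_map, List.map_map] at h1
    have e1 : l.map (catc ((m * c : ℕ) : ℝ) ∘ fun w => (pwr (c : ℝ) m w, w)) =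
        l.map (pwr (c : ℝ) (m + 1)) := by
      refine List.map_congr_left fun w _ => ?_
      rw [Function.comp_apply, hmc]
      rfl
    have e2 : l.map (Prod.snd ∘ fun w => (pwr (c : ℝ) m w, w)) = l := by
      conv_rhs => rw [← List.map_id l]
      rfl
    have e3 : l.map (Prod.fst ∘ fun w => (pwr (c : ℝ) m w, w)) = l.map (pwr (c : ℝ) m) := rfl
    rw [e1, e2, e3, ih] at h1
    rw [h1]
    push_cast
    ring

section

variable {n e D : ℕ} (G : Geo M n) (τ : Tau k M n G.ρ₁) (E : Eta k M e) (hD : D + 1 = n + e)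

/-- `VV 1` and `W 1` have the same values on fine cycles. -/
theorem ev_VV_one {N : ℕ} (hN : 1 / ((N : ℝ) + 1) < (es G τ E 1).1) (b : Bool) {s η : ℝ}
    (hs : 0 ≤ s) (hη : 0 < η) (h1 : η ≤ (es G τ E 1).1) (h2 : η ≤ Wε G τ E hD b 1)
    {h : Ch k (ℝ →ᵇ M)} (hh : Cy (P G.x₀ G.x₀ s) η D h) :
    ev (VV G τ E N 1 b) h = ev (W G τ E hD b 1) h := by
  obtain ⟨ι, i1, i2⟩ := Sg.exists_seg' k hs hη
  have hι : Edge 0 s η ι := ⟨i1, i2⟩
  obtain ⟨N', hN', hW⟩ := W_succ G τ E hD b 0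
  have e1 := stp_eval (y' := G.x₀) (x₀ := G.x₀) (m := D) (d := 0 * D + e) τ G.seg G.hr G.hrρ G.hn
    (by omega) (W_scl G τ E hD b 0) (G.hx _) (A_coc G τ E hD (!b) 0)
    (δ := 1 / ((N' : ℝ) + 1)) (by positivity) hN' hs le_rfl hη h2 hh hι
  have hg : ∀ T, Coc (P G.x₀ (G.y (!b)) T) (es G τ E 0).1 (0 + e)
      (N929.cup e E.f (VV G τ E N 0 (!b))) := fun T =>
    coc_cup (E.coc _ _ _) (coc_one1 (k := k) (P G.x₀ (G.y (!b)) T) (es G τ E 0).1) le_rfl le_rfl
  have e2 := stp_eval (y' := G.x₀) (x₀ := G.x₀) (m := D) (d := 0 + e) τ G.seg G.hr G.hrρ G.hn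
    (by omega) (es_scl G τ E 0 (!b)) (G.hx _) hg
    (δ := 1 / ((N : ℝ) + 1)) (by positivity) hN hs le_rfl hη h1 hh hι
  rw [VV_succ, sp, e2, hW, e1]
  rfl

include hD in
/-- **[POW-OM]** in terms of an `OmegaOutC` whose classes are the classes `W`, `A`. -/
theorem omegaPwrC_of (hE : AddE E.f) (he : 1 ≤ e) (hn : Even n) (hDe : Even D) {s : ℕ}
    (hs : 0 < s) (hne : ∀ b, ¬ ExL (P G.x₀ G.x₀ s) D (W G τ E hD b 1)) {D₀ B : ℝ} (hB : 0 ≤ B)
    (hD₀ : IsPi M D₀) (O : OmegaOutC M e D G.x₀ B k)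
    (hz : ∀ i, EpZ k G.x₀ B (n + i * D - 1))
    (hW : ∀ j (T : ℕ), O.W j T =
      cls (B64.a0 _) (B64.c0 k) (W G τ E hD false j) (W_cocL0 G τ E hD false j T))
    (hA : ∀ j (T : ℕ), O.A j T =
      cls (B64.a0 _) (B64.c0 k) (A G τ E hD false j) (A_cocL0 G τ E hD false j T))
    {m : ℕ} (hm : 1 ≤ m) : OmegaPwrC O m := by
  have hn2 := G.hn
  have hD1 : 1 ≤ D := by omega
  have hs0 : (0 : ℝ) ≤ s := Nat.cast_nonneg s
  have hcW : ∀ j, Cmp k G.x₀ (j * D) (O.W j) := fun j s t h _ => O.res_W j s t h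
  have hcA : ∀ j, Cmp k G.x₀ (j * D + e) (O.A j) := fun j s t h _ => O.res_A j s t h
  -- the weights of `W j`
  have key : ∀ j t, 0 ≤ t → pF (O.W j) m t = (m : k) ^ j • O.W j t := by
    intro J
    -- one mesh for all stages `≤ J + 1`
    obtain ⟨N, hN⟩ := exists_mesh (es G τ E (J + 1)).2
    have hes : ∀ i, i ≤ J + 1 → 1 / ((N : ℝ) + 1) < (es G τ E i).1 := fun i hi =>
      hN.trans_le (es_anti G τ E hi)
    -- fine cycles
    have hfine : ∀ δ > 0, ∃ h : Ch k (ℝ →ᵇ M), Cy (P G.x₀ G.x₀ (s : ℝ)) δ D h ∧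
        ∀ b, ev (VV G τ E N 1 b) h ≠ 0 := by
      intro δ hδ
      set δ' : ℝ := min δ (min (es G τ E 1).1 (min (Wε G τ E hD false 1) (Wε G τ E hD true 1)))
        with hδ'
      have h0 : 0 < δ' := lt_min hδ (lt_min (es G τ E 1).2
        (lt_min (Wε_pos G τ E hD _ _) (Wε_pos G τ E hD _ _)))
      obtain ⟨h, hh, hb⟩ := exists_both G τ E hD h0 hne
      refine ⟨h, hh.mono le_rfl (min_le_left _ _), fun b => ?_⟩
      rw [ev_VV_one G τ E hD (hes 1 (by omega)) b hs0 h0 ((min_le_right _ _).trans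
        (min_le_left _ _)) (((min_le_right _ _).trans (min_le_right _ _)).trans (by
          cases b
          · exact min_le_left _ _
          · exact min_le_right _ _)) hh]
      exact hb b
    -- the classes of `VV`
    have hcV : ∀ j ≤ J + 1, ∀ (b : Bool) (T : ℝ),
        CocL (P G.x₀ G.x₀ T) (j * D) (VV G τ E N j b) := fun j hj b T =>
      VV_cocL0 G τ E hD (hes j hj) b T
    have hnz : ∀ j ≤ J + 1, ∀ b, ¬ ExL (P G.x₀ G.x₀ ((j * s : ℕ) : ℝ)) (j * D)
        (VV G τ E N j b) := by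
      intro j hj b hex
      obtain ⟨δ₁, hδ₁, H₁⟩ := ex_iff.2 hex
      obtain ⟨δ₂, hδ₂, H₂⟩ := ev_VV_pw G τ E hD hE he hn hDe hN hB hD₀ hz s j b hj
      obtain ⟨h, hh, hb⟩ := hfine (min δ₁ δ₂) (lt_min hδ₁ hδ₂)
      have h1 := H₁ (pw G.x₀ s h j) (by
        have := pw_cy hs0 hD1 hδ₁ (hh.mono le_rfl (min_le_left _ _)) j
        rw [Nat.cast_mul]
        exact this)
      rw [H₂ h (hh.mono le_rfl (min_le_right _ _))] at h1
      exact pp_ne hb j b h1
    have hV : ∀ j, ∀ (hj : j ≤ J + 1), ∀ b : Bool, ∃ a : k, a ≠ 0 ∧ ∀ t, 0 ≤ t →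
        cls (B64.a0 _) (B64.c0 k) (VV G τ E N j b) (hcV j hj b t) = a • O.W j t := by
      intro j hj b
      obtain ⟨a, ha⟩ := Cmp.coef hB (hcW j) (O.spanW j) (cmp_cls (hcV j hj b))
      refine ⟨a, fun h0 => ?_, ha⟩
      have h1 := ha ((j * s : ℕ) : ℝ) (Nat.cast_nonneg _)
      rw [h0, zero_smul, cls_eq_zero] at h1
      exact hnz j hj b h1
    -- eigenvectors
    have hEig : ∀ q, EigV G τ E D N (J + 1) q := by
      intro q j hj b
      obtain ⟨a, ha0, ha⟩ := hV j hj b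
      obtain ⟨a', ha'⟩ := Cmp.coef hB (hcW j) (O.spanW j) ((cmp_cls (hcV j hj b)).pF q)
      refine ⟨a' * a⁻¹, fun c hc => ?_⟩
      have hc0 : (0 : ℝ) ≤ (c : ℝ) := Nat.cast_nonneg c
      refine (pF_cls_iff (hcV j hj b) q hc0 _).1 ?_
      rw [ha' c hc0, ha c hc0, smul_smul, mul_assoc, inv_mul_cancel₀ ha0, mul_one]
    -- the induction
    have hPE : ∀ q, PE G τ E D N (J + 1) (q + 1) := by
      intro q
      induction q with
      | zero => exact pe_one G τ E D N (J + 1)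
      | succ q ih =>
        exact pe_succ G τ E hD hE he hn hDe hN hB hD₀ hz hs hfine ih (hEig (q + 2))
    have hPEm : PE G τ E D N (J + 1) m := by
      obtain ⟨q, rfl⟩ : ∃ q, m = q + 1 := ⟨m - 1, by omega⟩
      exact hPE q
    -- back to `O.W J`
    obtain ⟨a, ha0, ha⟩ := hV J (by omega) false
    obtain ⟨a', ha'⟩ := Cmp.coef hB (hcW J) (O.spanW J) ((hcW J).pF m)
    have hcl : ∀ (z z' : ∀ t, HU k (P G.x₀ G.x₀ t) (J * D)) (t : ℝ), 0 ≤ t →
        (∀ t, 0 ≤ t → z t = a • z' t) → pF z m t = a • pF z' m t := by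
      intro z z' t ht h
      rw [pF_eq _ _ ht (umapPw ht m), pF_eq _ _ ht (umapPw ht m),
        h _ (mul_nonneg (Nat.cast_nonneg m) ht), map_smul]
    -- a level where the class is not zero
    set T : ℕ := J * s + 1 with hT
    have hT0 : (0 : ℝ) ≤ (T : ℝ) := Nat.cast_nonneg T
    have hTne : O.W J T ≠ 0 := by
      intro h0
      refine hnz J (by omega) false ?_
      have h1 := ha T hT0
      rw [h0, smul_zero, cls_eq_zero] at h1
      exact h1.mono (P_mono (by rw [hT]; push_cast; linarith))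
    have h1 := (pF_cls_iff (hcV J (by omega) false) m hT0 _).2
      (hPEm J (by omega) false T (by omega))
    rw [hcl _ _ _ hT0 ha, ha' _ hT0, ha _ hT0, smul_smul, smul_smul] at h1
    have h2 : (a * a' - (m : k) ^ J * a) • O.W J T = 0 := by
      rw [sub_smul, h1, sub_self]
    have h3 : a * a' = (m : k) ^ J * a :=
      sub_eq_zero.1 ((smul_eq_zero.1 h2).resolve_right hTne)
    have h4 : a' = (m : k) ^ J := mul_left_cancel₀ ha0 (by rw [h3]; ring)
    intro t ht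
    rw [ha' t ht, h4]
  -- `A j` at integral durations
  have keyA : ∀ j (c : ℕ), pF (O.A j) m c = (m : k) ^ (j + 1) • O.A j c := by
    intro j c
    have hc0 : (0 : ℝ) ≤ (c : ℝ) := Nat.cast_nonneg c
    have hmc : ((m * c : ℕ) : ℝ) = m * c := by push_cast; ring
    have h1 := key j c hc0
    have hWm' : ∀ x : ℝ, ((m * c : ℕ) : ℝ) = x → O.W j x = cls (B64.a0 _) (B64.c0 k)
        (W G τ E hD false j) (W_cocL0 G τ E hD false j x) := by
      rintro _ rfl
      exact hW j (m * c)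
    have hAm' : ∀ x : ℝ, ((m * c : ℕ) : ℝ) = x → O.A j x = cls (B64.a0 _) (B64.c0 k)
        (A G τ E hD false j) (A_cocL0 G τ E hD false j x) := by
      rintro _ rfl
      exact hA j (m * c)
    have hWm := hWm' _ hmc
    have hAm := hAm' _ hmc
    rw [pF_eq _ _ hc0 (umapPw hc0 m), hWm, hW, hpull, pull_cls, cls_smul, cls_eq_cls] at h1
    rw [pF_eq _ _ hc0 (umapPw hc0 m), hAm, hA, hpull, pull_cls, cls_smul, cls_eq_cls]
    have h2 := exL_smul (m : k) (exL_cup (lt_min E.hε (Wε_pos G τ E hD false j)) he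
      ((E.coc G.x₀ G.x₀ (c : ℝ)).mono le_rfl (min_le_left _ _)) h1)
    refine exL_congr one_pos h2 fun l hl hl' => ?_
    have h3 := add_pwr (x₀ := G.x₀) hE E.nrm he c m (l := l.take (e + 1))
      (by rw [List.length_take]; omega) (fun w hw => hl'.1 w (List.mem_of_mem_take hw))
    rw [A, N929.cup, N929.cup, N929.cup, ← List.map_take, ← List.map_drop, h3, pow_succ]
    ring
  refine ⟨fun j t ht h => ?_, fun j t ht h => ?_⟩
  · rw [← pF_eq (O.W j) m ht.le h]
    exact key j t ht.le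
  · have hc := Nat.le_ceil t
    have h1 := (hcA j).pF m t ⌈t⌉₊ hc ht.le
    rw [keyA, map_smul, O.res_A j t _ hc] at h1
    rw [← pF_eq (O.A j) m ht.le h]
    exact h1.symm

/-- **[POW-OM].** -/
theorem omegaPwrC_out (hE : AddE E.f) (he : 1 ≤ e) (hen : e + 1 < n) (hn : Even n)
    (hDe : Even D) {Ca s : ℝ} {ℓ : ℕ} (hs : 0 ≤ s) (hC : 1 + ℓ + s ≤ Ca)
    (hv : ∀ b, ∃ v : ℝ →ᵇ M, v ∈ P (G.y (!b)) (G.y b) ℓ) (hmid : Mid (D := D) G τ E s)
    {ρ r₀ εt Dp B0 : ℝ} (h : LS.UniqSeg M ρ) (hr : 0 < G.r) (hrρ : G.r < ρ) (hr0 : r₀ < G.r)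
    (hεt : 0 < εt) (htau : IsTau n r₀ εt τ.f) (hDp : IsPi M Dp) (hCa : 0 ≤ Ca) (hn2 : 2 ≤ n)
    (hN : D + 1 = n + e) (hq : 1 ≤ e) (hB0 : 0 ≤ B0) (hL : C313.LowC M e B0)
    (h2 : (2 : k) ≠ 0) {m : ℕ} (hm : 1 ≤ m) :
    OmegaPwrC ((omSysC G τ E hD hE he hen hs hC hv hmid).out h hr hrρ hr0 hεt htau hDp hCa hn2
      hN hq hB0 hL h2) m := by
  set O := (omSysC G τ E hD hE he hen hs hC hv hmid).out h hr hrρ hr0 hεt htau hDp hCa hn2
      hN hq hB0 hL h2 with hO
  have hDp0 := hDp.nonneg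
  have hB : 0 ≤ OmSysC.BC G.r Ca Dp B0 := by
    unfold OmSysC.BC
    linarith
  have hz : ∀ i, EpZ k G.x₀ (OmSysC.BC G.r Ca Dp B0) (n + i * D - 1) := by
    intro i
    have hi : n + i * D - 1 = i * D + (n - 1) := by omega
    have hmod : (n + i * D - 1) % D = n - 1 := by
      rw [hi, Nat.mul_add_mod', Nat.mod_eq_of_lt (by omega)]
    exact O.zero (n + i * D - 1) (fun j hj => by
      rw [hj, Nat.mul_mod_left] at hmod
      omega) fun j hj => by
      rw [hj, Nat.mul_add_mod', Nat.mod_eq_of_lt (by omega)] at hmod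
      omega
  refine omegaPwrC_of G τ E hD hE he hn hDe (s := ⌈2 * Dp + ((1 : ℕ) : ℝ) * (1 + ℓ + s) + 1⌉₊)
    (Nat.ceil_pos.2 (by positivity)) (fun b hex => ?_) hB hDp O hz (fun j T => ?_)
    (fun j T => ?_) hm
  · refine Sg.W_loop_ne G τ E hD hE he hen hs hDp0 hv (fun b => ?_) (fun b => ?_) hmid 1 b
      (Nat.le_ceil _) ?_
    · exact hDp.ne _ _
    · exact hDp.ne _ _
    · rw [Nat.one_mul]
      exact hex
  · exact cls_eq_of (hf := tf_coc hDp G.x₀ (G.y false) (W G τ E hD false j)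
      (W_cocL G τ E hD false j) T) fun l hl hs => W_tf G τ E hD hDp false j T hl hs.1
  · exact cls_eq_of (hf := tf_coc hDp G.x₀ (G.y false) (A G τ E hD false j)
      (A_cocL G τ E hD false j) T) fun l hl hs => A_tf G τ E hD hE he hDp false j T hl hs.1

end

end Vale.Agent.P216.H285
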