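import Vale.Agent.P216.H977C.E2
import Vale.Agent.P216.H754B.Rev

/-!
# P216-C, C13-SIGN (S5): the step on concatenations

`stp g (w u) = stp g w + stp g u ± (stp 1)(u) g(w)` for an additive `g`.
-/

open Finsupp Set BoundedContinuousFunction

namespace Vale.Agent.P216.H285

open Vale.Agent.P216.Sl Vale.Agent.P216.PS Vale.Agent.P216.N929 Vale.Agent.P216.H977C

/-! ### Combinatorics of an edge -/

section Comb

variable {k : Type} [Field k] {α β : Type}

/-- The lattice paths over an edge, when the second factor ignores the edge. -/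
theorem ev_edge_back (n : ℕ) {G : List α → k} (hG : Nrm G) (b0 b1 : β) :
    ∀ (F : List (α × β) → k) (l : List α), n + 1 ≤ l.length →
    ev (fun L => F (L.take (n + 2)) * G ((L.drop (n + 1)).map Prod.fst))
      (Sh l [b0, b1] : Ch k (α × β)) =
      (-1) ^ (l.length + n + 1) * (ev F (Sh (l.take (n + 1)) [b0, b1]) * G (l.drop n)) := by
  have hsh : ∀ (a : α) (s : List α), (Sh (a :: s) [b0, b1] : Ch k (α × β)) =
      cons (a, b0) (Sh s [b0, b1] +
        (-1 : k) ^ s.length • single ((a :: s).map fun x => (x, b1)) 1) := by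
    intro a s
    rw [Sh_cons (by simp), Sh_point_right b1 (by simp)]
  induction n with
  | zero =>
    intro F l hl
    obtain ⟨a, s, rfl⟩ : ∃ a s, l = a :: s := by
      rcases l with _ | ⟨a, s⟩
      · simp at hl
      · exact ⟨a, s, rfl⟩
    have h0 : ev (fun L : List (α × β) => F (((a, b0) :: L).take (0 + 2)) *
        G ((((a, b0) :: L).drop (0 + 1)).map Prod.fst)) (Sh s [b0, b1]) = 0 := by
      refine ev_zero_of (P := fun l => (∀ j, ((l.drop j).map Prod.fst).IsChain (· ≠ ·) →
          l.length ≤ s.length + j) ∧ Gr s [b0, b1] l) (fun L hL => ?_) ?_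
      · have h1 : G ((((a, b0) :: L).drop (0 + 1)).map Prod.fst) = 0 := by
          refine hG _ fun hc => ?_
          have h1 := hL.1 0 (by simpa using hc)
          have h2 := hL.2.1
          simp only [List.length_cons, List.length_nil] at h2
          omega
        rw [h1, mul_zero]
      · have a1 := Sh_chain_fst (k := k) _ s [b0, b1] rfl
        have a2 := Sh_mem (k := k) _ s [b0, b1] rfl
        rw [Finsupp.mem_supported] at a1 a2 ⊢
        exact fun l hl => ⟨a1 hl, a2 hl⟩
    rw [hsh, ev_cons, map_add, map_smul, h0, zero_add, ev_single, one_mul]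
    have h1 : (Sh ((a :: s).take (0 + 1)) [b0, b1] : Ch k (α × β)) =
        single [(a, b0), (a, b1)] 1 := by
      rw [List.take_succ_cons, List.take_zero, Sh_point_left a (by simp)]
      rfl
    rw [h1, ev_single, one_mul, smul_eq_mul]
    have h2 : ((((a, b0) :: (a :: s).map fun x => (x, b1)).drop (0 + 1)).map Prod.fst) =
        (a :: s).drop 0 := by
      rw [List.drop_succ_cons, List.drop_zero, List.drop_zero, List.map_map]
      exact List.map_id _
    have h3 : (((a, b0) :: (a :: s).map fun x => (x, b1)).take (0 + 2)) = [(a, b0), (a, b1)] := rfl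
    rw [h2, h3, List.length_cons]
    ring
  | succ n ih =>
    intro F l hl
    obtain ⟨a, s, rfl⟩ : ∃ a s, l = a :: s := by
      rcases l with _ | ⟨a, s⟩
      · simp at hl
      · exact ⟨a, s, rfl⟩
    have hs : n + 1 ≤ s.length := by simpa using hl
    have h1 := ih (fun L => F ((a, b0) :: L)) s hs
    rw [hsh, ev_cons, map_add, map_smul, ev_single, one_mul]
    have e1 : (fun L : List (α × β) => F (((a, b0) :: L).take (n + 1 + 2)) *
        G ((((a, b0) :: L).drop (n + 1 + 1)).map Prod.fst)) =
        fun L => (fun L => F ((a, b0) :: L)) (L.take (n + 2)) *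
          G ((L.drop (n + 1)).map Prod.fst) := rfl
    rw [e1, h1]
    have e2 : (a :: s).take (n + 1 + 1) = a :: s.take (n + 1) := rfl
    rw [e2, hsh, ev_cons, map_add, map_smul, ev_single, one_mul]
    have e3 : (((a, b0) :: (a :: s).map fun x => (x, b1)).drop (n + 1 + 1)).map Prod.fst =
        (a :: s).drop (n + 1) := by
      rw [List.drop_succ_cons, ← List.map_drop, List.map_map]
      exact List.map_id _
    have e4 : ((a, b0) :: (a :: s).map fun x => (x, b1)).take (n + 1 + 2) =
        (a, b0) :: (a :: s.take (n + 1)).map fun x => (x, b1) := by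
      rw [List.take_succ_cons, ← List.map_take]
      rfl
    rw [e3, e4, List.drop_succ_cons, List.length_take, min_eq_left hs, List.length_cons]
    simp only [smul_eq_mul]
    have e5 : (-1 : k) ^ (s.length + 1 + (n + 1) + 1) = (-1) ^ (s.length + n + 1) := by
      rw [show s.length + 1 + (n + 1) + 1 = s.length + n + 1 + 2 by ring, pow_add _ _ 2]
      simp
    have e6 : (-1 : k) ^ (s.length + n + 1) * (-1) ^ (n + 1) = (-1) ^ s.length := by
      rw [← pow_add, show s.length + n + 1 + (n + 1) = s.length + 2 * (n + 1) by ring, pow_add,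
        pow_mul]
      simp
    rw [e5]
    linear_combination (-(F ((a, b0) :: (a :: s.take (n + 1)).map fun x => (x, b1))) *
      G (s.drop n)) * e6

/-- A fibre integral over a transported chain. -/
theorem fib_mp {γ : Type} (g : β → γ) (c : Ch k β) (f : List (α × γ) → k) (l : List α) :
    N929.fib (mp g c) f l = N929.fib c (fun L => f (L.map (Prod.map id g))) l := by
  have h := sh_mp (k := k) (id : α → α) g (single l 1) c
  rw [mp_single, List.map_id] at h
  rw [N929.fib, h, ev_mp]
  rfl

end Comb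

section Cut

variable {M : Type} [MetricSpace M] [CompactSpace M] {ρ₀ r : ℝ} {y : M}

theorem cutp_apply (hseg : LS.UniqSeg M ρ₀) (hr : 0 < r) (hrρ : r < ρ₀) {w : ℝ →ᵇ M} {σ : ℝ}
    (hw : Lip (w : ℝ → M)) (hd : dist (w σ) y ≤ r) (v : ℝ) :
    cutp r y (w, σ) v = spl r w (cst y) σ 0 v :=
  splice_apply hseg hr hrρ hw (lip_cst y) (by rwa [cst_apply]) v

/-- Cutting a concatenation in its second part. -/
theorem cutp_right (hseg : LS.UniqSeg M ρ₀) (hr : 0 < r) (hrρ : r < ρ₀) {a b b' : M} {c s σ : ℝ}
    {x : (ℝ →ᵇ M) × (ℝ →ᵇ M)} (h1 : x.1 ∈ P a b c) (h2 : x.2 ∈ P b b' s) (hσ : 0 ≤ σ)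
    (hd : dist (x.2 σ) y ≤ r) :
    cutp r y (catc c x, c + σ) = catc c (x.1, cutp r y (x.2, σ)) := by
  have h0 : x.1 c = x.2 0 := by rw [eq_right h1 le_rfl, eq_left h2 le_rfl]
  have hl : Lip (catc c x : ℝ → M) := by
    intro u v
    rw [catc, cat_apply h1.1 h2.1 h0, cat_apply h1.1 h2.1 h0]
    exact lip_catf h1.1 h2.1 h0 u v
  have hcσ : catc c x (c + σ) = x.2 σ := by
    rw [catc_right h1 h2 (by linarith), add_sub_cancel_left]
  have hd' : dist (catc c x (c + σ)) y ≤ r := by rwa [hcσ]
  have hlc : Lip (cutp r y (x.2, σ) : ℝ → M) := by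
    intro u v
    rw [cutp_apply hseg hr hrρ h2.1 hd, cutp_apply hseg hr hrρ h2.1 hd]
    exact lip_spl hseg hr hrρ h2.1 (lip_cst y) (by rwa [cst_apply]) u v
  have hc0 : x.1 c = cutp r y (x.2, σ) 0 := by
    rw [cutp_apply hseg hr hrρ h2.1 hd, spl_left hσ, h0]
  ext v
  have hR : catc c (x.1, cutp r y (x.2, σ)) v = catf c x.1 (cutp r y (x.2, σ)) v :=
    cat_apply h1.1 hlc hc0 v
  rw [cutp_apply hseg hr hrρ hl hd', hR]
  rcases le_total v c with h3 | h3
  · rw [spl_left (by linarith), catf_left h3, catc_left h1 h2 h3]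
  rw [catf_right hc0 h3, cutp_apply hseg hr hrρ h2.1 hd]
  rcases le_total v (c + σ) with h4 | h4
  · rw [spl_left h4, spl_left (by linarith), catc_right h1 h2 h3]
  rcases le_total v (c + σ + r) with h5 | h5
  · rw [spl_mid h4 h5, spl_mid (by linarith) (by linarith), hcσ]
    congr 2
    ring
  · rw [spl_right hr h5, spl_right hr (by linarith), cst_apply, cst_apply]

theorem evp_right {a b b' : M} {c s σ : ℝ} {x : (ℝ →ᵇ M) × (ℝ →ᵇ M)}
    (h1 : x.1 ∈ P a b c) (h2 : x.2 ∈ P b b' s) (hσ : 0 ≤ σ) :
    evp y (catc c x, c + σ) = evp y (x.2, σ) := by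
  rw [evp, evp, catc_right h1 h2 (by linarith), add_sub_cancel_left]

end Cut

end Vale.Agent.P216.H285
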