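import Vale.Agent.P216.H285.Rev0

/-!
# P216-C, C13-SIGN (S5): the step on concatenations

`stp g (w u) = stp g w + stp g u ± (stp 1)(u) g(w)` for an additive `g`.
-/

open Finsupp Set BoundedContinuousFunction

namespace Vale.Agent.P216.H285

open Vale.Agent.P216.Sl Vale.Agent.P216.PS Vale.Agent.P216.N929 Vale.Agent.P216.H977C

variable {k : Type} [Field k] {M : Type} [MetricSpace M] [CompactSpace M]

section

variable {n e : ℕ} {ρ₀ ρ₁ r δ ε η : ℝ} {y : M} {g : List (ℝ →ᵇ M) → k}

/-- All the points of a small list are near `y` as soon as the Thom cochain does not vanish. -/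
theorem near_of (τ : Tau k M n ρ₁) {x₀ x₁ : M} {T S : ℝ} (h3 : ρ₁ + 2 * η ≤ r)
    {L : List ((ℝ →ᵇ M) × ℝ)} (hf : Fine (PTm x₀ x₁ T S) η L) (hne : L ≠ [])
    (hτ : τ.f ((L.map (evp y)).take (n + 1)) ≠ 0) : ∀ p ∈ L, dist (p.1 p.2) y ≤ r := by
  intro p hp
  obtain ⟨q, hq⟩ : ∃ q, q ∈ L.take (n + 1) := by
    obtain ⟨q, L, rfl⟩ := List.exists_cons_of_ne_nil hne
    exact ⟨q, by rw [List.take_succ_cons]; exact List.mem_cons_self⟩
  have h4 : dist (q.1 q.2) y < ρ₁ := by
    by_contra hcon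
    refine hτ (τ.supp _ ⟨evp y q, ?_, not_lt.1 hcon⟩)
    rw [← List.map_take]
    exact List.mem_map_of_mem hq
  have hq' := List.mem_of_mem_take hq
  have h5 := dist_ev_lt (hf.1 p hp) (hf.1 q hq') (hf.2 p hp q hq')
  linarith [dist_triangle (p.1 p.2) (q.1 q.2) y]

/-- **The step on concatenations**, for an additive cochain. -/
theorem stp_cat (τ : Tau k M (n + 1) ρ₁) (hseg : LS.UniqSeg M ρ₀) (hr : 0 < r) (hrρ : r < ρ₀)
    (hs : Scl τ r y ε η) (hg : AddE g) (hgN : Nrm g) {x₀ x₁ x₂ : M} (h1 : ρ₁ ≤ dist x₁ y)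
    (h2 : ρ₁ ≤ dist x₂ y) {N : ℕ} (hN : 1 / ((N : ℝ) + 1) < η) {c : ℕ} {S : ℝ}
    (hS : 0 ≤ S) {l : List ((ℝ →ᵇ M) × (ℝ →ᵇ M))} (hl : l.length = n + 1 + e)
    (hm : ∀ x ∈ l, x.1 ∈ P x₀ x₁ c ∧ x.2 ∈ P x₁ x₂ S)
    (hf : Fine (P x₁ x₂ S) η (l.map Prod.snd)) :
    stp (n + 1) τ.f r (1 / ((N : ℝ) + 1)) y g (l.map (catc c)) =
      stp (n + 1) τ.f r (1 / ((N : ℝ) + 1)) y g (l.map Prod.fst) +
      (stp (n + 1) τ.f r (1 / ((N : ℝ) + 1)) y g (l.map Prod.snd) +
      (-1) ^ e * (stp (n + 1) τ.f r (1 / ((N : ℝ) + 1)) y (one1 k _)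
        ((l.take (n + 1)).map Prod.snd) * g ((l.drop n).map Prod.fst))) := by
  have hne : l ≠ [] := by
    rintro rfl
    simp only [List.length_nil] at hl
    omega
  have hN0 : (0 : ℝ) < (N : ℝ) + 1 := by positivity
  have hδ0 : (0 : ℝ) < 1 / ((N : ℝ) + 1) := by positivity
  have hSN : S ≤ ((⌈S⌉₊ * (N + 1) : ℕ) : ℝ) * (1 / ((N : ℝ) + 1)) := by
    have := Nat.le_ceil S
    push_cast
    rw [mul_assoc, mul_one_div, div_self hN0.ne', mul_one]
    exact this
  have hcN : (c : ℝ) ≤ ((c * (N + 1) : ℕ) : ℝ) * (1 / ((N : ℝ) + 1)) := by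
    push_cast
    rw [mul_one_div, mul_div_assoc, div_self hN0.ne', mul_one]
  have E1 := stp_eq (r := r) (g := g) (T := c + S) (x₀ := x₀) (y' := x₂)
    (N := c * (N + 1) + ⌈S⌉₊ * (N + 1)) (l := l.map (catc (c : ℝ))) τ h2 hδ0
    (by push_cast at hSN hcN ⊢; rw [add_mul]; linarith) (by simpa using hne) (fun w hw => by
      obtain ⟨x, hx, rfl⟩ := List.mem_map.1 hw
      exact cat_mem (Nat.cast_nonneg c) hS (hm x hx).1 (hm x hx).2)
  have E2 := stp_eq (r := r) (g := g) (T := c) (x₀ := x₀) (y' := x₁) (N := c * (N + 1))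
    (l := l.map Prod.fst) τ h1 hδ0 hcN (by simpa using hne) (fun w hw => by
      obtain ⟨x, hx, rfl⟩ := List.mem_map.1 hw
      exact (hm x hx).1)
  have E3 := stp_eq (r := r) (g := g) (T := S) (x₀ := x₁) (y' := x₂) (N := ⌈S⌉₊ * (N + 1))
    (l := l.map Prod.snd) τ h2 hδ0 hSN (by simpa using hne) hf.1
  have E4 := stp_eq (r := r) (g := one1 k _) (T := S) (x₀ := x₁) (y' := x₂)
    (N := ⌈S⌉₊ * (N + 1)) (l := (l.take (n + 1)).map Prod.snd) τ h2 hδ0 hSN (by
      intro h0
      have h3 := congrArg List.length h0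
      rw [List.length_map, List.length_take, List.length_nil, hl] at h3
      omega) (fun w hw => by
      obtain ⟨x, hx, rfl⟩ := List.mem_map.1 hw
      exact (hm x (List.mem_of_mem_take hx)).2)
  rw [E1, E2, E3, E4, fib_mesh, fib_mesh, fib_mesh, fib_mesh, Finset.sum_range_add]
  set δ : ℝ := 1 / ((N : ℝ) + 1) with hδ
  have hcδ : ((c * (N + 1) : ℕ) : ℝ) * δ = c := by
    rw [hδ]
    push_cast
    rw [mul_one_div, mul_div_assoc, div_self hN0.ne', mul_one]
  have hmem : ∀ i : ℕ, edge k δ i ∈ Sp k (fun t => t = [(i : ℝ) * δ, ((i + 1 : ℕ) : ℝ) * δ]) :=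
    fun i => single_mem (P := fun t => t = [(i : ℝ) * δ, ((i + 1 : ℕ) : ℝ) * δ]) rfl 1
  congr 1
  · -- the edges before `c`
    refine Finset.sum_congr rfl fun i hi => ?_
    rw [fib_map, fib_map]
    refine fib_congr (hmem i) fun t ht L hL => ?_
    subst ht
    have hi' : ((i + 1 : ℕ) : ℝ) * δ ≤ c := by
      rw [← hcδ]
      exact mul_le_mul_of_nonneg_right (by exact_mod_cast Finset.mem_range.1 hi) hδ0.le
    have key : ∀ p ∈ L, p.1 ∈ l ∧ p.2 ≤ c := by
      intro p hp
      refine ⟨(hL.2 p hp).1, ?_⟩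
      have h3 := (hL.2 p hp).2
      have h4 : (i : ℝ) * δ ≤ ((i + 1 : ℕ) : ℝ) * δ := by push_cast; nlinarith
      simp only [List.mem_cons, List.not_mem_nil, or_false] at h3
      rcases h3 with h | h <;> rw [h]
      · exact h4.trans hi'
      · exact hi'
    rw [intg_eq', intg_eq', List.map_map, List.map_map, List.map_map, List.map_map]
    have e1 : L.map (evp y ∘ Prod.map (catc (c : ℝ)) id) = L.map (evp y ∘ Prod.map Prod.fst id) :=
      List.map_congr_left fun p hp => evp_left (hm _ (key p hp).1).1 (hm _ (key p hp).1).2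
        (key p hp).2
    have e2 : L.map (cutp r y ∘ Prod.map (catc (c : ℝ)) id) =
        L.map (cutp r y ∘ Prod.map Prod.fst id) :=
      List.map_congr_left fun p hp => cutp_left hr (hm _ (key p hp).1).1 (hm _ (key p hp).1).2
        (key p hp).2
    rw [e1, e2]
  · -- the edges after `c`
    rw [Finset.sum_mul, Finset.mul_sum, ← Finset.sum_add_distrib]
    refine Finset.sum_congr rfl fun i hi => ?_
    have hedge : edge k δ (c * (N + 1) + i) = mp (fun s => (c : ℝ) + s) (edge k δ i) := by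
      rw [edge, edge, mp_single, List.map_cons, List.map_cons, List.map_nil]
      congr 2
      · push_cast at hcδ ⊢
        linear_combination hcδ
      · congr 1
        push_cast at hcδ ⊢
        linear_combination hcδ
    rw [fib_map, hedge, fib_mp, fib_map _ _ Prod.snd, fib_map _ _ Prod.snd]
    have hib : ((i + 1 : ℕ) : ℝ) * δ ≤ ((⌈S⌉₊ * (N + 1) : ℕ) : ℝ) * δ :=
      mul_le_mul_of_nonneg_right (by exact_mod_cast Finset.mem_range.1 hi) hδ0.le
    -- the integrand on the grid
    have key : ∀ L : List (((ℝ →ᵇ M) × (ℝ →ᵇ M)) × ℝ),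
        Gr l [(i : ℝ) * δ, ((i + 1 : ℕ) : ℝ) * δ] L →
        intg (n + 1) τ.f g r y ((L.map (Prod.map id fun s => (c : ℝ) + s)).map
          (Prod.map (catc (c : ℝ)) id)) =
        intg (n + 1) τ.f g r y (L.map (Prod.map Prod.snd id)) +
        (fun L' : List (((ℝ →ᵇ M) × (ℝ →ᵇ M)) × ℝ) =>
          τ.f ((L'.map (Prod.map Prod.snd id)).map (evp y))) (L.take (n + 2)) *
        (fun l' : List ((ℝ →ᵇ M) × (ℝ →ᵇ M)) => g (l'.map Prod.fst))
          ((L.drop (n + 1)).map Prod.fst) := by
      intro L hL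
      have hLl : L.length = n + 1 + e + 1 := by
        have := hL.1
        simp only [List.length_cons, List.length_nil] at this
        omega
      have hLne : L ≠ [] := by
        rintro rfl
        simp at hLl
      have hσ : ∀ p ∈ L, 0 ≤ p.2 := by
        intro p hp
        have h3 := (hL.2 p hp).2
        simp only [List.mem_cons, List.not_mem_nil, or_false] at h3
        rcases h3 with h | h <;> rw [h] <;> positivity
      have hG2 : Gr (l.map Prod.snd) [(i : ℝ) * δ, ((i + 1 : ℕ) : ℝ) * δ]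
          (L.map (Prod.map Prod.snd id)) := by
        refine ⟨by rw [List.length_map, List.length_map, hL.1], fun p hp => ?_⟩
        obtain ⟨q, hq, rfl⟩ := List.mem_map.1 hp
        exact ⟨List.mem_map_of_mem (hL.2 q hq).1, (hL.2 q hq).2⟩
      have hfine : Fine (PTm x₁ x₂ S (((⌈S⌉₊ * (N + 1) : ℕ) : ℝ) * δ)) η
          (L.map (Prod.map Prod.snd id)) :=
        fine_grid hs.pos hN hδ0 hf ⟨i, Finset.mem_range.1 hi, rfl⟩ hG2
      have e1 : ((L.map (Prod.map id fun s => (c : ℝ) + s)).map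
          (Prod.map (catc (c : ℝ)) id)).map (evp y) = (L.map (Prod.map Prod.snd id)).map (evp y) := by
        rw [List.map_map, List.map_map, List.map_map]
        exact List.map_congr_left fun p hp => evp_right (hm _ (hL.2 p hp).1).1
          (hm _ (hL.2 p hp).1).2 (hσ p hp)
      rw [intg_eq', intg_eq', e1]
      have e2 : (fun L' : List (((ℝ →ᵇ M) × (ℝ →ᵇ M)) × ℝ) =>
          τ.f ((L'.map (Prod.map Prod.snd id)).map (evp y))) (L.take (n + 2)) =
          τ.f (((L.map (Prod.map Prod.snd id)).map (evp y)).take (n + 1 + 1)) := by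
        simp only [List.map_take]
      rw [e2, ← mul_add]
      by_cases hτ : τ.f (((L.map (Prod.map Prod.snd id)).map (evp y)).take (n + 1 + 1)) = 0
      · rw [hτ, zero_mul, zero_mul]
      congr 1
      have hne2 : L.map (Prod.map Prod.snd id) ≠ [] := by simpa using hLne
      have hnear := near_of τ hs.h3' hfine hne2 hτ
      have hcut := cut_fine τ hseg hr hrρ hs.pos hs.mod hs.h3' hfine hne2
        (by rwa [← List.map_take] at hτ)
      have e3 : ((L.map (Prod.map id fun s => (c : ℝ) + s)).map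
          (Prod.map (catc (c : ℝ)) id)).map (cutp r y) =
          (L.map fun p => (p.1.1, cutp r y (p.1.2, p.2))).map (catc c) := by
        rw [List.map_map, List.map_map, List.map_map]
        refine List.map_congr_left fun p hp => ?_
        exact cutp_right hseg hr hrρ (hm _ (hL.2 p hp).1).1 (hm _ (hL.2 p hp).1).2 (hσ p hp)
          (hnear (p.1.2, p.2) (List.mem_map_of_mem hp))
      rw [e3, ← List.map_drop]
      have hr0 : (0 : ℝ) ≤ ((⌈S⌉₊ * (N + 1) : ℕ) : ℝ) * δ + r := by positivity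
      rw [hg x₀ x₁ y c _ hr0 _ ?_ ?_]
      · rw [add_comm]
        congr 2
        · rw [← List.map_drop, List.map_map, List.map_drop]
          simp only [List.map_map]
          rfl
        · simp only [List.map_drop, List.map_map]
          rfl
      · intro h0
        have h3 := congrArg List.length h0
        rw [List.length_drop, List.length_map, List.length_nil, hLl] at h3
        omega
      · intro p hp
        rw [← List.map_drop] at hp
        obtain ⟨q, hq, rfl⟩ := List.mem_map.1 hp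
        refine ⟨(hm _ (hL.2 q (List.mem_of_mem_drop hq)).1).1, hcut.1 _ ?_⟩
        rw [← List.map_drop, List.map_map]
        exact List.mem_map_of_mem (f := cutp r y ∘ Prod.map Prod.snd id) hq
    rw [fib_congr (hmem i) (fun t ht L hL => key L (ht ▸ hL))]
    have hB := ev_edge_back (k := k) n (G := fun l' : List ((ℝ →ᵇ M) × (ℝ →ᵇ M)) =>
      g (l'.map Prod.fst)) (hgN.map Prod.fst) ((i : ℝ) * δ) (((i + 1 : ℕ) : ℝ) * δ)
      (fun L' : List (((ℝ →ᵇ M) × (ℝ →ᵇ M)) × ℝ) =>
          τ.f ((L'.map (Prod.map Prod.snd id)).map (evp y))) l (by omega)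
    have hT : N929.fib (edge k δ i) (fun L : List (((ℝ →ᵇ M) × (ℝ →ᵇ M)) × ℝ) =>
        intg (n + 1) τ.f (one1 k _) r y (L.map (Prod.map Prod.snd id))) (l.take (n + 1)) =
        ev (fun L' : List (((ℝ →ᵇ M) × (ℝ →ᵇ M)) × ℝ) =>
          τ.f ((L'.map (Prod.map Prod.snd id)).map (evp y)))
          (Sh (l.take (n + 1)) [(i : ℝ) * δ, ((i + 1 : ℕ) : ℝ) * δ]) := by
      rw [N929.fib, edge, sh_single]
      refine ev_congr (fun L hL => ?_) (Sh_mem _ _ _ rfl)
      have hLl : L.length = n + 1 + 1 := by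
        have := hL.1
        simp only [List.length_cons, List.length_nil, List.length_take, hl] at this
        omega
      have h3 : (((L.map (Prod.map Prod.snd id)).map (cutp r y)).drop (n + 1)).length = 1 := by
        rw [List.length_drop, List.length_map, List.length_map, hLl]
        omega
      rw [intg_eq', one1, if_pos h3, mul_one, List.take_of_length_le]
      rw [List.length_map, List.length_map, hLl]
    have hsgn : (-1 : k) ^ (l.length + n + 1) = (-1) ^ e := by
      rw [hl, show n + 1 + e + n + 1 = e + 2 * (n + 1) by ring, pow_add, pow_mul]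
      simp
    rw [hT, List.map_drop, ← List.map_drop]
    rw [hsgn] at hB
    rw [← hB, N929.fib, N929.fib, edge, sh_single, ev_add_fun]

end

end Vale.Agent.P216.H285
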