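import Vale.Agent.P216.H285.Rev1
import Vale.Agent.P216.H787.COmega

/-!
# P216-C, C13-SIGN (S5): `theta^* eta = - eta` and `theta^* V = - V` on the based loops
-/

open Finsupp Set BoundedContinuousFunction

namespace Vale.Agent.P216.H285

open Vale.Agent.P216.Sl Vale.Agent.P216.PS Vale.Agent.P216.N929 Vale.Agent.P216.H977C
open Vale.Agent.P216.AS Vale.Agent.P216.H754B

/-! ### Exact cochains -/

section Ex

variable {k : Type} [Field k] {α : Type} [PseudoMetricSpace α] {X : Set α} {n : ℕ}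
  {f g : List α → k}

theorem exL_congr {ε : ℝ} (hε : 0 < ε) (h : ExL X n g)
    (he : ∀ l, l.length = n + 1 → SmL X ε l → f l = g l) : ExL X n f := by
  obtain ⟨s, hs, ε', hε', h'⟩ := h
  refine ⟨s, hs, min ε ε', lt_min hε hε', fun l hl hl' => ?_⟩
  rw [he l hl (hl'.mono le_rfl (min_le_left _ _)), h' l hl (hl'.mono le_rfl (min_le_right _ _))]

theorem exL_zero_of {ε : ℝ} (hε : 0 < ε) (he : ∀ l, l.length = n + 1 → SmL X ε l → f l = 0) :
    ExL X n f :=
  ⟨fun _ => 0, fun _ _ => rfl, ε, hε, fun l hl hl' => by rw [PS.dl_zero_fun, he l hl hl']⟩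

theorem exL_add (hf : ExL X n f) (hg : ExL X n g) : ExL X n fun l => f l + g l := by
  obtain ⟨s, hs, ε, hε, h⟩ := hf
  obtain ⟨s', hs', ε', hε', h'⟩ := hg
  refine ⟨fun l => s l + s' l, fun h0 l => by beta_reduce; rw [hs h0, hs' h0, add_zero], min ε ε',
    lt_min hε hε', fun l hl hl' => ?_⟩
  beta_reduce
  rw [N929.dl_add_fun, h l hl (hl'.mono le_rfl (min_le_left _ _)),
    h' l hl (hl'.mono le_rfl (min_le_right _ _))]

theorem exL_smul (c : k) (hf : ExL X n f) : ExL X n fun l => c * f l := by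
  obtain ⟨s, hs, ε, hε, h⟩ := hf
  refine ⟨fun l => c * s l, fun h0 l => by beta_reduce; rw [hs h0, mul_zero], ε, hε,
    fun l hl hl' => ?_⟩
  beta_reduce
  rw [N929.dl_smul_fun, h l hl hl']

/-- `f cup g` is exact if `f` is exact of positive degree and `g` is a cocycle. -/
theorem exL_cup_left {m e : ℕ} (hf : ExL X (m + 1) f) (hg : CocL X e g) :
    ExL X (m + 1 + e) (N929.cup (m + 1) f g) := by
  obtain ⟨s, -, ε, hε, h⟩ := hf
  obtain ⟨ε', hε', h'⟩ := hg
  refine ⟨N929.cup m s g, fun h0 => by omega, min ε ε', lt_min hε hε', fun l hl hl' => ?_⟩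
  rw [N929.dl_cup _ _ _ _ (by omega), N929.cup,
    h (l.take (m + 1 + 1)) (by rw [List.length_take]; omega)
      (SmL.mono (Fine.sub hl' fun x hx => List.mem_of_mem_take hx) le_rfl (min_le_left _ _)),
    h' (l.drop m) (by rw [List.length_drop]; omega)
      (SmL.mono (Fine.sub hl' fun x hx => List.mem_of_mem_drop hx) le_rfl (min_le_right _ _))]
  ring

theorem exL_map {β : Type} [PseudoMetricSpace β] {Y : Set β} {F : α → β} {h : List β → k}
    (hF : IsMap (H901.tr α) (H901.tr β) X Y F) (hh : ExL Y n h) :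
    ExL X n fun l => h (l.map F) := by
  obtain ⟨s, hs, ε, hε, H⟩ := hh
  obtain ⟨δ, hδ, h'⟩ := hF.uc ε hε
  refine ⟨fun l => s (l.map F), fun h0 l => hs h0 _, δ, hδ, fun l hl hl' => ?_⟩
  rw [N929.dl_map]
  refine H _ (by rw [List.length_map, hl]) ⟨fun y hy => ?_, fun y hy y' hy' => ?_⟩
  · obtain ⟨x, hx, rfl⟩ := List.mem_map.1 hy
    exact hF.mapsX (hl'.1 x hx)
  · obtain ⟨x, hx, rfl⟩ := List.mem_map.1 hy
    obtain ⟨x', hx', rfl⟩ := List.mem_map.1 hy'
    exact h' x (hl'.1 x hx) x' (hl'.1 x' hx') (hl'.2 x hx x' hx')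

end Ex

/-! ### A loop followed by its reverse is contractible -/

section Psi

variable {M : Type} [MetricSpace M]

/-- `w` run until the time `s t` and back. -/
noncomputable def psi (t s : ℝ) (w : ℝ →ᵇ M) : ℝ →ᵇ M :=
  w.compContinuous ⟨fun u => min (min u (2 * t - u)) (s * t), by fun_prop⟩

theorem psi_apply (t s : ℝ) (w : ℝ →ᵇ M) (u : ℝ) :
    psi t s w u = w (min (min u (2 * t - u)) (s * t)) := rfl

variable {a b : M} {t s : ℝ} {w w' : ℝ →ᵇ M}

theorem abs_fold (t s s' u v : ℝ) :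
    |min (min u (2 * t - u)) (s * t) - min (min v (2 * t - v)) (s' * t)| ≤
      max |u - v| |s * t - s' * t| := by
  refine (abs_min_sub_min_le_max _ _ _ _).trans (max_le_max ?_ le_rfl)
  refine (abs_min_sub_min_le_max _ _ _ _).trans (max_le le_rfl (le_of_eq ?_))
  rw [abs_sub_comm]
  congr 1
  ring

theorem psi_mem (hw : w ∈ P a b t) : psi t s w ∈ P a a (2 * t) := by
  refine ⟨fun u v => ?_, fun u hu => ?_, fun u hu => ?_⟩
  · rw [psi_apply, psi_apply]
    refine (hw.1 _ _).trans ((abs_fold t s s u v).trans ?_)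
    rw [sub_self, abs_zero]
    exact max_le le_rfl (abs_nonneg _)
  · rw [psi_apply]
    exact hw.2.1 _ ((min_le_left _ _).trans ((min_le_left _ _).trans hu))
  · rw [psi_apply]
    exact hw.2.1 _ ((min_le_left _ _).trans ((min_le_right _ _).trans (by linarith)))

theorem psi_zero (hw : w ∈ P a b t) : psi t 0 w = cst a := by
  ext u
  rw [psi_apply, zero_mul, cst_apply]
  exact hw.2.1 _ (min_le_right _ _)

theorem psi_one [CompactSpace M] (hw : w ∈ P a b t) :
    psi t 1 w = catc t (w, rv t w) := by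
  have h2 : rv t w ∈ P b a t := rv_mem_P hw le_rfl
  ext u
  rw [psi_apply, one_mul]
  rcases le_total u t with h | h
  · rw [catc_left (x := (w, rv t w)) hw h2 h, min_eq_left (by linarith : u ≤ 2 * t - u),
      min_eq_left h]
  · rw [catc_right (x := (w, rv t w)) hw h2 h]
    change _ = w (t - (u - t))
    rw [min_eq_right (by linarith : 2 * t - u ≤ u), min_eq_left (by linarith)]
    congr 1
    ring

theorem htpy_psi (ht : 0 ≤ t) : IsHtpy (H901.tr (ℝ →ᵇ M)) (H901.tr (ℝ →ᵇ M)) (P a b t)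
    (P a a (2 * t)) (psi t) := by
  refine ⟨fun s _ w hw => psi_mem hw, fun _ _ i => i.elim, fun ε hε => ?_⟩
  have h0 : 0 < t + 1 := by linarith
  refine ⟨min (ε / 2 / (t + 1)) (ε / 2), lt_min (by positivity) (by positivity),
    fun s _ s' _ w hw w' hw' hs hd => ?_⟩
  have h1 := hs.trans_le (min_le_left _ _)
  have h2 := hd.trans_le (min_le_right _ _)
  rw [lt_div_iff₀ h0] at h1
  have h3 : dist (psi t s w) (psi t s' w) ≤ |s - s'| * (t + 1) := by
    rw [BoundedContinuousFunction.dist_le (by positivity)]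
    intro u
    rw [psi_apply, psi_apply]
    refine (hw.1 _ _).trans ((abs_fold t s s' u u).trans ?_)
    rw [sub_self, abs_zero, max_eq_right (abs_nonneg _), ← sub_mul, abs_mul, abs_of_nonneg ht]
    exact mul_le_mul_of_nonneg_left (by linarith) (abs_nonneg _)
  have h4 : dist (psi t s' w) (psi t s' w') ≤ dist w w' := by
    rw [BoundedContinuousFunction.dist_le dist_nonneg]
    intro u
    exact BoundedContinuousFunction.dist_coe_le_dist (f := w) (g := w') _
  linarith [dist_triangle (psi t s w) (psi t s' w) (psi t s' w')]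

/-- A normalised cocycle of positive degree becomes exact on the loops `w * rev w`. -/
theorem exL_psi [CompactSpace M] {k : Type} [Field k] {p : ℕ} {f : List (ℝ →ᵇ M) → k}
    (ht : 0 ≤ t) (hf : CocL (P a a (2 * t)) (p + 1) f) (hN : Nrm f) :
    ExL (P a b t) (p + 1) fun l => f ((l.map fun w => (w, rv t w)).map (catc t)) := by
  have h : IsHtpy (H901.tr (ℝ →ᵇ M)) (H901.tr (ℝ →ᵇ M)) (P a b t) (P a a (2 * t)) (psi t) :=
    htpy_psi ht
  have h1 := DFunLike.congr_fun (pull_homotopy (χ := H901.on k) h (p + 1))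
    (cls (H901.tr (ℝ →ᵇ M)) (H901.on k) f hf)
  rw [pull_cls, pull_cls] at h1
  have h2 : cls (H901.tr (ℝ →ᵇ M)) (H901.on k) (fun l => f (l.map (psi t 0)))
      (hf.map h.zero) = 0 := by
    rw [cls_eq_zero]
    refine exL_zero_of one_pos fun l hl hl' => ?_
    obtain ⟨w, w', l, rfl⟩ : ∃ w w' l', l = w :: w' :: l' := by
      rcases l with _ | ⟨x, _ | ⟨y, l⟩⟩
      · simp at hl
      · simp at hl
      · exact ⟨x, y, l, rfl⟩
    have e1 := psi_zero (hl'.1 w (by simp))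
    have e2 := psi_zero (hl'.1 w' (by simp))
    rw [List.map_cons, List.map_cons, e1, e2]
    exact hN.dup _ _
  rw [h2, cls_eq_zero] at h1
  refine exL_congr one_pos h1 fun l _ hl' => ?_
  congr 1
  rw [List.map_map]
  exact List.map_congr_left fun w hw => (psi_one (hl'.1 w hw)).symm

end Psi

/-! ### The signs of `eta` and of `V` -/

section Main

variable {k : Type} [Field k] {M : Type} [MetricSpace M] [CompactSpace M]
variable {n e : ℕ} {ρ₀ ρ₁ r ε η : ℝ} {y x₀ : M} {g : List (ℝ →ᵇ M) → k}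

/-- `theta^* eta = - eta`, for an additive `eta`. -/
theorem exL_eta (hg : AddE g) (hgN : Nrm g) (hc : ∀ T, CocL (P x₀ x₀ T) (e + 1) g) (c : ℕ) :
    ExL (P x₀ x₀ c) (e + 1) fun l => g l + g (l.map (rv c)) := by
  refine exL_congr one_pos (exL_psi (a := x₀) (b := x₀) (Nat.cast_nonneg c) (hc _) hgN)
    fun l hl hl' => ?_
  have hne : l ≠ [] := by
    rintro rfl
    simp at hl
  rw [hg x₀ x₀ x₀ c c (Nat.cast_nonneg c) (l.map fun w => (w, rv c w)) (by simpa using hne)
    fun x hx => ?_, List.map_map, List.map_map]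
  · congr 2
    exact (List.map_id l).symm
  · obtain ⟨w, hw, rfl⟩ := List.mem_map.1 hx
    exact ⟨hl'.1 w hw, rv_mem_P (hl'.1 w hw) le_rfl⟩

/-- **`theta^* V = - V`** on the loops of duration `c`, for `V = stp g` with `g` additive, as soon
as `stp 1` is exact there. -/
theorem exL_V (τ : Tau k M (n + 1) ρ₁) (hseg : LS.UniqSeg M ρ₀) (hr : 0 < r) (hrρ : r < ρ₀)
    (hs : Scl τ r y ε η) (hg : AddE g) (hgN : Nrm g) (hcoc : ∀ T, Coc (P x₀ y T) ε e g)
    (h0 : ρ₁ ≤ dist x₀ y) {N : ℕ} (hN : 1 / ((N : ℝ) + 1) < η) (hn : 1 ≤ n) (c : ℕ)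
    (hloop : CocL (P x₀ x₀ c) e g)
    (hT : ExL (P x₀ x₀ c) n (stp (n + 1) τ.f r (1 / ((N : ℝ) + 1)) y (one1 k _))) :
    ExL (P x₀ x₀ c) (n + e) fun l => stp (n + 1) τ.f r (1 / ((N : ℝ) + 1)) y g l +
      stp (n + 1) τ.f r (1 / ((N : ℝ) + 1)) y g (l.map (rv c)) := by
  have hδ0 : (0 : ℝ) < 1 / ((N : ℝ) + 1) := by positivity
  obtain ⟨p, rfl⟩ : ∃ p, n = p + 1 := ⟨n - 1, by omega⟩
  have hV : CocL (P x₀ x₀ (2 * (c : ℝ))) (p + e + 1)
      (stp (p + 1 + 1) τ.f r (1 / ((N : ℝ) + 1)) y g) := by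
    have h1 := stp_coc' (y' := x₀) τ hseg hr hrρ hs h0 h0 (by omega) hcoc hδ0 hN (2 * (c : ℝ))
    rw [show p + 1 + 1 + e - 1 = p + e + 1 by omega] at h1
    exact ⟨η, hs.pos, h1⟩
  have hψ := exL_psi (a := x₀) (b := x₀) (Nat.cast_nonneg c) hV (nrm_stp τ hgN)
  have hTr : ExL (P x₀ x₀ c) (p + 1) fun l =>
      stp (p + 1 + 1) τ.f r (1 / ((N : ℝ) + 1)) y (one1 k _) (l.map (rv (c : ℝ))) :=
    exL_map (map_rv (c : ℝ) fun w hw => rv_mem_P hw le_rfl) hT
  have hcup := exL_smul (-(-1 : k) ^ e) (exL_cup_left hTr hloop)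
  rw [show p + 1 + e = p + e + 1 by omega] at hcup ⊢
  refine exL_congr hs.pos (exL_add hψ hcup) fun l hl hl' => ?_
  have hm : ∀ x ∈ l.map (fun w => (w, rv (c : ℝ) w)), x.1 ∈ P x₀ x₀ c ∧ x.2 ∈ P x₀ x₀ c := by
    intro x hx
    obtain ⟨w, hw, rfl⟩ := List.mem_map.1 hx
    exact ⟨hl'.1 w hw, rv_mem_P (hl'.1 w hw) le_rfl⟩
  have hf : Fine (P x₀ x₀ c) η ((l.map fun w => (w, rv (c : ℝ) w)).map Prod.snd) := by
    refine ⟨fun u hu => ?_, fun u hu u' hu' => ?_⟩
    · obtain ⟨x, hx, rfl⟩ := List.mem_map.1 hu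
      exact (hm x hx).2
    · obtain ⟨x, hx, rfl⟩ := List.mem_map.1 hu
      obtain ⟨x', hx', rfl⟩ := List.mem_map.1 hu'
      obtain ⟨w, hw, rfl⟩ := List.mem_map.1 hx
      obtain ⟨w', hw', rfl⟩ := List.mem_map.1 hx'
      exact (dist_rv_le _ _ _).trans_lt (hl'.2 w hw w' hw')
  have h1 := stp_cat (e := e) τ hseg hr hrρ hs hg hgN h0 h0 hN (c := c) (Nat.cast_nonneg c)
    (l := l.map fun w => (w, rv (c : ℝ) w)) (by rw [List.length_map, hl]; omega) hm hf
  have e1 : (l.map fun w => (w, rv (c : ℝ) w)).map Prod.fst = l := by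
    rw [List.map_map]
    exact List.map_id l
  have e2 : (l.map fun w => (w, rv (c : ℝ) w)).map Prod.snd = l.map (rv (c : ℝ)) := by
    rw [List.map_map]
    rfl
  have e3 : ((l.map fun w => (w, rv (c : ℝ) w)).take (p + 1 + 1)).map Prod.snd =
      (l.take (p + 1 + 1)).map (rv (c : ℝ)) := by
    rw [← List.map_take, List.map_map]
    rfl
  have e4 : ((l.map fun w => (w, rv (c : ℝ) w)).drop (p + 1)).map Prod.fst = l.drop (p + 1) := by
    rw [← List.map_drop, List.map_map]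
    exact List.map_id _
  rw [e1, e2, e3, e4] at h1
  rw [h1, N929.cup]
  ring

end Main

end Vale.Agent.P216.H285
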